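import Vale.Agent.Lib.P058S.Glue42
import Vale.Agent.Lib.P058K.ArrayCrit

/-!
# A signed balanced array implies Ramsey
-/

namespace Vale.Agent.Lib.P058S.G42

open Finset Vale.Agent.Lib.P058

/-- The affine array condition gives the array condition in the general form. -/
theorem arrayCond_of_affineArray {k d : ℕ} (x : Fin k → Fin d → ℝ) (W : ℝ) (h : AffineArray x W) :
    Vale.Agent.Lib.P058C.ArrayCond (dsq x) W := by
  obtain ⟨P, N, g, hg, hl, hN, hP⟩ := h
  refine ⟨P.map (fun c i => col c (x i)), N.map (fun c i => col c (x i)), g, hg, fun i => ?_,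
    fun i j => ?_, fun i j => ?_⟩
  · simpa [Multiset.map_map, Function.comp_def] using hl i
  · simpa [Multiset.map_map, Function.comp_def] using hN i j
  · simpa [Multiset.map_map, Function.comp_def] using hP i j

/-- **A family with a signed balanced array is a Ramsey family.** -/
theorem isRamseyFamily_of_signedArray {k d : ℕ} (X : Fin k → EuclideanSpace ℝ (Fin d))
    (hs : SignedArray (fun i p => X i p)) : IsRamseyFamily X := by
  apply Vale.Agent.Lib.P058K.Crit.isRamseyFamily_of_arrayCond
  intro W hW
  have hW' : (0 : ℝ) < W := by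
    have : 0 < W := by omega
    exact_mod_cast this
  have h := arrayCond_of_affineArray _ _ (affineArray_of_signedArray _ hs (W : ℝ) hW')
  have e : dsq (fun i p => X i p) = fun i j => dist (X i) (X j) ^ 2 := by
    funext i j
    rw [EuclideanSpace.dist_eq, Real.sq_sqrt (Finset.sum_nonneg fun _ _ => sq_nonneg _)]
    simp [dsq, Real.dist_eq, sq_abs]
  rw [e] at h
  exact h

/-- **A family with a signed balanced array is Ramsey.** -/
theorem isRamsey_of_signedArray {k d : ℕ} (X : Fin k → EuclideanSpace ℝ (Fin d))
    (hs : SignedArray (fun i p => X i p)) : IsRamsey (Set.range X) :=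
  (isRamseyFamily_of_signedArray X hs).range

end Vale.Agent.Lib.P058S.G42
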