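import Mathlib

/-!
# Signed balanced arrays of affine columns
-/

namespace Vale.Agent.Lib.P058S

/-- The value at the point `y` of the affine column `c = (τ, v)`, that is `τ + ⟨v, y⟩`. -/
def col {d : ℕ} (c : ℝ × (Fin d → ℝ)) (y : Fin d → ℝ) : ℝ := c.1 + ∑ p, c.2 p * y p

/-- Squared distances of a family of real tuples. -/
def dsq {k d : ℕ} (x : Fin k → Fin d → ℝ) (i j : Fin k) : ℝ := ∑ p, (x i p - x j p) ^ 2

/-- **Signed balanced array**: finite multisets `P, N` of affine columns with the same law at every
point `x i`, and with second moment difference of the linear parts a positive multiple of the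
identity: `∑_P v vᵀ - ∑_N v vᵀ = s I`, `s > 0`. -/
def SignedArray {k d : ℕ} (x : Fin k → Fin d → ℝ) : Prop :=
  ∃ (P N : Multiset (ℝ × (Fin d → ℝ))) (s : ℝ), 0 < s ∧
    (∀ i, P.map (fun c => col c (x i)) = N.map (fun c => col c (x i))) ∧
    (∀ p q, (P.map (fun c => c.2 p * c.2 q)).sum - (N.map (fun c => c.2 p * c.2 q)).sum =
      if p = q then s else 0)

/-- The array condition with gain `W`, in affine columns: equal laws at every point, squared
distances of `N` equal to `g` times `dsq`, squared distances of `P` equal to `W * g` times `dsq`. -/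
def AffineArray {k d : ℕ} (x : Fin k → Fin d → ℝ) (W : ℝ) : Prop :=
  ∃ (P N : Multiset (ℝ × (Fin d → ℝ))) (g : ℝ), 0 < g ∧
    (∀ i, P.map (fun c => col c (x i)) = N.map (fun c => col c (x i))) ∧
    (∀ i j, (N.map (fun c => (col c (x i) - col c (x j)) ^ 2)).sum = g * dsq x i j) ∧
    (∀ i j, (P.map (fun c => (col c (x i) - col c (x j)) ^ 2)).sum = W * g * dsq x i j)

end Vale.Agent.Lib.P058S
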