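import Mathlib
import Vale.Agent.Lib.P058S.Defs

/-!
# P058: assembly of the signed-array criterion
From an invariant mean, the Frechet lemma and a separating certificate, a signed balanced array gives
the impossibility of the certificate.
-/

set_option linter.unusedVariables false
set_option linter.unusedSectionVars false

namespace Vale.Agent.Lib.P058S.Asm

open Finset

/-- Bounded real functions of a real variable. -/
def BddF (f : ℝ → ℝ) : Prop := ∃ C, ∀ x, |f x| ≤ C

/-- The properties of a translation invariant mean on bounded functions. -/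
structure IsMean (M : (ℝ → ℝ) → ℝ) : Prop where
  add : ∀ f h, BddF f → BddF h → M (f + h) = M f + M h
  smul : ∀ (c : ℝ) f, BddF f → M (c • f) = c * M f
  le : ∀ f c, BddF f → (∀ x, f x ≤ c) → M f ≤ c
  ge : ∀ f c, BddF f → (∀ x, c ≤ f x) → c ≤ M f
  shift : ∀ f s, BddF f → M (fun x => f (x + s)) = M f

/-- Iterated differences along a list of directions. -/
def D {V : Type} [Add V] : (V → ℝ) → List V → V → ℝ
  | nu, [] => nu
  | nu, a :: l => D (fun x => nu (x + a) - nu x) l

/-- Inner product of real tuples. -/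
def ip {d : ℕ} (v y : Fin d → ℝ) : ℝ := ∑ p, v p * y p

theorem BddF.add {f h : ℝ → ℝ} (hf : BddF f) (hh : BddF h) : BddF (fun x => f x + h x) := by
  obtain ⟨C, hC⟩ := hf
  obtain ⟨E, hE⟩ := hh
  exact ⟨C + E, fun x => (abs_add_le _ _).trans (add_le_add (hC x) (hE x))⟩

theorem BddF.sub {f h : ℝ → ℝ} (hf : BddF f) (hh : BddF h) : BddF (fun x => f x - h x) := by
  obtain ⟨C, hC⟩ := hf
  obtain ⟨E, hE⟩ := hh
  exact ⟨C + E, fun x => (abs_sub _ _).trans (add_le_add (hC x) (hE x))⟩

theorem BddF.shift {f : ℝ → ℝ} (hf : BddF f) (s : ℝ) : BddF (fun x => f (x + s)) := by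
  obtain ⟨C, hC⟩ := hf
  exact ⟨C, fun x => hC _⟩

theorem BddF.zero : BddF (fun _ => 0) := ⟨0, fun x => by simp⟩

namespace IsMean
variable {M : (ℝ → ℝ) → ℝ} (hM : IsMean M)
include hM

theorem zero : M (fun _ => 0) = 0 := by
  have h := hM.smul 0 (fun _ => 0) BddF.zero
  have h2 : ((0 : ℝ) • (fun _ : ℝ => (0 : ℝ))) = fun _ => 0 := by
    funext x; simp
  rw [h2] at h
  rw [h]; ring

theorem add' (f h : ℝ → ℝ) (hf : BddF f) (hh : BddF h) :
    M (fun x => f x + h x) = M f + M h := hM.add f h hf hh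

theorem sub' (f h : ℝ → ℝ) (hf : BddF f) (hh : BddF h) :
    M (fun x => f x - h x) = M f - M h := by
  have hh' : BddF ((-1 : ℝ) • h) := by
    obtain ⟨E, hE⟩ := hh
    exact ⟨E, fun x => by simpa using hE x⟩
  have h1 := hM.add f ((-1 : ℝ) • h) hf hh'
  have h2 := hM.smul (-1) h hh
  have h3 : (f + (-1 : ℝ) • h) = fun x => f x - h x := by
    funext x; simp; ring
  rw [h3] at h1
  rw [h1, h2]; ring

/-- The mean of a finite multiset sum. -/
theorem multiset_sum {α : Type} (A : Multiset α) (φ : α → ℝ → ℝ) (hφ : ∀ c, BddF (φ c)) :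
    BddF (fun t => (A.map (fun c => φ c t)).sum) ∧
    M (fun t => (A.map (fun c => φ c t)).sum) = (A.map (fun c => M (φ c))).sum := by
  induction A using Multiset.induction_on with
  | empty =>
    simpa using ⟨BddF.zero, hM.zero⟩
  | cons a A ih =>
    obtain ⟨ih1, ih2⟩ := ih
    simp only [Multiset.map_cons, Multiset.sum_cons]
    refine ⟨BddF.add (hφ a) ih1, ?_⟩
    rw [hM.add' (φ a) _ (hφ a) ih1, ih2]

end IsMean

/-- **S4.** Differences of the mean vanish. -/
theorem D_mean_zero {k d : ℕ} {M : (ℝ → ℝ) → ℝ} (hM : IsMean M) (x : Fin k → Fin d → ℝ) :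
    ∀ (S : Finset (Fin k)) (φ : Fin k → ℝ → ℝ),
      (∀ v, BddF (fun τ => ∑ a ∈ S, φ a (τ + ip v (x a)))) →
      ∀ l : List (Fin d → ℝ), l.length = S.card → ∀ v,
        D (fun v => M (fun τ => ∑ a ∈ S, φ a (τ + ip v (x a)))) l v = 0 := by
  intro S
  induction S using Finset.induction_on with
  | empty =>
    intro φ hb l hl v
    have : l = [] := by simpa using hl
    subst this
    simp only [D, Finset.sum_empty]
    exact hM.zero
  | insert a S ha ih =>
    intro φ hb l hl v
    rw [Finset.card_insert_of_notMem ha] at hl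
    cases l with
    | nil => simp at hl
    | cons w l' =>
      have hl' : l'.length = S.card := by simpa using hl
      simp only [D]
      set t : ℝ := - ip w (x a) with ht
      set φ' : Fin k → ℝ → ℝ := fun b u => φ b (u + t + ip w (x b)) - φ b u with hφ'
      have hipadd : ∀ y b, ip (y + w) (x b) = ip y (x b) + ip w (x b) := by
        intro y b
        simp [ip, add_mul, Finset.sum_add_distrib]
      have hpt : ∀ (y : Fin d → ℝ) (τ : ℝ),
          ∑ b ∈ S, φ' b (τ + ip y (x b)) =
            (∑ b ∈ insert a S, φ b (τ + t + ip (y + w) (x b))) -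
            ∑ b ∈ insert a S, φ b (τ + ip y (x b)) := by
        intro y τ
        rw [Finset.sum_insert ha, Finset.sum_insert ha, hipadd]
        have h1 : τ + t + (ip y (x a) + ip w (x a)) = τ + ip y (x a) := by
          rw [ht]; ring
        rw [h1]
        have h2 : ∑ b ∈ S, φ' b (τ + ip y (x b)) =
            ∑ b ∈ S, φ b (τ + t + ip (y + w) (x b)) - ∑ b ∈ S, φ b (τ + ip y (x b)) := by
          rw [← Finset.sum_sub_distrib]
          refine Finset.sum_congr rfl fun b _ => ?_
          simp only [hφ']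
          rw [hipadd]
          congr 2
          ring
        rw [h2]; ring
      have hB' : ∀ y, BddF (fun τ => ∑ b ∈ S, φ' b (τ + ip y (x b))) := by
        intro y
        have h := BddF.sub ((hb (y + w)).shift t) (hb y)
        simp only [hpt]
        exact h
      have hfun : (fun y => M (fun τ => ∑ b ∈ insert a S, φ b (τ + ip (y + w) (x b))) -
            M (fun τ => ∑ b ∈ insert a S, φ b (τ + ip y (x b)))) =
          fun y => M (fun τ => ∑ b ∈ S, φ' b (τ + ip y (x b))) := by
        funext y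
        have h1 := hM.sub' _ _ ((hb (y + w)).shift t) (hb y)
        have h2 := hM.shift _ t (hb (y + w))
        rw [h2] at h1
        rw [← h1]
        congr 1
        funext τ
        rw [hpt]
      rw [hfun]
      exact ih φ' hB' l' hl' v

/-- Nonnegative quadratic forms: nonnegative trace; trace zero forces the form to vanish. -/
theorem psd_trace {d : ℕ} (A : Fin d → Fin d → ℝ)
    (hA : ∀ v : Fin d → ℝ, 0 ≤ ∑ p, ∑ q, A p q * v p * v q) :
    0 ≤ ∑ p, A p p ∧ (∑ p, A p p = 0 → ∀ v : Fin d → ℝ, ∑ p, ∑ q, A p q * v p * v q = 0) := by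
  classical
  -- diagonal
  have hdiag : ∀ p, 0 ≤ A p p := by
    intro p
    have h := hA (fun r => if r = p then 1 else 0)
    simpa [Finset.sum_ite_eq', mul_ite, ite_mul] using h
  refine ⟨Finset.sum_nonneg fun p _ => hdiag p, fun h0 v => ?_⟩
  have hzero : ∀ p, A p p = 0 := by
    intro p
    exact (Finset.sum_eq_zero_iff_of_nonneg fun p _ => hdiag p).mp h0 p (Finset.mem_univ p)
  -- expansion along e_p
  have hexp : ∀ (p : Fin d) (t : ℝ),
      ∑ a, ∑ b, A a b * (v a + t * (if a = p then 1 else 0)) * (v b + t * (if b = p then 1 else 0)) =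
        (∑ a, ∑ b, A a b * v a * v b) + t * (∑ b, A p b * v b + ∑ a, A a p * v a) := by
    intro p t
    have h1 : ∀ a b, A a b * (v a + t * (if a = p then 1 else 0)) * (v b + t * (if b = p then 1 else 0))
        = A a b * v a * v b + t * ((if a = p then A a b * v b else 0) + (if b = p then A a b * v a else 0))
          + t ^ 2 * (if a = p then (if b = p then A a b else 0) else 0) := by
      intro a b
      by_cases ha : a = p <;> by_cases hb : b = p <;> simp [ha, hb] <;> ring
    simp only [h1, Finset.sum_add_distrib, ← Finset.mul_sum]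
    have e1 : ∑ a, ∑ b, (if a = p then A a b * v b else 0) = ∑ b, A p b * v b := by
      rw [Finset.sum_eq_single p]
      · simp
      · intro a _ ha; simp [ha]
      · simp
    have e2 : ∑ a, ∑ b, (if b = p then A a b * v a else 0) = ∑ a, A a p * v a := by
      refine Finset.sum_congr rfl fun a _ => ?_
      rw [Finset.sum_eq_single p]
      · simp
      · intro b _ hb; simp [hb]
      · simp
    have e3 : ∑ a, ∑ b, (if a = p then (if b = p then A a b else 0) else 0) = 0 := by
      rw [Finset.sum_eq_single p]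
      · rw [Finset.sum_eq_single p]
        · simp [hzero p]
        · intro b _ hb; simp [hb]
        · simp
      · intro a _ ha; simp [ha]
      · simp
    rw [e1, e2, e3]; ring
  have hlin : ∀ p, ∑ b, A p b * v b + ∑ a, A a p * v a = 0 := by
    intro p
    set c := ∑ b, A p b * v b + ∑ a, A a p * v a with hc
    set q0 := ∑ a, ∑ b, A a b * v a * v b with hq0
    by_contra hne
    have hpos : 0 < c ^ 2 := by positivity
    have := hA (fun a => v a + (-(q0 + 1) / c ^ 2 * c) * (if a = p then 1 else 0))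
    rw [hexp p] at this
    have h3 : -(q0 + 1) / c ^ 2 * c * c = -(q0 + 1) := by
      field_simp
    nlinarith
  have hsum : 2 * ∑ p, ∑ q, A p q * v p * v q =
      ∑ p, v p * (∑ b, A p b * v b + ∑ a, A a p * v a) := by
    have e1 : ∑ p, v p * ∑ b, A p b * v b = ∑ p, ∑ q, A p q * v p * v q := by
      refine Finset.sum_congr rfl fun p _ => ?_
      rw [Finset.mul_sum]
      refine Finset.sum_congr rfl fun q _ => ?_
      ring
    have e2 : ∑ p, v p * ∑ a, A a p * v a = ∑ p, ∑ q, A p q * v p * v q := by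
      rw [Finset.sum_comm (f := fun p q => A p q * v p * v q)]
      refine Finset.sum_congr rfl fun p _ => ?_
      rw [Finset.mul_sum]
      refine Finset.sum_congr rfl fun q _ => ?_
      ring
    simp only [mul_add, Finset.sum_add_distrib]
    rw [e1, e2]; ring
  have : 2 * ∑ p, ∑ q, A p q * v p * v q = 0 := by
    rw [hsum]
    exact Finset.sum_eq_zero fun p _ => by rw [hlin p]; ring
  linarith


/-- The quadratic expression of a weight matrix on the differences of a direction `v`. -/
def Qf {k d : ℕ} (x : Fin k → Fin d → ℝ) (g : Fin k → Fin k → ℝ) (v : Fin d → ℝ) : ℝ :=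
  ∑ i, ∑ j, g i j * (ip v (x i) - ip v (x j)) ^ 2

/-- The matrix of `Qf`. -/
def Gam {k d : ℕ} (x : Fin k → Fin d → ℝ) (g : Fin k → Fin k → ℝ) (p q : Fin d) : ℝ :=
  ∑ i, ∑ j, g i j * ((x i p - x j p) * (x i q - x j q))

theorem col_sub {k d : ℕ} (x : Fin k → Fin d → ℝ) (c : ℝ × (Fin d → ℝ)) (i j : Fin k) :
    col c (x i) - col c (x j) = ip c.2 (x i) - ip c.2 (x j) := by
  simp [col, ip]

theorem ip_sub {k d : ℕ} (x : Fin k → Fin d → ℝ) (v : Fin d → ℝ) (i j : Fin k) :
    ip v (x i) - ip v (x j) = ∑ p, v p * (x i p - x j p) := by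
  simp [ip, mul_sub, Finset.sum_sub_distrib]

theorem Qf_eq {k d : ℕ} (x : Fin k → Fin d → ℝ) (g : Fin k → Fin k → ℝ) (v : Fin d → ℝ) :
    Qf x g v = ∑ p, ∑ q, Gam x g p q * v p * v q := by
  unfold Qf Gam
  have h : ∀ i j, (ip v (x i) - ip v (x j)) ^ 2 =
      ∑ p, ∑ q, ((x i p - x j p) * (x i q - x j q)) * v p * v q := by
    intro i j
    rw [ip_sub, sq, Finset.sum_mul_sum]
    refine Finset.sum_congr rfl fun p _ => Finset.sum_congr rfl fun q _ => ?_
    ring
  set t : Fin k → Fin k → Fin d → Fin d → ℝ :=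
    fun i j p q => g i j * ((x i p - x j p) * (x i q - x j q)) * v p * v q with ht
  have hL : ∀ i j, g i j * (ip v (x i) - ip v (x j)) ^ 2 = ∑ p, ∑ q, t i j p q := by
    intro i j
    rw [h, Finset.mul_sum]
    refine Finset.sum_congr rfl fun p _ => ?_
    rw [Finset.mul_sum]
    refine Finset.sum_congr rfl fun q _ => ?_
    simp only [ht]; ring
  have hR : ∀ p q, (∑ i, ∑ j, g i j * ((x i p - x j p) * (x i q - x j q))) * v p * v q =
      ∑ i, ∑ j, t i j p q := by
    intro p q
    rw [Finset.sum_mul, Finset.sum_mul]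
    refine Finset.sum_congr rfl fun i _ => ?_
    rw [Finset.sum_mul, Finset.sum_mul]
  simp only [hL, hR]
  calc ∑ i, ∑ j, ∑ p, ∑ q, t i j p q
      = ∑ i, ∑ p, ∑ j, ∑ q, t i j p q :=
        Finset.sum_congr rfl fun i _ => Finset.sum_comm
    _ = ∑ p, ∑ i, ∑ j, ∑ q, t i j p q := Finset.sum_comm
    _ = ∑ p, ∑ i, ∑ q, ∑ j, t i j p q :=
        Finset.sum_congr rfl fun p _ => Finset.sum_congr rfl fun i _ => Finset.sum_comm
    _ = ∑ p, ∑ q, ∑ i, ∑ j, t i j p q :=
        Finset.sum_congr rfl fun p _ => Finset.sum_comm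

/-- The trace of `Gam` is the weighted sum of squared distances. -/
theorem trace_Gam {k d : ℕ} (x : Fin k → Fin d → ℝ) (g : Fin k → Fin k → ℝ) :
    ∑ p, Gam x g p p = ∑ i, ∑ j, g i j * dsq x i j := by
  unfold Gam dsq
  calc ∑ p, ∑ i, ∑ j, g i j * ((x i p - x j p) * (x i p - x j p))
      = ∑ i, ∑ p, ∑ j, g i j * ((x i p - x j p) * (x i p - x j p)) := Finset.sum_comm
    _ = ∑ i, ∑ j, ∑ p, g i j * ((x i p - x j p) * (x i p - x j p)) :=
        Finset.sum_congr rfl fun i _ => Finset.sum_comm
    _ = _ := by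
        refine Finset.sum_congr rfl fun i _ => Finset.sum_congr rfl fun j _ => ?_
        rw [Finset.mul_sum]
        refine Finset.sum_congr rfl fun p _ => ?_
        ring

/-- Cauchy-Schwarz bound for `Qf`. -/
theorem abs_Qf_le {k d : ℕ} (x : Fin k → Fin d → ℝ) (g : Fin k → Fin k → ℝ) (v : Fin d → ℝ) :
    |Qf x g v| ≤ (∑ i, ∑ j, |g i j| * dsq x i j) * ∑ p, v p ^ 2 := by
  unfold Qf
  have hterm : ∀ i j, |g i j * (ip v (x i) - ip v (x j)) ^ 2| ≤
      |g i j| * dsq x i j * ∑ p, v p ^ 2 := by
    intro i j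
    rw [abs_mul, abs_of_nonneg (sq_nonneg (ip v (x i) - ip v (x j))), mul_assoc]
    refine mul_le_mul_of_nonneg_left ?_ (abs_nonneg _)
    rw [ip_sub]
    have := Finset.sum_mul_sq_le_sq_mul_sq Finset.univ v (fun p => x i p - x j p)
    unfold dsq
    linarith
  calc |∑ i, ∑ j, g i j * (ip v (x i) - ip v (x j)) ^ 2|
      ≤ ∑ i, |∑ j, g i j * (ip v (x i) - ip v (x j)) ^ 2| := Finset.abs_sum_le_sum_abs _ _
    _ ≤ ∑ i, ∑ j, |g i j * (ip v (x i) - ip v (x j)) ^ 2| :=
        Finset.sum_le_sum fun i _ => Finset.abs_sum_le_sum_abs _ _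
    _ ≤ ∑ i, ∑ j, |g i j| * dsq x i j * ∑ p, v p ^ 2 :=
        Finset.sum_le_sum fun i _ => Finset.sum_le_sum fun j _ => hterm i j
    _ = _ := by simp only [Finset.sum_mul]

/-- Multiset sums of a finite sum. -/
theorem multiset_sum_finset {α β : Type} (A : Multiset α) (s : Finset β) (h : β → α → ℝ) :
    (A.map (fun c => ∑ a ∈ s, h a c)).sum = ∑ a ∈ s, (A.map (h a)).sum := by
  induction A using Multiset.induction_on with
  | empty => simp
  | cons c A ih =>
    simp only [Multiset.map_cons, Multiset.sum_cons, ih, Finset.sum_add_distrib]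

/-- Multiset sums of scalar multiples. -/
theorem multiset_sum_mul {α : Type} (A : Multiset α) (b : ℝ) (h : α → ℝ) :
    (A.map (fun c => b * h c)).sum = b * (A.map h).sum := by
  induction A using Multiset.induction_on with
  | empty => simp
  | cons c A ih =>
    simp only [Multiset.map_cons, Multiset.sum_cons, ih, mul_add]

/-- Multiset sums of a sum of two. -/
theorem multiset_sum_neg {α : Type} (A : Multiset α) (h : α → ℝ) :
    (A.map (fun c => - h c)).sum = - (A.map h).sum := by
  induction A using Multiset.induction_on with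
  | empty => simp
  | cons c A ih =>
    simp only [Multiset.map_cons, Multiset.sum_cons, ih]; ring

/-- **The assembly.** A mean, the Frechet lemma and a signed array exclude every certificate. -/
theorem no_certificate {k d : ℕ} {M : (ℝ → ℝ) → ℝ} (hM : IsMean M)
    (hFrechet : ∀ (nu : (Fin d → ℝ) → ℝ) (K : ℕ),
      (∀ l : List (Fin d → ℝ), l.length = K → ∀ x, D nu l x = 0) →
      ∀ C : ℝ, (∀ v, |nu v| ≤ C * ∑ p, v p ^ 2) →
      ∃ B : Fin d → Fin d → ℝ, ∀ v, nu v = ∑ p, ∑ q, B p q * v p * v q)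
    (x : Fin k → Fin d → ℝ)
    (P₀ N₀ : Multiset (ℝ × (Fin d → ℝ))) (s : ℝ) (hs : 0 < s)
    (hlaw₀ : ∀ i, P₀.map (fun c => col c (x i)) = N₀.map (fun c => col c (x i)))
    (hS : ∀ p q, (P₀.map (fun c => c.2 p * c.2 q)).sum - (N₀.map (fun c => c.2 p * c.2 q)).sum =
      if p = q then s else 0)
    (W : ℝ) (hW : 0 < W)
    (f : Fin k → ℝ → ℝ) (g g' : Fin k → Fin k → ℝ)
    (hU : ∀ c : ℝ × (Fin d → ℝ), ∑ a, f a (col c (x a)) ≤
      ∑ i, ∑ j, g' i j * (col c (x i) - col c (x j)) ^ 2)
    (hL : ∀ c : ℝ × (Fin d → ℝ), - ∑ a, f a (col c (x a)) ≤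
      ∑ i, ∑ j, g i j * (col c (x i) - col c (x j)) ^ 2)
    (hG : ∑ i, ∑ j, g i j * dsq x i j + W * ∑ i, ∑ j, g' i j * dsq x i j ≤ 0) :
    (∑ i, ∑ j, g i j * dsq x i j + W * ∑ i, ∑ j, g' i j * dsq x i j = 0) ∧
    ∀ P N : Multiset (ℝ × (Fin d → ℝ)),
      (∀ i, P.map (fun c => col c (x i)) = N.map (fun c => col c (x i))) →
      (N.map (fun c => ∑ i, ∑ j, g i j * (col c (x i) - col c (x j)) ^ 2)).sum +
      (P.map (fun c => ∑ i, ∑ j, g' i j * (col c (x i) - col c (x j)) ^ 2)).sum = 0 := by
  classical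
  -- the function F and its bounds
  set G : (Fin d → ℝ) → ℝ → ℝ := fun v τ => ∑ a, f a (τ + ip v (x a)) with hGdef
  have hcolmk : ∀ (τ : ℝ) (v : Fin d → ℝ) (a : Fin k), col (τ, v) (x a) = τ + ip v (x a) := by
    intro τ v a; rfl
  have hQc : ∀ (h : Fin k → Fin k → ℝ) (c : ℝ × (Fin d → ℝ)),
      ∑ i, ∑ j, h i j * (col c (x i) - col c (x j)) ^ 2 = Qf x h c.2 := by
    intro h c
    unfold Qf
    simp only [col_sub]
  have hUp : ∀ v τ, G v τ ≤ Qf x g' v := by
    intro v τ
    have := hU (τ, v)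
    rw [hQc] at this
    simpa only [hcolmk] using this
  have hLo : ∀ v τ, - G v τ ≤ Qf x g v := by
    intro v τ
    have := hL (τ, v)
    rw [hQc] at this
    simpa only [hcolmk] using this
  have hBdd : ∀ v, BddF (G v) := by
    intro v
    refine ⟨|Qf x g v| + |Qf x g' v|, fun τ => ?_⟩
    have h1 := hUp v τ
    have h2 := hLo v τ
    have h3 := le_abs_self (Qf x g v)
    have h4 := le_abs_self (Qf x g' v)
    have h5 := abs_nonneg (Qf x g v)
    have h6 := abs_nonneg (Qf x g' v)
    rw [abs_le]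
    constructor <;> linarith
  set nu : (Fin d → ℝ) → ℝ := fun v => M (G v) with hnu
  have hnuU : ∀ v, nu v ≤ Qf x g' v := fun v => hM.le _ _ (hBdd v) (hUp v)
  have hnuL : ∀ v, - Qf x g v ≤ nu v := fun v =>
    hM.ge _ _ (hBdd v) (fun τ => by have := hLo v τ; linarith)
  -- Frechet
  have hD : ∀ l : List (Fin d → ℝ), l.length = k → ∀ v, D nu l v = 0 := by
    intro l hl v
    have h := D_mean_zero hM x Finset.univ f hBdd l (by simpa using hl) v
    exact h
  have hquadb : ∀ v, |nu v| ≤ ((∑ i, ∑ j, |g i j| * dsq x i j) +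
      (∑ i, ∑ j, |g' i j| * dsq x i j)) * ∑ p, v p ^ 2 := by
    intro v
    have h1 := abs_Qf_le x g v
    have h2 := abs_Qf_le x g' v
    have h3 := le_abs_self (Qf x g v)
    have h4 := le_abs_self (Qf x g' v)
    have h5 := abs_nonneg (Qf x g v)
    have h6 := abs_nonneg (Qf x g' v)
    have h7 := hnuU v
    have h8 := hnuL v
    have h9 : |nu v| ≤ |Qf x g v| + |Qf x g' v| := by
      rw [abs_le]; constructor <;> linarith
    rw [add_mul]
    linarith
  obtain ⟨B, hB⟩ := hFrechet nu k hD _ hquadb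
  -- equal laws
  have hlawsum : ∀ P N : Multiset (ℝ × (Fin d → ℝ)),
      (∀ i, P.map (fun c => col c (x i)) = N.map (fun c => col c (x i))) →
      (P.map (fun c => nu c.2)).sum = (N.map (fun c => nu c.2)).sum := by
    intro P N hlaw
    set φ : ℝ × (Fin d → ℝ) → ℝ → ℝ := fun c t => G c.2 (t + c.1) with hφ
    have hφB : ∀ c, BddF (φ c) := fun c => (hBdd c.2).shift c.1
    have hφM : ∀ c, M (φ c) = nu c.2 := fun c => hM.shift _ c.1 (hBdd c.2)
    have hsum : ∀ (A : Multiset (ℝ × (Fin d → ℝ))) (t : ℝ),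
        (A.map (fun c => φ c t)).sum = ∑ a, ((A.map (fun c => col c (x a))).map (fun y => f a (t + y))).sum := by
      intro A t
      have : (fun c => φ c t) = fun c : ℝ × (Fin d → ℝ) => ∑ a, f a (t + col c (x a)) := by
        funext c
        simp only [hφ, hGdef, col, ip]
        refine Finset.sum_congr rfl fun a _ => ?_
        congr 1
        ring
      rw [this, multiset_sum_finset]
      refine Finset.sum_congr rfl fun a _ => ?_
      rw [Multiset.map_map]
      rfl
    have hP := (hM.multiset_sum P φ hφB).2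
    have hN := (hM.multiset_sum N φ hφB).2
    simp only [hφM] at hP hN
    rw [← hP, ← hN]
    congr 1
    funext t
    rw [hsum, hsum]
    refine Finset.sum_congr rfl fun a _ => ?_
    rw [hlaw a]
  -- trace of B vanishes
  have htrB : ∑ p, B p p = 0 := by
    have h := hlawsum P₀ N₀ hlaw₀
    have hexp : ∀ A : Multiset (ℝ × (Fin d → ℝ)), (A.map (fun c => nu c.2)).sum =
        ∑ p, ∑ q, B p q * (A.map (fun c => c.2 p * c.2 q)).sum := by
      intro A
      have h1 : (fun c : ℝ × (Fin d → ℝ) => nu c.2) =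
          fun c => ∑ p, ∑ q, B p q * (c.2 p * c.2 q) := by
        funext c
        rw [hB]
        refine Finset.sum_congr rfl fun p _ => Finset.sum_congr rfl fun q _ => ?_
        ring
      rw [h1, multiset_sum_finset]
      refine Finset.sum_congr rfl fun p _ => ?_
      rw [multiset_sum_finset]
      refine Finset.sum_congr rfl fun q _ => ?_
      rw [multiset_sum_mul]
    rw [hexp, hexp] at h
    have h2 : ∑ p, ∑ q, B p q * ((P₀.map (fun c => c.2 p * c.2 q)).sum -
        (N₀.map (fun c => c.2 p * c.2 q)).sum) = 0 := by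
      simp only [mul_sub, Finset.sum_sub_distrib]
      linarith
    simp only [hS] at h2
    have h3 : ∑ p, ∑ q, B p q * (if p = q then s else 0) = s * ∑ p, B p p := by
      rw [Finset.mul_sum]
      refine Finset.sum_congr rfl fun p _ => ?_
      rw [Finset.sum_eq_single p]
      · simp; ring
      · intro q _ hq
        have : p ≠ q := fun e => hq e.symm
        simp [this]
      · simp
    rw [h3] at h2
    have := mul_eq_zero.mp h2
    rcases this with h | h
    · exact absurd h hs.ne'
    · exact h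
  -- the two forms
  have hA1 : ∀ v : Fin d → ℝ, 0 ≤ ∑ p, ∑ q, (Gam x g p q + B p q) * v p * v q := by
    intro v
    have h1 : ∑ p, ∑ q, (Gam x g p q + B p q) * v p * v q = Qf x g v + nu v := by
      rw [Qf_eq, hB, ← Finset.sum_add_distrib]
      refine Finset.sum_congr rfl fun p _ => ?_
      rw [← Finset.sum_add_distrib]
      refine Finset.sum_congr rfl fun q _ => ?_
      ring
    rw [h1]
    linarith [hnuL v]
  have hA2 : ∀ v : Fin d → ℝ, 0 ≤ ∑ p, ∑ q, (Gam x g' p q + - B p q) * v p * v q := by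
    intro v
    have h1 : ∑ p, ∑ q, (Gam x g' p q + - B p q) * v p * v q = Qf x g' v - nu v := by
      rw [Qf_eq, hB, ← Finset.sum_sub_distrib]
      refine Finset.sum_congr rfl fun p _ => ?_
      rw [← Finset.sum_sub_distrib]
      refine Finset.sum_congr rfl fun q _ => ?_
      ring
    rw [h1]
    linarith [hnuU v]
  obtain ⟨h1a, h1b⟩ := psd_trace _ hA1
  obtain ⟨h2a, h2b⟩ := psd_trace _ hA2
  have htr1 : ∑ p, (Gam x g p p + B p p) = ∑ i, ∑ j, g i j * dsq x i j := by
    rw [Finset.sum_add_distrib, trace_Gam, htrB, add_zero]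
  have htr2 : ∑ p, (Gam x g' p p + - B p p) = ∑ i, ∑ j, g' i j * dsq x i j := by
    rw [Finset.sum_add_distrib, trace_Gam, Finset.sum_neg_distrib, htrB]; simp
  rw [htr1] at h1a h1b
  rw [htr2] at h2a h2b
  have hG0 : ∑ i, ∑ j, g i j * dsq x i j = 0 := by nlinarith [mul_nonneg hW.le h2a]
  have hG0' : ∑ i, ∑ j, g' i j * dsq x i j = 0 := by
    have : W * ∑ i, ∑ j, g' i j * dsq x i j ≤ 0 := by linarith
    have h3 : 0 ≤ W * ∑ i, ∑ j, g' i j * dsq x i j := mul_nonneg hW.le h2a
    have h4 : W * ∑ i, ∑ j, g' i j * dsq x i j = 0 := le_antisymm this h3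
    exact (mul_eq_zero.mp h4).resolve_left hW.ne'
  refine ⟨by rw [hG0, hG0']; ring, fun P N hlaw => ?_⟩
  have hq1 : ∀ v, Qf x g v = - nu v := by
    intro v
    have := h1b hG0 v
    have h1 : ∑ p, ∑ q, (Gam x g p q + B p q) * v p * v q = Qf x g v + nu v := by
      rw [Qf_eq, hB, ← Finset.sum_add_distrib]
      refine Finset.sum_congr rfl fun p _ => ?_
      rw [← Finset.sum_add_distrib]
      refine Finset.sum_congr rfl fun q _ => ?_
      ring
    rw [h1] at this
    linarith
  have hq2 : ∀ v, Qf x g' v = nu v := by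
    intro v
    have := h2b hG0' v
    have h1 : ∑ p, ∑ q, (Gam x g' p q + - B p q) * v p * v q = Qf x g' v - nu v := by
      rw [Qf_eq, hB, ← Finset.sum_sub_distrib]
      refine Finset.sum_congr rfl fun p _ => ?_
      rw [← Finset.sum_sub_distrib]
      refine Finset.sum_congr rfl fun q _ => ?_
      ring
    rw [h1] at this
    linarith
  simp only [hQc, hq1, hq2]
  rw [multiset_sum_neg, hlawsum P N hlaw]
  ring

end Vale.Agent.Lib.P058S.Asm
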