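import Mathlib

/-!
# The abstract Hahn-Banach step for the certificate

`law` and `val` are additive; `val` is nonnegative on pairs of equal law.  Then a `ℚ`-linear
functional is dominated by `val`.
-/

set_option linter.unusedSectionVars false

namespace Vale.Agent.Lib.P058S

/-- The statement of the rational Hahn-Banach theorem, as a hypothesis-free interface. -/
def RatHB : Prop :=
  ∀ (V : Type) [AddCommGroup V] [Module ℚ V] (p : V → ℝ), (∀ u v, p (u + v) ≤ p u + p v) →
    (∀ (q : ℚ), 0 < q → ∀ v, p (q • v) = q * p v) → ∃ ψ : V →ₗ[ℚ] ℝ, ∀ v, ψ v ≤ p v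

section

variable {C A : Type} [AddCommGroup A] [Module ℚ A]
  (law : Multiset C → A) (val : Multiset C → Multiset C → ℝ)

/-- The set of values of representations of `u`. -/
def Rep (u : A) : Set ℝ :=
  {r | ∃ (m : ℕ) (P N : Multiset C), 0 < m ∧ m • u = law P - law N ∧ r = val P N / m}

variable (hlaw0 : law 0 = 0) (hlawadd : ∀ P Q, law (P + Q) = law P + law Q)
  (hval0 : val 0 0 = 0) (hvaladd : ∀ P Q P' Q', val (P + P') (Q + Q') = val P Q + val P' Q')
  (hnn : ∀ P N, law P = law N → 0 ≤ val P N)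

include hlaw0 hlawadd in
theorem law_nsmul (n : ℕ) (P : Multiset C) : law (n • P) = n • law P := by
  induction n with
  | zero => simp [hlaw0]
  | succ n ih => rw [succ_nsmul, succ_nsmul, hlawadd, ih]

include hval0 hvaladd in
theorem val_nsmul (n : ℕ) (P N : Multiset C) : val (n • P) (n • N) = n * val P N := by
  induction n with
  | zero => simp [hval0]
  | succ n ih =>
    rw [succ_nsmul, succ_nsmul, hvaladd, ih]
    push_cast
    ring

include hlaw0 hlawadd hval0 hvaladd in
theorem rep_add {u v : A} {r s : ℝ} (hr : r ∈ Rep law val u) (hs : s ∈ Rep law val v) :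
    r + s ∈ Rep law val (u + v) := by
  obtain ⟨m, P, N, hm, hu, rfl⟩ := hr
  obtain ⟨m', P', N', hm', hv, rfl⟩ := hs
  refine ⟨m * m', m' • P + m • P', m' • N + m • N', Nat.mul_pos hm hm', ?_, ?_⟩
  · rw [hlawadd, hlawadd, law_nsmul law hlaw0 hlawadd, law_nsmul law hlaw0 hlawadd,
      law_nsmul law hlaw0 hlawadd, law_nsmul law hlaw0 hlawadd]
    have e1 : (m * m') • (u + v) = m' • (m • u) + m • (m' • v) := by
      rw [smul_add, ← mul_smul, ← mul_smul, mul_comm m' m]
    rw [e1, hu, hv]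
    simp only [smul_sub]
    abel
  · rw [hvaladd, val_nsmul val hval0 hvaladd, val_nsmul val hval0 hvaladd]
    have h1 : (m : ℝ) ≠ 0 := by positivity
    have h2 : (m' : ℝ) ≠ 0 := by positivity
    push_cast
    field_simp

theorem rep_neg {u : A} {r : ℝ} (hr : r ∈ Rep law val u) :
    ∃ s, s ∈ Rep (C := C) (A := A) law val (-u) := by
  obtain ⟨m, P, N, hm, hu, rfl⟩ := hr
  refine ⟨val N P / m, m, N, P, hm, ?_, rfl⟩
  rw [smul_neg, hu]
  abel

include hnn in
theorem rep_zero_nonneg {r : ℝ} (hr : r ∈ Rep law val (0 : A)) : 0 ≤ r := by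
  obtain ⟨m, P, N, hm, hu, rfl⟩ := hr
  have : law P = law N := by
    rw [smul_zero] at hu
    exact (sub_eq_zero.mp hu.symm)
  exact div_nonneg (hnn P N this) (by positivity)

include hlaw0 hlawadd hval0 hvaladd in
theorem rep_smul {u : A} {r : ℝ} (hr : r ∈ Rep law val u) {q : ℚ} (hq : 0 < q) :
    (q : ℝ) * r ∈ Rep law val (q • u) := by
  obtain ⟨m, P, N, hm, hu, rfl⟩ := hr
  obtain ⟨n, hn⟩ : ∃ n : ℕ, (n : ℤ) = q.num := ⟨q.num.toNat, Int.toNat_of_nonneg
    (Rat.num_pos.mpr hq).le⟩
  have hb : 0 < q.den := q.den_pos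
  have hqq : q * (q.den : ℚ) = n := by
    rw [Rat.mul_den_eq_num, ← hn]
    simp
  refine ⟨q.den * m, n • P, n • N, Nat.mul_pos hb hm, ?_, ?_⟩
  · rw [law_nsmul law hlaw0 hlawadd, law_nsmul law hlaw0 hlawadd, ← smul_sub, ← hu]
    have e : (q.den * m) • (q • u) = (m * n) • u := by
      rw [← Nat.cast_smul_eq_nsmul ℚ, ← Nat.cast_smul_eq_nsmul ℚ, smul_smul]
      congr 1
      push_cast
      rw [← hqq]
      ring
    rw [e, mul_smul, smul_comm]
  · rw [val_nsmul val hval0 hvaladd]
    have hqr : (q : ℝ) * (q.den : ℝ) = n := by exact_mod_cast hqq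
    have h1 : (m : ℝ) ≠ 0 := by positivity
    have h2 : (q.den : ℝ) ≠ 0 := by positivity
    push_cast
    rw [← hqr]
    field_simp

/-- The abstract Hahn-Banach step. -/
theorem hb_abstract (hHB : RatHB) (hlaw0 : law 0 = 0)
    (hlawadd : ∀ P Q, law (P + Q) = law P + law Q)
    (hval0 : val 0 0 = 0) (hvaladd : ∀ P Q P' Q', val (P + P') (Q + Q') = val P Q + val P' Q')
    (hnn : ∀ P N, law P = law N → 0 ≤ val P N) :
    ∃ ψ : A →ₗ[ℚ] ℝ, ∀ P N, ψ (law P - law N) ≤ val P N := by
  classical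
  have h0mem : (0 : ℝ) ∈ Rep law val (0 : A) := by
    refine ⟨1, 0, 0, one_pos, ?_, ?_⟩
    · simp [hlaw0]
    · simp [hval0]
  let V : Submodule ℚ A :=
    { carrier := {u | (Rep law val u).Nonempty}
      add_mem' := by
        rintro u v ⟨r, hr⟩ ⟨s, hs⟩
        exact ⟨_, rep_add law val hlaw0 hlawadd hval0 hvaladd hr hs⟩
      zero_mem' := ⟨0, h0mem⟩
      smul_mem' := by
        rintro q u ⟨r, hr⟩
        rcases lt_trichotomy q 0 with hq | hq | hq
        · obtain ⟨s, hs⟩ := rep_neg law val hr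
          have hq' : 0 < -q := by linarith
          have := rep_smul law val hlaw0 hlawadd hval0 hvaladd hs hq'
          rw [neg_smul, smul_neg, neg_neg] at this
          exact ⟨_, this⟩
        · subst hq
          rw [zero_smul]
          exact ⟨0, h0mem⟩
        · exact ⟨_, rep_smul law val hlaw0 hlawadd hval0 hvaladd hr hq⟩ }
  have hne : ∀ w : V, (Rep law val (w : A)).Nonempty := fun w => w.2
  have hbdd : ∀ w : V, BddBelow (Rep law val (w : A)) := by
    intro w
    obtain ⟨r, hr⟩ := hne w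
    obtain ⟨s, hs⟩ := rep_neg law val hr
    refine ⟨-s, fun t ht => ?_⟩
    have := rep_add law val hlaw0 hlawadd hval0 hvaladd ht hs
    rw [add_neg_cancel] at this
    have := rep_zero_nonneg law val hnn this
    linarith
  let p : V → ℝ := fun w => sInf (Rep law val (w : A))
  have p_le : ∀ (w : V) {r : ℝ}, r ∈ Rep law val (w : A) → p w ≤ r :=
    fun w r hr => csInf_le (hbdd w) hr
  have le_p : ∀ (w : V) {L : ℝ}, (∀ r ∈ Rep law val (w : A), L ≤ r) → L ≤ p w :=
    fun w L hL => le_csInf (hne w) hL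
  have hadd : ∀ u v : V, p (u + v) ≤ p u + p v := by
    intro u v
    have h1 : p (u + v) - p v ≤ p u := by
      refine le_p u fun r hr => ?_
      have h2 : p (u + v) - r ≤ p v := by
        refine le_p v fun s hs => ?_
        have h3 := p_le (u + v) (r := r + s) (by
          simpa using rep_add law val hlaw0 hlawadd hval0 hvaladd hr hs)
        linarith
      linarith
    linarith
  have hle : ∀ (q : ℚ), 0 < q → ∀ v : V, p (q • v) ≤ q * p v := by
    intro q hq v
    have hq' : (0 : ℝ) < q := by exact_mod_cast hq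
    have h1 : p (q • v) / q ≤ p v := by
      refine le_p v fun r hr => ?_
      have h2 := p_le (q • v) (r := (q : ℝ) * r) (by
        simpa using rep_smul law val hlaw0 hlawadd hval0 hvaladd hr hq)
      rw [div_le_iff₀ hq']
      linarith
    rw [div_le_iff₀ hq'] at h1
    linarith
  have hsmul : ∀ (q : ℚ), 0 < q → ∀ v : V, p (q • v) = q * p v := by
    intro q hq v
    apply le_antisymm (hle q hq v)
    have hq' : (0 : ℝ) < q := by exact_mod_cast hq
    have hinv : 0 < q⁻¹ := inv_pos.mpr hq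
    have h1 := hle q⁻¹ hinv (q • v)
    rw [smul_smul, inv_mul_cancel₀ hq.ne', one_smul] at h1
    have h2 : ((q⁻¹ : ℚ) : ℝ) = (q : ℝ)⁻¹ := by push_cast; rfl
    rw [h2] at h1
    have h3 : (q : ℝ) * p v ≤ (q : ℝ) * ((q : ℝ)⁻¹ * p (q • v)) :=
      mul_le_mul_of_nonneg_left h1 hq'.le
    rw [← mul_assoc, mul_inv_cancel₀ hq'.ne', one_mul] at h3
    exact h3
  obtain ⟨ψ, hψ⟩ := hHB V p hadd hsmul
  obtain ⟨ψ', hψ'⟩ := LinearMap.exists_extend ψ
  refine ⟨ψ', fun P N => ?_⟩
  have hmem : ∀ P N, val P N ∈ Rep law val (law P - law N) := by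
    intro P N
    refine ⟨1, P, N, one_pos, by simp, by simp⟩
  let w : V := ⟨law P - law N, ⟨_, hmem P N⟩⟩
  have e1 : ψ' (law P - law N) = ψ w := by
    have := congrArg (fun T : V →ₗ[ℚ] ℝ => T w) hψ'
    simpa [w] using this
  rw [e1]
  exact (hψ w).trans (p_le w (hmem P N))

end

end Vale.Agent.Lib.P058S
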