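import Mathlib
import Vale.Agent.Lib.P058K.ProperSep
import Vale.Agent.Lib.P058K.RatHahnBanach
import Vale.Agent.Lib.P058S.HBAbstract

/-!
# The certificate for a failing array condition (columns from an arbitrary scalable family)
-/

set_option linter.unusedSectionVars false

namespace Vale.Agent.Lib.P058S

open Finset

section

variable {k : ℕ} {C : Type} (col : C → Fin k → ℝ)

/-- Sum of squared differences of rows `i, j` over a multiset of columns. -/
noncomputable def DD (P : Multiset C) (i j : Fin k) : ℝ :=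
  (P.map fun c => (col c i - col c j) ^ 2).sum

theorem DD_zero (i j : Fin k) : DD col 0 i j = 0 := by simp [DD]

theorem DD_add (P Q : Multiset C) (i j : Fin k) : DD col (P + Q) i j = DD col P i j + DD col Q i j := by
  simp [DD]

theorem DD_singleton (c : C) (i j : Fin k) : DD col {c} i j = (col c i - col c j) ^ 2 := by
  simp [DD]

/-- The law of one column. -/
noncomputable def ell (c : C) : Fin k → (ℝ →₀ ℚ) := fun a => Finsupp.single (col c a) 1

/-- The law of a multiset of columns. -/
noncomputable def lawM (P : Multiset C) : Fin k → (ℝ →₀ ℚ) := (P.map (ell col)).sum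

theorem lawM_zero : lawM col 0 = 0 := by simp [lawM]

theorem lawM_add (P Q : Multiset C) : lawM col (P + Q) = lawM col P + lawM col Q := by
  simp [lawM]

theorem lawM_singleton (c : C) : lawM col {c} = ell col c := by simp [lawM]

theorem lawM_apply (P : Multiset C) (a : Fin k) (s : ℝ) :
    lawM col P a s = ((P.map fun c => col c a).count s : ℚ) := by
  classical
  induction P using Multiset.induction_on with
  | empty => simp [lawM]
  | cons c P ih =>
    have h1 : lawM col (c ::ₘ P) = ell col c + lawM col P := by simp [lawM]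
    rw [h1, Pi.add_apply, Finsupp.add_apply, ih, Multiset.map_cons, Multiset.count_cons]
    simp only [ell, Finsupp.single_apply]
    push_cast
    by_cases h : col c a = s
    · simp [h]; ring
    · have h' : ¬ s = col c a := fun e => h e.symm
      simp [h, h']

theorem eqLaw_of_lawM {P N : Multiset C} (h : lawM col P = lawM col N) (a : Fin k) :
    P.map (fun c => col c a) = N.map (fun c => col c a) := by
  classical
  ext s
  have h1 := lawM_apply col P a s
  have h2 := lawM_apply col N a s
  rw [h] at h1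
  have h3 : ((P.map fun c => col c a).count s : ℚ) = ((N.map fun c => col c a).count s : ℚ) := by
    rw [← h1, h2]
  exact_mod_cast h3

/-- The certificate. -/
theorem certificate_abstract
    (hscale : ∀ t : ℝ, 0 < t → ∀ c, ∃ c', ∀ a, col c' a = t * col c a)
    (dsq : Fin k → Fin k → ℝ) (W : ℝ)
    (hno : ¬ ∃ (P N : Multiset C) (g : ℝ), 0 < g ∧
      (∀ a, P.map (fun c => col c a) = N.map (fun c => col c a)) ∧
      (∀ i j, DD col N i j = g * dsq i j) ∧ (∀ i j, DD col P i j = W * g * dsq i j)) :
    ∃ (f : Fin k → ℝ → ℝ) (g g' : Fin k → Fin k → ℝ),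
      (∀ c, ∑ a, f a (col c a) ≤ ∑ i, ∑ j, g' i j * (col c i - col c j) ^ 2) ∧
      (∀ c, -∑ a, f a (col c a) ≤ ∑ i, ∑ j, g i j * (col c i - col c j) ^ 2) ∧
      (∑ i, ∑ j, g i j * dsq i j + W * ∑ i, ∑ j, g' i j * dsq i j ≤ 0) ∧
      (∑ i, ∑ j, g i j * dsq i j + W * ∑ i, ∑ j, g' i j * dsq i j ≠ 0 ∨
        ∃ P N : Multiset C, (∀ a, P.map (fun c => col c a) = N.map (fun c => col c a)) ∧
          ∑ i, ∑ j, g i j * DD col N i j + ∑ i, ∑ j, g' i j * DD col P i j ≠ 0) := by
  classical
  let E := (Fin k × Fin k) ⊕ (Fin k × Fin k) → ℝ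
  let zz : Multiset C → Multiset C → E := fun P N =>
    Sum.elim (fun q => DD col N q.1 q.2) (fun q => DD col P q.1 q.2)
  let S : Set E := {z | ∃ P N : Multiset C,
    (∀ a, P.map (fun c => col c a) = N.map (fun c => col c a)) ∧ z = zz P N}
  have hzz0 : zz 0 0 = 0 := by
    funext q
    cases q with
    | inl q => exact DD_zero col _ _
    | inr q => exact DD_zero col _ _
  have h0 : (0 : E) ∈ S := ⟨0, 0, fun _ => rfl, hzz0.symm⟩
  have hadd : ∀ x ∈ S, ∀ y ∈ S, x + y ∈ S := by
    rintro x ⟨P, N, hl, rfl⟩ y ⟨P', N', hl', rfl⟩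
    refine ⟨P + P', N + N', fun a => ?_, ?_⟩
    · rw [Multiset.map_add, Multiset.map_add, hl, hl']
    · funext q
      cases q with
      | inl q => exact (DD_add col _ _ _ _).symm
      | inr q => exact (DD_add col _ _ _ _).symm
  have hsmul : ∀ t : ℝ, 0 ≤ t → ∀ x ∈ S, t • x ∈ S := by
    rintro t ht x ⟨P, N, hl, rfl⟩
    rcases ht.lt_or_eq with ht | rfl
    · have hst : 0 < Real.sqrt t := Real.sqrt_pos.mpr ht
      choose sc hsc using hscale (Real.sqrt t) hst
      have hDD : ∀ (Q : Multiset C) i j, DD col (Q.map sc) i j = t * DD col Q i j := by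
        intro Q i j
        simp only [DD, Multiset.map_map, Function.comp_def]
        rw [← Multiset.sum_map_mul_left]
        congr 1
        apply Multiset.map_congr rfl
        intro c _
        rw [hsc, hsc]
        have : Real.sqrt t ^ 2 = t := Real.sq_sqrt ht.le
        calc (Real.sqrt t * col c i - Real.sqrt t * col c j) ^ 2
            = Real.sqrt t ^ 2 * (col c i - col c j) ^ 2 := by ring
          _ = _ := by rw [this]
      refine ⟨P.map sc, N.map sc, fun a => ?_, ?_⟩
      · have hh : ∀ Q : Multiset C, (Q.map sc).map (fun c => col c a)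
            = (Q.map fun c => col c a).map (fun s => Real.sqrt t * s) := by
          intro Q
          simp only [Multiset.map_map, Function.comp_def, hsc]
        rw [hh, hh, hl]
      · funext q
        cases q with
        | inl q => exact (hDD _ _ _).symm
        | inr q => exact (hDD _ _ _).symm
    · rw [zero_smul]
      exact h0
  let τ : E := Sum.elim (fun q => dsq q.1 q.2) (fun q => W * dsq q.1 q.2)
  have hτ : τ ∉ S := by
    rintro ⟨P, N, hl, hz⟩
    apply hno
    refine ⟨P, N, 1, one_pos, hl, fun i j => ?_, fun i j => ?_⟩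
    · have := congrFun hz (Sum.inl (i, j))
      simp only [τ, zz, Sum.elim_inl] at this
      rw [← this]; ring
    · have := congrFun hz (Sum.inr (i, j))
      simp only [τ, zz, Sum.elim_inr] at this
      rw [← this]; ring
  obtain ⟨φ, hφ1, hφ2, hφ3⟩ :=
    Vale.Agent.Lib.P058K.proper_separation S h0 hadd hsmul τ hτ
  let g : Fin k → Fin k → ℝ := fun i j => φ (fun idx => if Sum.inl (i, j) = idx then 1 else 0)
  let g' : Fin k → Fin k → ℝ := fun i j => φ (fun idx => if Sum.inr (i, j) = idx then 1 else 0)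
  have hφ : ∀ z : E, φ z = ∑ i, ∑ j, g i j * z (Sum.inl (i, j))
      + ∑ i, ∑ j, g' i j * z (Sum.inr (i, j)) := by
    intro z
    rw [LinearMap.pi_apply_eq_sum_univ φ z, Fintype.sum_sum_type, Fintype.sum_prod_type,
      Fintype.sum_prod_type]
    simp only [smul_eq_mul, g, g', mul_comm]
  let val : Multiset C → Multiset C → ℝ := fun P N =>
    ∑ i, ∑ j, g i j * DD col N i j + ∑ i, ∑ j, g' i j * DD col P i j
  have hvalφ : ∀ P N, val P N = φ (zz P N) := by
    intro P N
    rw [hφ]
    simp [val, zz]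
  have hval0 : val 0 0 = 0 := by simp [val, DD_zero]
  have hvaladd : ∀ P Q P' Q', val (P + P') (Q + Q') = val P Q + val P' Q' := by
    intro P Q P' Q'
    simp only [val, DD_add, mul_add, Finset.sum_add_distrib]
    ring
  have hnn : ∀ P N, lawM col P = lawM col N → 0 ≤ val P N := by
    intro P N h
    rw [hvalφ]
    exact hφ1 _ ⟨P, N, fun a => eqLaw_of_lawM col h a, rfl⟩
  obtain ⟨ψ, hψ⟩ := hb_abstract (C := C) (A := Fin k → (ℝ →₀ ℚ)) (lawM col) val
    (fun V _ _ p h1 h2 => Vale.Agent.Lib.P058K.rat_hahn_banach p h1 h2)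
    (lawM_zero col) (lawM_add col) hval0 hvaladd hnn
  let f : Fin k → ℝ → ℝ := fun a s => ψ (Pi.single a (Finsupp.single s 1))
  have hsum : ∀ c, ∑ a, f a (col c a) = ψ (ell col c) := by
    intro c
    have : ell col c = ∑ a, Pi.single a (ell col c a) := (Finset.univ_sum_single _).symm
    rw [this, map_sum]
    rfl
  refine ⟨f, g, g', fun c => ?_, fun c => ?_, ?_, ?_⟩
  · have h := hψ {c} 0
    rw [lawM_singleton, lawM_zero, sub_zero, ← hsum] at h
    simpa [val, DD_zero, DD_singleton] using h
  · have h := hψ 0 {c}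
    rw [lawM_singleton, lawM_zero, zero_sub, map_neg, ← hsum] at h
    simpa [val, DD_zero, DD_singleton] using h
  · have hτval : φ τ = ∑ i, ∑ j, g i j * dsq i j + W * ∑ i, ∑ j, g' i j * dsq i j := by
      rw [hφ]
      simp only [τ, Sum.elim_inl, Sum.elim_inr]
      congr 1
      simp only [Finset.mul_sum]
      apply Finset.sum_congr rfl
      intro i _
      apply Finset.sum_congr rfl
      intro j _
      ring
    rw [← hτval]
    exact hφ2
  · have hτval : φ τ = ∑ i, ∑ j, g i j * dsq i j + W * ∑ i, ∑ j, g' i j * dsq i j := by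
      rw [hφ]
      simp only [τ, Sum.elim_inl, Sum.elim_inr]
      congr 1
      simp only [Finset.mul_sum]
      apply Finset.sum_congr rfl
      intro i _
      apply Finset.sum_congr rfl
      intro j _
      ring
    rw [← hτval]
    rcases hφ3 with h | ⟨z, ⟨P, N, hl, rfl⟩, hz⟩
    · exact Or.inl h
    · refine Or.inr ⟨P, N, hl, ?_⟩
      have := hvalφ P N
      simp only [val] at this
      rw [this]
      exact hz

end

/-- The value of an affine column `c = (τ, v)` at the point `x a`. -/
def colAff {k d : ℕ} (x : Fin k → Fin d → ℝ) (c : ℝ × (Fin d → ℝ)) (a : Fin k) : ℝ :=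
  c.1 + ∑ p, c.2 p * x a p

/-- Affine columns can be scaled. -/
theorem colAff_scale {k d : ℕ} (x : Fin k → Fin d → ℝ) (t : ℝ) (_ : 0 < t) (c : ℝ × (Fin d → ℝ)) :
    ∃ c', ∀ a, colAff x c' a = t * colAff x c a := by
  refine ⟨(t * c.1, fun p => t * c.2 p), fun a => ?_⟩
  simp only [colAff, mul_add, Finset.mul_sum]
  congr 1
  apply Finset.sum_congr rfl
  intro p _
  ring

/-- **S5.** The certificate for a failing array condition with affine columns. -/
theorem certificate_affine {k d : ℕ} (x : Fin k → Fin d → ℝ) (dsq : Fin k → Fin k → ℝ) (W : ℝ)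
    (hno : ¬ ∃ (P N : Multiset (ℝ × (Fin d → ℝ))) (g : ℝ), 0 < g ∧
      (∀ a, P.map (fun c => colAff x c a) = N.map (fun c => colAff x c a)) ∧
      (∀ i j, DD (colAff x) N i j = g * dsq i j) ∧ (∀ i j, DD (colAff x) P i j = W * g * dsq i j)) :
    ∃ (f : Fin k → ℝ → ℝ) (g g' : Fin k → Fin k → ℝ),
      (∀ c, ∑ a, f a (colAff x c a) ≤ ∑ i, ∑ j, g' i j * (colAff x c i - colAff x c j) ^ 2) ∧
      (∀ c, -∑ a, f a (colAff x c a) ≤ ∑ i, ∑ j, g i j * (colAff x c i - colAff x c j) ^ 2) ∧
      (∑ i, ∑ j, g i j * dsq i j + W * ∑ i, ∑ j, g' i j * dsq i j ≤ 0) ∧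
      (∑ i, ∑ j, g i j * dsq i j + W * ∑ i, ∑ j, g' i j * dsq i j ≠ 0 ∨
        ∃ P N : Multiset (ℝ × (Fin d → ℝ)),
          (∀ a, P.map (fun c => colAff x c a) = N.map (fun c => colAff x c a)) ∧
          ∑ i, ∑ j, g i j * DD (colAff x) N i j + ∑ i, ∑ j, g' i j * DD (colAff x) P i j ≠ 0) :=
  certificate_abstract (colAff x) (fun t ht c => colAff_scale x t ht c) dsq W hno

end Vale.Agent.Lib.P058S
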