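import Mathlib

/-!
# A translation invariant mean on the bounded functions of the real line
-/

namespace Vale.Agent.Lib.P058S

open Finset

/-- A bounded function of a real variable. -/
def Bdd (f : ℝ → ℝ) : Prop := ∃ C, ∀ x, |f x| ≤ C

/-- The sum of the differences `f (x + s) - f x` along a list of pairs `(f, s)`. -/
def diffSum (l : List ((ℝ → ℝ) × ℝ)) (x : ℝ) : ℝ :=
  (l.map fun p => p.1 (x + p.2) - p.1 x).sum

/-- Averaging of a function along the multiples of `s`. -/
noncomputable def avg (n : ℕ) (s : ℝ) (f : ℝ → ℝ) : ℝ → ℝ :=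
  fun x => (∑ k ∈ range n, f (x + k * s)) / n

theorem Bdd.avg {f : ℝ → ℝ} (hf : Bdd f) (n : ℕ) (s : ℝ) : Bdd (avg n s f) := by
  obtain ⟨C, hC⟩ := hf
  have hC0 : 0 ≤ C := (abs_nonneg _).trans (hC 0)
  refine ⟨C, fun x => ?_⟩
  unfold Vale.Agent.Lib.P058S.avg
  rcases Nat.eq_zero_or_pos n with rfl | hn
  · simpa using hC0
  · have hn' : (0 : ℝ) < n := by exact_mod_cast hn
    rw [abs_div, abs_of_pos hn', div_le_iff₀ hn']
    calc |∑ k ∈ range n, f (x + k * s)| ≤ ∑ k ∈ range n, |f (x + k * s)| := abs_sum_le_sum_abs _ _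
      _ ≤ ∑ _k ∈ range n, C := sum_le_sum fun k _ => hC _
      _ = C * n := by simp [mul_comm]

/-- Averaging commutes with taking differences. -/
theorem diffSum_avg (l : List ((ℝ → ℝ) × ℝ)) (n : ℕ) (s x : ℝ) :
    diffSum (l.map fun p => (avg n s p.1, p.2)) x =
      (∑ k ∈ range n, diffSum l (x + k * s)) / n := by
  induction l with
  | nil => simp [diffSum]
  | cons p l ih =>
    have h1 : ∀ y, diffSum (p :: l) y = (p.1 (y + p.2) - p.1 y) + diffSum l y := fun y => by
      simp [diffSum]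
    have h2 : ∀ y, diffSum ((avg n s p.1, p.2) :: l.map fun p => (avg n s p.1, p.2)) y =
        (avg n s p.1 (y + p.2) - avg n s p.1 y) +
          diffSum (l.map fun p => (avg n s p.1, p.2)) y := fun y => by
      simp [diffSum]
    rw [List.map_cons, h2, ih]
    simp only [h1]
    rw [sum_add_distrib, add_div]
    congr 1
    unfold avg
    have hk : ∀ k : ℕ, x + p.2 + (k : ℝ) * s = x + k * s + p.2 := fun k => by ring
    simp only [hk]
    rw [← sub_div, sum_sub_distrib]

/-- Telescoping of an average along `s`. -/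
theorem sum_range_diff (f : ℝ → ℝ) (s x : ℝ) (n : ℕ) :
    ∑ k ∈ range n, (f (x + k * s + s) - f (x + k * s)) = f (x + n * s) - f x := by
  induction n with
  | zero => simp
  | succ n ih =>
    rw [sum_range_succ, ih]
    have : x + ((n + 1 : ℕ) : ℝ) * s = x + n * s + s := by
      push_cast
      ring
    rw [this]
    ring

/-- **Key inequality.**  A finite sum of differences of bounded functions has no negative upper
bound. -/
theorem not_diffSum_le : ∀ (m : ℕ) (l : List ((ℝ → ℝ) × ℝ)), l.length = m → (∀ p ∈ l, Bdd p.1) →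
    ∀ ε : ℝ, 0 < ε → ¬ ∀ x, diffSum l x ≤ -ε
  | 0, l, hl, _, ε, hε, h => by
    have hl' : l = [] := List.length_eq_zero_iff.mp hl
    subst hl'
    have := h 0
    simp [diffSum] at this
    linarith
  | m + 1, l, hl, hb, ε, hε, h => by
    rcases l with _ | ⟨p, l⟩
    · simp at hl
    · have hlen : l.length = m := by simpa using hl
      obtain ⟨C, hC⟩ := hb p (by simp)
      have hC0 : 0 ≤ C := (abs_nonneg _).trans (hC 0)
      obtain ⟨n, hn⟩ := exists_nat_gt (4 * C / ε)
      have hnpos : (0 : ℝ) < n := lt_of_le_of_lt (by positivity) hn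
      have hn2 : 4 * C < n * ε := by
        rwa [div_lt_iff₀ hε] at hn
      have hb' : ∀ q ∈ l.map (fun q : (ℝ → ℝ) × ℝ => (avg n p.2 q.1, q.2)), Bdd q.1 := by
        intro q hq
        obtain ⟨q', hq', rfl⟩ := List.mem_map.mp hq
        exact (hb q' (List.mem_cons_of_mem _ hq')).avg n p.2
      refine not_diffSum_le m _ (by simpa using hlen) hb' (ε / 2) (by positivity) fun x => ?_
      rw [diffSum_avg]
      have h1 : ∀ y, diffSum (p :: l) y = (p.1 (y + p.2) - p.1 y) + diffSum l y := fun y => by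
        simp [diffSum]
      have h2 : ∑ k ∈ range n, diffSum l (x + k * p.2) =
          ∑ k ∈ range n, diffSum (p :: l) (x + k * p.2) -
            ∑ k ∈ range n, (p.1 (x + k * p.2 + p.2) - p.1 (x + k * p.2)) := by
        rw [← sum_sub_distrib]
        refine sum_congr rfl fun k _ => ?_
        rw [h1]
        ring
      rw [h2, sum_range_diff]
      have h3 : ∑ k ∈ range n, diffSum (p :: l) (x + k * p.2) ≤ ∑ _k ∈ range n, (-ε) :=
        sum_le_sum fun k _ => h _
      rw [sum_const, card_range, nsmul_eq_mul] at h3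
      have h4 : |p.1 (x + n * p.2)| ≤ C := hC _
      have h5 : |p.1 x| ≤ C := hC _
      have h6 := abs_le.mp h4
      have h7 := abs_le.mp h5
      rw [div_le_iff₀ hnpos]
      nlinarith

/-- The space of bounded functions. -/
def bddSub : Submodule ℝ (ℝ → ℝ) where
  carrier := {f | Bdd f}
  add_mem' := by
    rintro f h ⟨C, hC⟩ ⟨D, hD⟩
    exact ⟨C + D, fun x => (abs_add_le _ _).trans (add_le_add (hC x) (hD x))⟩
  zero_mem' := ⟨0, fun x => by simp⟩
  smul_mem' := by
    rintro c f ⟨C, hC⟩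
    refine ⟨|c| * C, fun x => ?_⟩
    simp only [Pi.smul_apply, smul_eq_mul, abs_mul]
    exact mul_le_mul_of_nonneg_left (hC x) (abs_nonneg c)

/-- The supremum of a bounded function. -/
noncomputable def supN (f : bddSub) : ℝ := ⨆ x, (f : ℝ → ℝ) x

theorem Bdd.bddAbove {f : ℝ → ℝ} (hf : Bdd f) : BddAbove (Set.range f) := by
  obtain ⟨C, hC⟩ := hf
  exact ⟨C, by rintro _ ⟨x, rfl⟩; exact (le_abs_self _).trans (hC x)⟩

theorem le_supN (f : bddSub) (x : ℝ) : (f : ℝ → ℝ) x ≤ supN f :=
  le_ciSup (Bdd.bddAbove f.2) x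

theorem supN_le (f : bddSub) {c : ℝ} (h : ∀ x, (f : ℝ → ℝ) x ≤ c) : supN f ≤ c :=
  ciSup_le h

/-- The span of the differences. -/
def diffSub : Submodule ℝ bddSub where
  carrier := {g | ∃ l : List ((ℝ → ℝ) × ℝ), (∀ p ∈ l, Bdd p.1) ∧ ∀ x, (g : ℝ → ℝ) x = diffSum l x}
  add_mem' := by
    rintro a b ⟨l, hl, hal⟩ ⟨k, hk, hbk⟩
    refine ⟨l ++ k, ?_, fun x => ?_⟩
    · intro p hp
      rcases List.mem_append.mp hp with h | h
      · exact hl p h
      · exact hk p h
    · simp [diffSum, hal x, hbk x] at *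
  zero_mem' := ⟨[], by simp, fun x => by simp [diffSum]⟩
  smul_mem' := by
    rintro c a ⟨l, hl, hal⟩
    refine ⟨l.map (fun p => (c • p.1, p.2)), ?_, fun x => ?_⟩
    · intro p hp
      obtain ⟨q, hq, rfl⟩ := List.mem_map.mp hp
      exact (bddSub.smul_mem c (hl q hq) : c • q.1 ∈ bddSub)
    · have : ((c • a : bddSub) : ℝ → ℝ) x = c * (a : ℝ → ℝ) x := rfl
      rw [this, hal x]
      clear hal hl
      induction l with
      | nil => simp [diffSum]
      | cons p l ih =>
        simp only [diffSum, List.map_cons, List.sum_cons, Pi.smul_apply, smul_eq_mul] at ih ⊢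
        rw [mul_add, ih]
        ring

theorem supN_nonneg_of_mem (g : bddSub) (hg : g ∈ diffSub) : 0 ≤ supN g := by
  obtain ⟨l, hl, hgl⟩ := hg
  by_contra hneg
  push Not at hneg
  refine not_diffSum_le _ l rfl hl (-(supN g)) (by linarith) fun x => ?_
  rw [← hgl x, neg_neg]
  exact le_supN g x

/-- **The invariant mean.** -/
theorem exists_mean : ∃ M : (ℝ → ℝ) → ℝ,
    (∀ f h, Bdd f → Bdd h → M (f + h) = M f + M h) ∧
    (∀ (c : ℝ) f, Bdd f → M (c • f) = c * M f) ∧
    (∀ f c, Bdd f → (∀ x, f x ≤ c) → M f ≤ c) ∧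
    (∀ f c, Bdd f → (∀ x, c ≤ f x) → c ≤ M f) ∧
    (∀ f s, Bdd f → M (fun x => f (x + s)) = M f) := by
  classical
  let z : bddSub →ₗ.[ℝ] ℝ := ⟨diffSub, 0⟩
  obtain ⟨g, hg0, hgN⟩ := exists_extension_of_le_sublinear z supN
    (fun c hc x => by
      refine le_antisymm ?_ ?_
      · refine supN_le _ fun y => ?_
        have : ((c • x : bddSub) : ℝ → ℝ) y = c * (x : ℝ → ℝ) y := rfl
        rw [this]
        exact mul_le_mul_of_nonneg_left (le_supN x y) hc.le
      · have : supN x ≤ c⁻¹ * supN (c • x) := by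
          refine supN_le _ fun y => ?_
          have h1 : ((c • x : bddSub) : ℝ → ℝ) y = c * (x : ℝ → ℝ) y := rfl
          have h2 := le_supN (c • x) y
          rw [h1] at h2
          rw [inv_mul_eq_div, le_div_iff₀ hc]
          linarith
        have h3 := mul_le_mul_of_nonneg_left this hc.le
        rwa [mul_inv_cancel_left₀ hc.ne'] at h3)
    (fun x y => by
      refine supN_le _ fun t => ?_
      have : ((x + y : bddSub) : ℝ → ℝ) t = (x : ℝ → ℝ) t + (y : ℝ → ℝ) t := rfl
      rw [this]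
      exact add_le_add (le_supN x t) (le_supN y t))
    (fun x => by
      have : z x = 0 := rfl
      rw [this]
      exact supN_nonneg_of_mem x.1 x.2)
  let M : (ℝ → ℝ) → ℝ := fun f => if h : Bdd f then g ⟨f, h⟩ else 0
  have hM : ∀ f (h : Bdd f), M f = g ⟨f, h⟩ := fun f h => by simp only [M, dif_pos h]
  have hadd : ∀ f h, Bdd f → Bdd h → Bdd (f + h) := fun f h hf hh => bddSub.add_mem hf hh
  have hsm : ∀ (c : ℝ) f, Bdd f → Bdd (c • f) := fun c f hf => bddSub.smul_mem c hf
  refine ⟨M, ?_, ?_, ?_, ?_, ?_⟩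
  · intro f h hf hh
    rw [hM _ (hadd f h hf hh), hM f hf, hM h hh, ← map_add]
    rfl
  · intro c f hf
    rw [hM _ (hsm c f hf), hM f hf, ← smul_eq_mul, ← map_smul]
    rfl
  · intro f c hf hc
    rw [hM f hf]
    exact (hgN _).trans (supN_le _ hc)
  · intro f c hf hc
    rw [hM f hf]
    have hnf : Bdd (-f) := by simpa using hsm (-1) f hf
    have h1 : g ⟨-f, hnf⟩ ≤ -c := (hgN _).trans (supN_le _ fun x => by
      show -f x ≤ -c
      linarith [hc x])
    have h2 : g ⟨-f, hnf⟩ = - g ⟨f, hf⟩ := by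
      rw [← map_neg]
      rfl
    linarith
  · intro f s hf
    obtain ⟨C, hC⟩ := hf
    have hf : Bdd f := ⟨C, hC⟩
    have hs : Bdd (fun x => f (x + s)) := ⟨C, fun x => hC _⟩
    rw [hM _ hs, hM f hf]
    have hmem : (⟨fun x => f (x + s), hs⟩ - ⟨f, hf⟩ : bddSub) ∈ diffSub := by
      refine ⟨[(f, s)], by simpa using hf, fun x => ?_⟩
      simp [diffSum]
    have h0 : g (⟨fun x => f (x + s), hs⟩ - ⟨f, hf⟩ : bddSub) = 0 := by
      have := hg0 ⟨_, hmem⟩
      rw [this]
      rfl
    rw [map_sub] at h0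
    linarith

end Vale.Agent.Lib.P058S
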