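import Mathlib
import Vale.Agent.Lib.P058S.AssemblyCore
import Vale.Agent.Lib.P058S.Mean
import Vale.Agent.Lib.P058S.Certificate
import Vale.Agent.Lib.P058K.ArrayCrit

/-!
# P058: signed arrays give arrays of every gain (Frechet lemma as a hypothesis)
-/

set_option linter.unusedVariables false
set_option linter.unusedSectionVars false

namespace Vale.Agent.Lib.P058S.Asm

open Finset

/-- The invariant mean, in the form used by the assembly. -/
theorem exists_isMean : ∃ M : (ℝ → ℝ) → ℝ, IsMean M := by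
  obtain ⟨M, h1, h2, h3, h4, h5⟩ := Vale.Agent.Lib.P058S.exists_mean
  exact ⟨M, ⟨h1, h2, h3, h4, h5⟩⟩

theorem colAff_eq {k d : ℕ} (x : Fin k → Fin d → ℝ) (c : ℝ × (Fin d → ℝ)) (a : Fin k) :
    Vale.Agent.Lib.P058S.colAff x c a = col c (x a) := rfl

/-- A signed array gives an array of every positive gain in affine columns, given the Frechet lemma. -/
theorem affineArray_of_signedArray {k d : ℕ}
    (hFrechet : ∀ (nu : (Fin d → ℝ) → ℝ) (K : ℕ),
      (∀ l : List (Fin d → ℝ), l.length = K → ∀ x, D nu l x = 0) →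
      ∀ C : ℝ, (∀ v, |nu v| ≤ C * ∑ p, v p ^ 2) →
      ∃ B : Fin d → Fin d → ℝ, ∀ v, nu v = ∑ p, ∑ q, B p q * v p * v q)
    (x : Fin k → Fin d → ℝ) (hx : SignedArray x) (W : ℝ) (hW : 0 < W) :
    AffineArray x W := by
  classical
  by_contra hno
  obtain ⟨P₀, N₀, s, hs, hlaw₀, hS⟩ := hx
  obtain ⟨M, hM⟩ := exists_isMean
  have hno' : ¬ ∃ (P N : Multiset (ℝ × (Fin d → ℝ))) (g : ℝ), 0 < g ∧
      (∀ a, P.map (fun c => colAff x c a) = N.map (fun c => colAff x c a)) ∧
      (∀ i j, DD (colAff x) N i j = g * dsq x i j) ∧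
      (∀ i j, DD (colAff x) P i j = W * g * dsq x i j) := by
    rintro ⟨P, N, g, hg, h1, h2, h3⟩
    exact hno ⟨P, N, g, hg, h1, h2, h3⟩
  obtain ⟨f, g, g', hU, hL, hG, hprop⟩ := certificate_affine x (dsq x) W hno'
  obtain ⟨h1, h2⟩ := no_certificate hM hFrechet x P₀ N₀ s hs hlaw₀ hS W hW f g g' hU hL hG
  rcases hprop with h | ⟨P, N, hlaw, hne⟩
  · exact h h1
  · apply hne
    have h3 := h2 P N hlaw
    have hconv : ∀ (h : Fin k → Fin k → ℝ) (A : Multiset (ℝ × (Fin d → ℝ))),
        (A.map (fun c => ∑ i, ∑ j, h i j * (col c (x i) - col c (x j)) ^ 2)).sum =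
          ∑ i, ∑ j, h i j * DD (colAff x) A i j := by
      intro h A
      rw [multiset_sum_finset]
      refine Finset.sum_congr rfl fun i _ => ?_
      rw [multiset_sum_finset]
      refine Finset.sum_congr rfl fun j _ => ?_
      rw [multiset_sum_mul]
      rfl
    rw [hconv, hconv] at h3
    exact h3

/-- Array condition from affine arrays. -/
theorem arrayCond_of_affineArray {k d : ℕ} (x : Fin k → Fin d → ℝ) (W : ℝ)
    (h : AffineArray x W) : Vale.Agent.Lib.P058C.ArrayCond (dsq x) W := by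
  obtain ⟨P, N, g, hg, hlaw, hN, hP⟩ := h
  refine ⟨P.map (fun c i => col c (x i)), N.map (fun c i => col c (x i)), g, hg, fun i => ?_,
    fun i j => ?_, fun i j => ?_⟩
  · simpa [Multiset.map_map, Function.comp_def] using hlaw i
  · simpa [Multiset.map_map, Function.comp_def] using hN i j
  · simpa [Multiset.map_map, Function.comp_def] using hP i j

/-- Squared distances in Euclidean space. -/
theorem dist_sq_eq {k d : ℕ} (x : Fin k → EuclideanSpace ℝ (Fin d)) (i j : Fin k) :
    dist (x i) (x j) ^ 2 = dsq (fun a p => x a p) i j := by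
  rw [EuclideanSpace.dist_eq, Real.sq_sqrt (Finset.sum_nonneg fun _ _ => sq_nonneg _)]
  refine Finset.sum_congr rfl fun p _ => ?_
  rw [Real.dist_eq, sq_abs]

/-- **A signed array gives Ramsey**, given the Frechet lemma. -/
theorem isRamseyFamily_of_signedArray_aux {k d : ℕ}
    (hFrechet : ∀ (nu : (Fin d → ℝ) → ℝ) (K : ℕ),
      (∀ l : List (Fin d → ℝ), l.length = K → ∀ x, D nu l x = 0) →
      ∀ C : ℝ, (∀ v, |nu v| ≤ C * ∑ p, v p ^ 2) →
      ∃ B : Fin d → Fin d → ℝ, ∀ v, nu v = ∑ p, ∑ q, B p q * v p * v q)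
    (x : Fin k → EuclideanSpace ℝ (Fin d)) (hx : SignedArray (fun a p => x a p)) :
    Vale.Agent.Lib.P058.IsRamseyFamily x := by
  refine Vale.Agent.Lib.P058K.Crit.isRamseyFamily_of_arrayCond x fun W hW => ?_
  have h := arrayCond_of_affineArray _ _
    (affineArray_of_signedArray hFrechet (fun a p => x a p) hx (W : ℝ) (by positivity))
  have he : (fun i j => dist (x i) (x j) ^ 2) = dsq (fun a p => x a p) := by
    funext i j
    exact dist_sq_eq x i j
  rw [he]
  exact h

end Vale.Agent.Lib.P058S.Asm
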