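import Mathlib

/-!
# Functions with vanishing iterated differences and quadratic growth are quadratic forms
-/

set_option linter.unusedVariables false
set_option linter.unusedSectionVars false

namespace Vale.Agent.Lib.P058S

open Finset

section Basic

variable {V : Type*} [AddCommGroup V]

/-- One difference. -/
def Dl (a : V) (ν : V → ℝ) : V → ℝ := fun x => ν (x + a) - ν x

/-- Iterated differences along a list of vectors. -/
def D (ν : V → ℝ) : List V → V → ℝ
  | [] => ν
  | a :: l => D (Dl a ν) l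

@[simp] theorem D_nil (ν : V → ℝ) : D ν [] = ν := rfl

@[simp] theorem D_cons (ν : V → ℝ) (a : V) (l : List V) : D ν (a :: l) = D (Dl a ν) l := rfl

theorem D_append (ν : V → ℝ) (l₁ l₂ : List V) : D ν (l₁ ++ l₂) = D (D ν l₁) l₂ := by
  induction l₁ generalizing ν with
  | nil => rfl
  | cons a l ih => exact ih _

theorem D_zero (l : List V) (x : V) : D (fun _ => (0 : ℝ)) l x = 0 := by
  induction l with
  | nil => rfl
  | cons a l ih =>
    have : Dl a (fun _ : V => (0 : ℝ)) = fun _ => 0 := by
      funext y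
      simp [Dl]
    rw [D_cons, this]
    exact ih

theorem D_add (μ ν : V → ℝ) (l : List V) (x : V) :
    D (fun y => μ y + ν y) l x = D μ l x + D ν l x := by
  induction l generalizing μ ν with
  | nil => rfl
  | cons a l ih =>
    have : Dl a (fun y => μ y + ν y) = fun y => Dl a μ y + Dl a ν y := by
      funext y
      simp only [Dl]
      ring
    rw [D_cons, D_cons, D_cons, this]
    exact ih _ _

theorem D_translate (ν : V → ℝ) (t : V) (l : List V) (x : V) :
    D (fun y => ν (y + t)) l x = D ν l (x + t) := by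
  induction l generalizing ν with
  | nil => rfl
  | cons a l ih =>
    have : Dl a (fun y => ν (y + t)) = fun y => Dl a ν (y + t) := by
      funext y
      simp only [Dl]
      rw [add_right_comm]
    rw [D_cons, D_cons, this]
    exact ih _

/-- A difference along a period kills the function. -/
theorem D_of_invariant (g : V → ℝ) (w : V) (h : ∀ x, g (x + w) = g x) (l₁ l₂ : List V) (x : V) :
    D g (l₁ ++ w :: l₂) x = 0 := by
  induction l₁ generalizing g with
  | nil =>
    have : Dl w g = fun _ => 0 := by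
      funext y
      simp [Dl, h]
    simp only [List.nil_append, D_cons, this]
    exact D_zero _ _
  | cons a l ih =>
    simp only [List.cons_append, D_cons]
    refine ih _ fun y => ?_
    simp only [Dl]
    rw [add_right_comm, h, h]

end Basic

section Normed

variable {V : Type*} [NormedAddCommGroup V] [NormedSpace ℝ V]

theorem D_smul_head (ν : V → ℝ) (a : V) (L : List V)
    (hinv : ∀ x, D (Dl a ν) L (x + a) = D (Dl a ν) L x) (N : ℕ) (x : V) :
    D (Dl ((N : ℝ) • a) ν) L x = N * D (Dl a ν) L x := by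
  induction N generalizing x with
  | zero =>
    have : Dl (((0 : ℕ) : ℝ) • a) ν = fun _ => 0 := by
      funext y
      simp [Dl]
    rw [this, D_zero]
    simp
  | succ N ih =>
    have : Dl (((N + 1 : ℕ) : ℝ) • a) ν = fun y => Dl ((N : ℝ) • a) ν (y + a) + Dl a ν y := by
      funext y
      simp only [Dl]
      have e : y + ((N + 1 : ℕ) : ℝ) • a = y + a + (N : ℝ) • a := by
        push_cast
        rw [add_smul, one_smul]
        abel
      rw [e]
      ring
    rw [this, D_add, D_translate, ih, hinv]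
    push_cast
    ring

theorem D_scale (N : ℕ) (m : ℕ) (ν : V → ℝ)
    (h : ∀ l : List V, l.length = m + 1 → ∀ x, D ν l x = 0) (l : List V) (hl : l.length = m) (x : V) :
    D ν (l.map fun a => (N : ℝ) • a) x = (N : ℝ) ^ m * D ν l x := by
  induction m generalizing ν l x with
  | zero =>
    obtain rfl : l = [] := List.length_eq_zero_iff.mp hl
    simp
  | succ m ih =>
    cases l with
    | nil => simp at hl
    | cons a l' =>
      have hl' : l'.length = m := by simpa using hl
      have hμ : ∀ l'' : List V, l''.length = m + 1 → ∀ x, D (Dl a ν) l'' x = 0 := by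
        intro l'' hl'' x
        exact h (a :: l'') (by simp [hl'']) x
      let L := l'.map fun a => (N : ℝ) • a
      have hL : L.length = m := by simp [L, hl']
      have hinv : ∀ x, D (Dl a ν) L (x + a) = D (Dl a ν) L x := by
        intro x
        have := hμ (L ++ [a]) (by simp [hL]) x
        rw [D_append] at this
        simp only [D_cons, D_nil, Dl] at this
        linarith
      have h1 : D ν ((a :: l').map fun a => (N : ℝ) • a) x = D (Dl ((N : ℝ) • a) ν) L x := by
        simp [L]
      rw [h1, D_smul_head ν a L hinv, ih _ hμ l' hl', D_cons, pow_succ]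
      ring

theorem D_bound (l : List V) (ν : V → ℝ) (c e : ℝ) (hc : 0 ≤ c) (he : 0 ≤ e)
    (hb : ∀ y, |ν y| ≤ c * (‖y‖ + e) ^ 2) (x : V) :
    |D ν l x| ≤ 2 ^ l.length * c * (‖x‖ + e + (l.map norm).sum) ^ 2 := by
  induction l generalizing ν c e with
  | nil =>
    simpa using hb x
  | cons a l ih =>
    have hμ : ∀ y, |Dl a ν y| ≤ (2 * c) * (‖y‖ + (e + ‖a‖)) ^ 2 := by
      intro y
      simp only [Dl]
      have h1 := hb (y + a)
      have h2 := hb y
      have h3 : ‖y + a‖ + e ≤ ‖y‖ + (e + ‖a‖) := by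
        have := norm_add_le y a
        linarith
      have h4 : ‖y‖ + e ≤ ‖y‖ + (e + ‖a‖) := by
        have := norm_nonneg a
        linarith
      have h5 : (‖y + a‖ + e) ^ 2 ≤ (‖y‖ + (e + ‖a‖)) ^ 2 :=
        pow_le_pow_left₀ (by positivity) h3 2
      have h6 : (‖y‖ + e) ^ 2 ≤ (‖y‖ + (e + ‖a‖)) ^ 2 :=
        pow_le_pow_left₀ (by positivity) h4 2
      have h7 := abs_sub (ν (y + a)) (ν y)
      have h8 : c * (‖y + a‖ + e) ^ 2 ≤ c * (‖y‖ + (e + ‖a‖)) ^ 2 :=
        mul_le_mul_of_nonneg_left h5 hc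
      have h9 : c * (‖y‖ + e) ^ 2 ≤ c * (‖y‖ + (e + ‖a‖)) ^ 2 :=
        mul_le_mul_of_nonneg_left h6 hc
      calc |ν (y + a) - ν y| ≤ |ν (y + a)| + |ν y| := h7
        _ ≤ _ := by linarith
    have := ih (Dl a ν) (2 * c) (e + ‖a‖) (by positivity) (by positivity) hμ
    rw [D_cons]
    refine this.trans (le_of_eq ?_)
    simp only [List.length_cons, List.map_cons, List.sum_cons, pow_succ]
    ring

theorem sum_norm_scale (N : ℕ) (l : List V) :
    ((l.map fun a => (N : ℝ) • a).map norm).sum = (N : ℝ) * (l.map norm).sum := by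
  induction l with
  | nil => simp
  | cons a l ih =>
    simp only [List.map_cons, List.sum_cons, ih, norm_smul, Real.norm_natCast]
    ring

/-- One step of the elimination. -/
theorem D_elim (ν : V → ℝ) (c : ℝ) (hc : 0 ≤ c) (hb : ∀ y, |ν y| ≤ c * ‖y‖ ^ 2) (m : ℕ) (hm : 3 ≤ m)
    (h : ∀ l : List V, l.length = m + 1 → ∀ x, D ν l x = 0) (l : List V) (hl : l.length = m)
    (x : V) : D ν l x = 0 := by
  have hbase : D ν l x = D ν l 0 := by
    have := h (l ++ [x]) (by simp [hl]) 0
    rw [D_append] at this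
    simp only [D_cons, D_nil, Dl, zero_add] at this
    linarith
  rw [hbase]
  set E := D ν l 0 with hE
  set A := (l.map norm).sum with hA
  have hb' : ∀ y, |ν y| ≤ c * (‖y‖ + 0) ^ 2 := by
    intro y
    simpa using hb y
  have key : ∀ N : ℕ, 1 ≤ N → (N : ℝ) * |E| ≤ 2 ^ m * c * A ^ 2 := by
    intro N hN
    have hN0 : (0 : ℝ) < N := by exact_mod_cast hN
    have h1 := D_scale N m ν h l hl 0
    have h2 := D_bound (l.map fun a => (N : ℝ) • a) ν c 0 hc le_rfl hb' 0
    rw [h1, sum_norm_scale, List.length_map, hl] at h2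
    simp only [norm_zero, zero_add, add_zero] at h2
    rw [abs_mul, abs_of_nonneg (by positivity : (0 : ℝ) ≤ (N : ℝ) ^ m)] at h2
    have hN1 : (1 : ℝ) ≤ N := by exact_mod_cast hN
    have h3 : (N : ℝ) ^ 3 ≤ (N : ℝ) ^ m := pow_le_pow_right₀ hN1 hm
    have h4 : (N : ℝ) ^ 3 * |E| ≤ (N : ℝ) ^ m * |E| :=
      mul_le_mul_of_nonneg_right h3 (abs_nonneg _)
    have h5 : (N : ℝ) ^ 3 * |E| ≤ (N : ℝ) ^ 2 * (2 ^ m * c * A ^ 2) := by
      have : 2 ^ m * c * ((N : ℝ) * A) ^ 2 = (N : ℝ) ^ 2 * (2 ^ m * c * A ^ 2) := by ring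
      linarith
    have h6 : (N : ℝ) ^ 2 * ((N : ℝ) * |E|) ≤ (N : ℝ) ^ 2 * (2 ^ m * c * A ^ 2) := by
      have : (N : ℝ) ^ 2 * ((N : ℝ) * |E|) = (N : ℝ) ^ 3 * |E| := by ring
      linarith
    exact le_of_mul_le_mul_left h6 (by positivity)
  by_contra hne
  have hpos : 0 < |E| := abs_pos.mpr hne
  obtain ⟨N, hN⟩ := exists_nat_gt ((2 ^ m * c * A ^ 2) / |E|)
  have hN1 : 1 ≤ N + 1 := by omega
  have := key (N + 1) hN1
  rw [div_lt_iff₀ hpos] at hN
  push_cast at this
  nlinarith

/-- Upward: more differences vanish. -/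
theorem D_up (ν : V → ℝ) (K j : ℕ) (h : ∀ l : List V, l.length = K → ∀ x, D ν l x = 0)
    (l : List V) (hl : l.length = K + j) (x : V) : D ν l x = 0 := by
  have hsplit : l = l.take K ++ l.drop K := (List.take_append_drop K l).symm
  rw [hsplit, D_append]
  have hk : (l.take K).length = K := by
    simp [List.length_take, hl]
  have : D ν (l.take K) = fun _ => 0 := by
    funext y
    exact h _ hk y
  rw [this]
  exact D_zero _ _

/-- All third differences vanish. -/
theorem D_three (ν : V → ℝ) (c : ℝ) (hc : 0 ≤ c) (hb : ∀ y, |ν y| ≤ c * ‖y‖ ^ 2) (K : ℕ)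
    (h : ∀ l : List V, l.length = K → ∀ x, D ν l x = 0) (a b e x : V) : D ν [a, b, e] x = 0 := by
  have down : ∀ j : ℕ, (∀ l : List V, l.length = 3 + j → ∀ x, D ν l x = 0) →
      ∀ l : List V, l.length = 3 → ∀ x, D ν l x = 0 := by
    intro j
    induction j with
    | zero => exact fun h => h
    | succ j ih =>
      intro hj
      exact ih (fun l hl x => D_elim ν c hc hb (3 + j) (by omega) hj l hl x)
  have h3K : ∀ l : List V, l.length = 3 + K → ∀ x, D ν l x = 0 := by
    intro l hl x
    exact D_up ν K 3 h l (by omega) x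
  exact down K h3K [a, b, e] rfl x

end Normed

section Quadratic

variable {d : ℕ}

/-- Third differences zero and quadratic growth give a quadratic form. -/
theorem quadratic_of_third (ν : (Fin d → ℝ) → ℝ) (c : ℝ) (hc : 0 ≤ c)
    (hb : ∀ y, |ν y| ≤ c * ‖y‖ ^ 2) (h3 : ∀ a b e x, D ν [a, b, e] x = 0) :
    ∃ B : Matrix (Fin d) (Fin d) ℝ, B.IsSymm ∧ ∀ v, ν v = ∑ p, ∑ q, B p q * v p * v q := by
  classical
  have hν0 : ν 0 = 0 := by
    have := hb 0
    simp only [norm_zero, ne_eq, OfNat.ofNat_ne_zero, not_false_eq_true, zero_pow, mul_zero] at this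
    exact abs_nonpos_iff.mp this
  let Bi : (Fin d → ℝ) → (Fin d → ℝ) → ℝ := fun u w => ν (u + w) - ν u - ν w
  have hsymm : ∀ u w, Bi u w = Bi w u := by
    intro u w
    simp only [Bi]
    rw [add_comm u w]
    ring
  have hadd : ∀ u u' w, Bi (u + u') w = Bi u w + Bi u' w := by
    intro u u' w
    have := h3 u u' w 0
    simp only [D_cons, D_nil, Dl, zero_add] at this
    simp only [Bi]
    have e1 : w + u' + u = u + u' + w := by abel
    have e2 : w + u = u + w := by abel
    have e3 : w + u' = u' + w := by abel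
    have e4 : u' + u = u + u' := by abel
    rw [e1, e2, e3, e4, hν0] at this
    linarith
  have hadd2 : ∀ u w w', Bi u (w + w') = Bi u w + Bi u w' := by
    intro u w w'
    rw [hsymm, hadd, hsymm w, hsymm w']
  have hzero : ∀ w, Bi 0 w = 0 := by
    intro w
    simp [Bi, hν0]
  have hnat : ∀ (N : ℕ) u w, Bi ((N : ℝ) • u) w = N * Bi u w := by
    intro N u w
    induction N with
    | zero => simp [hzero]
    | succ N ih =>
      have : ((N + 1 : ℕ) : ℝ) • u = (N : ℝ) • u + u := by
        push_cast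
        rw [add_smul, one_smul]
      rw [this, hadd, ih]
      push_cast
      ring
  -- the quadratic identity
  have hνeq : ∀ u, ν u = Bi u u / 2 := by
    intro u
    let l : (Fin d → ℝ) → ℝ := fun u => ν u - Bi u u / 2
    have hl : ∀ u w, l (u + w) = l u + l w := by
      intro u w
      simp only [l]
      rw [hadd, hadd2, hadd2, hsymm w u]
      simp only [Bi]
      ring
    have hlnat : ∀ (N : ℕ) y, l ((N : ℝ) • y) = N * l y := by
      intro N y
      induction N with
      | zero =>
        simp [l, hν0, hzero]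
      | succ N ih =>
        have : ((N + 1 : ℕ) : ℝ) • y = (N : ℝ) • y + y := by
          push_cast
          rw [add_smul, one_smul]
        rw [this, hl, ih]
        push_cast
        ring
    have hBnat : ∀ (N : ℕ) y, Bi ((N : ℝ) • y) ((N : ℝ) • y) = N ^ 2 * Bi y y := by
      intro N y
      rw [hnat, hsymm, hnat, hsymm y]
      ring
    set K := c * ‖u‖ ^ 2 + |Bi u u| / 2 with hK
    have hKnn : 0 ≤ K := by positivity
    have key : ∀ N : ℕ, 1 ≤ N → (N : ℝ) * |l u| ≤ K := by
      intro N hN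
      have hN0 : (0 : ℝ) < N := by exact_mod_cast hN
      let y : Fin d → ℝ := ((N : ℝ)⁻¹) • u
      have huy : u = (N : ℝ) • y := by
        simp only [y, smul_smul]
        rw [mul_inv_cancel₀ hN0.ne', one_smul]
      have h1 : l u = N * l y := by
        conv_lhs => rw [huy]
        exact hlnat N y
      have h2 : Bi u u = N ^ 2 * Bi y y := by
        conv_lhs => rw [huy]
        exact hBnat N y
      have h3' : |ν y| ≤ c * (‖u‖ ^ 2 / N ^ 2) := by
        have := hb y
        have e : ‖y‖ ^ 2 = ‖u‖ ^ 2 / N ^ 2 := by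
          simp only [y, norm_smul, norm_inv, Real.norm_natCast]
          field_simp
        rwa [e] at this
      have h4 : |Bi y y| = |Bi u u| / N ^ 2 := by
        rw [h2, abs_mul, abs_of_nonneg (by positivity : (0 : ℝ) ≤ (N : ℝ) ^ 2)]
        field_simp
      have h5 : |l y| ≤ K / N ^ 2 := by
        simp only [l]
        have h6 := abs_sub (ν y) (Bi y y / 2)
        have h7 : |Bi y y / 2| = |Bi u u| / N ^ 2 / 2 := by
          rw [abs_div, h4]
          simp
        rw [hK]
        have h8 : (c * ‖u‖ ^ 2 + |Bi u u| / 2) / (N : ℝ) ^ 2 =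
            c * (‖u‖ ^ 2 / N ^ 2) + |Bi u u| / N ^ 2 / 2 := by
          field_simp
        rw [h8]
        linarith
      have h9 : |l u| = N * |l y| := by
        rw [h1, abs_mul, abs_of_nonneg hN0.le]
      rw [h9]
      have h10 : (N : ℝ) * ((N : ℝ) * |l y|) ≤ (N : ℝ) ^ 2 * (K / N ^ 2) := by
        have : (N : ℝ) * ((N : ℝ) * |l y|) = (N : ℝ) ^ 2 * |l y| := by ring
        rw [this]
        exact mul_le_mul_of_nonneg_left h5 (by positivity)
      have h11 : (N : ℝ) ^ 2 * (K / N ^ 2) = K := by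
        field_simp
      linarith
    have hlu : l u = 0 := by
      by_contra hne
      have hpos : 0 < |l u| := abs_pos.mpr hne
      obtain ⟨N, hN⟩ := exists_nat_gt (K / |l u|)
      have := key (N + 1) (by omega)
      rw [div_lt_iff₀ hpos] at hN
      push_cast at this
      nlinarith
    simp only [l] at hlu
    linarith
  -- real linearity in the first variable
  have hlin : ∀ (w : Fin d → ℝ) (r : ℝ) u, Bi (r • u) w = r * Bi u w := by
    intro w r u
    let φ : (Fin d → ℝ) →+ ℝ := AddMonoidHom.mk' (fun u => Bi u w) (fun a b => hadd a b w)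
    have hcont : Continuous φ := by
      refine continuous_of_continuousAt_zero φ ?_
      rw [Metric.continuousAt_iff]
      intro ε hε
      set K := c * ((1 + ‖w‖) ^ 2 + 1 + ‖w‖ ^ 2) with hK
      have hK0 : 0 ≤ K := by positivity
      obtain ⟨N, hN⟩ := exists_nat_gt (K / ε)
      have hN1 : (0 : ℝ) < (N : ℝ) + 1 := by positivity
      refine ⟨((N : ℝ) + 1)⁻¹, by positivity, fun x hx => ?_⟩
      simp only [dist_zero_right] at hx
      have hφ0 : φ 0 = 0 := map_zero φ
      rw [hφ0, dist_zero_right]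
      have hx1 : ‖((N + 1 : ℕ) : ℝ) • x‖ ≤ 1 := by
        rw [norm_smul, Real.norm_natCast]
        push_cast
        have : ((N : ℝ) + 1) * ‖x‖ ≤ ((N : ℝ) + 1) * ((N : ℝ) + 1)⁻¹ :=
          mul_le_mul_of_nonneg_left hx.le hN1.le
        rwa [mul_inv_cancel₀ hN1.ne'] at this
      have h1 : |Bi (((N + 1 : ℕ) : ℝ) • x) w| ≤ K := by
        set z := ((N + 1 : ℕ) : ℝ) • x with hz
        simp only [Bi]
        have h2 := hb (z + w)
        have h3' := hb z
        have h4 := hb w
        have h5 : ‖z + w‖ ≤ 1 + ‖w‖ := (norm_add_le z w).trans (by linarith)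
        have h6 : ‖z + w‖ ^ 2 ≤ (1 + ‖w‖) ^ 2 := pow_le_pow_left₀ (norm_nonneg _) h5 2
        have h7 : ‖z‖ ^ 2 ≤ 1 := by
          have := pow_le_pow_left₀ (norm_nonneg z) hx1 2
          simpa using this
        have h8 : |ν (z + w) - ν z - ν w| ≤ |ν (z + w)| + |ν z| + |ν w| := by
          have a1 := abs_sub (ν (z + w) - ν z) (ν w)
          have a2 := abs_sub (ν (z + w)) (ν z)
          linarith
        have h9 : c * ‖z + w‖ ^ 2 ≤ c * (1 + ‖w‖) ^ 2 := mul_le_mul_of_nonneg_left h6 hc
        have h10 : c * ‖z‖ ^ 2 ≤ c * 1 := mul_le_mul_of_nonneg_left h7 hc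
        rw [hK]
        nlinarith
      rw [hnat, abs_mul, abs_of_nonneg (by positivity : (0 : ℝ) ≤ ((N + 1 : ℕ) : ℝ))] at h1
      push_cast at h1
      have h2 : φ x = Bi x w := rfl
      rw [h2, Real.norm_eq_abs]
      rw [div_lt_iff₀ hε] at hN
      by_contra hcon
      push Not at hcon
      have h3' : ((N : ℝ) + 1) * ε ≤ ((N : ℝ) + 1) * |Bi x w| :=
        mul_le_mul_of_nonneg_left hcon hN1.le
      nlinarith
    have h5 := map_smul (φ.toRealLinearMap hcont) r u
    have h6 : ∀ z, (φ.toRealLinearMap hcont) z = Bi z w := fun z => rfl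
    rw [h6, h6, smul_eq_mul] at h5
    exact h5
  have hlin2 : ∀ (u : Fin d → ℝ) (r : ℝ) w, Bi u (r • w) = r * Bi u w := by
    intro u r w
    rw [hsymm, hlin, hsymm]
  have hsumv : ∀ v : Fin d → ℝ, v = ∑ p, v p • (Pi.single p (1 : ℝ) : Fin d → ℝ) := by
    intro v
    funext i
    simp [Finset.sum_apply, Pi.single_apply]
  have hsum1 : ∀ (s : Finset (Fin d)) (f : Fin d → Fin d → ℝ) w,
      Bi (∑ p ∈ s, f p) w = ∑ p ∈ s, Bi (f p) w := by
    intro s f w
    induction s using Finset.induction_on with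
    | empty => simp [hzero]
    | insert a s ha ih => rw [sum_insert ha, sum_insert ha, hadd, ih]
  have hexp : ∀ v w : Fin d → ℝ, Bi v w =
      ∑ p, ∑ q, v p * w q * Bi (Pi.single p 1) (Pi.single q 1) := by
    intro v w
    conv_lhs => rw [hsumv v]
    rw [hsum1]
    refine sum_congr rfl fun p _ => ?_
    rw [hlin]
    conv_lhs => rw [hsymm, hsumv w]
    rw [hsum1, mul_sum]
    refine sum_congr rfl fun q _ => ?_
    rw [hlin, hsymm]
    ring
  refine ⟨Matrix.of fun p q => Bi (Pi.single p 1) (Pi.single q 1) / 2, ?_, fun v => ?_⟩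
  · ext p q
    simp only [Matrix.transpose_apply, Matrix.of_apply]
    rw [hsymm]
  · rw [hνeq, hexp, sum_div]
    refine sum_congr rfl fun p _ => ?_
    rw [sum_div]
    refine sum_congr rfl fun q _ => ?_
    simp only [Matrix.of_apply]
    ring

/-- Functions with vanishing iterated differences and quadratic growth are quadratic forms. -/
theorem quadratic_of_frechet (ν : (Fin d → ℝ) → ℝ) (K : ℕ)
    (hF : ∀ l : List (Fin d → ℝ), l.length = K → ∀ x, D ν l x = 0) (C : ℝ)
    (hb : ∀ v, |ν v| ≤ C * ∑ p, v p ^ 2) :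
    ∃ B : Matrix (Fin d) (Fin d) ℝ, B.IsSymm ∧ ∀ v, ν v = ∑ p, ∑ q, B p q * v p * v q := by
  have hb' : ∀ y : Fin d → ℝ, |ν y| ≤ (|C| * d) * ‖y‖ ^ 2 := by
    intro y
    have h1 : ∑ p, y p ^ 2 ≤ d * ‖y‖ ^ 2 := by
      have : ∀ p ∈ (univ : Finset (Fin d)), y p ^ 2 ≤ ‖y‖ ^ 2 := by
        intro p _
        have h2 : |y p| ≤ ‖y‖ := by
          have := norm_le_pi_norm y p
          simpa [Real.norm_eq_abs] using this
        have := pow_le_pow_left₀ (abs_nonneg (y p)) h2 2
        simpa [sq_abs] using this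
      have := sum_le_sum this
      simpa [sum_const, card_univ, nsmul_eq_mul] using this
    have h3 : C * ∑ p, y p ^ 2 ≤ |C| * ∑ p, y p ^ 2 :=
      mul_le_mul_of_nonneg_right (le_abs_self C) (sum_nonneg fun _ _ => sq_nonneg _)
    have h4 : |C| * ∑ p, y p ^ 2 ≤ |C| * (d * ‖y‖ ^ 2) :=
      mul_le_mul_of_nonneg_left h1 (abs_nonneg C)
    calc |ν y| ≤ C * ∑ p, y p ^ 2 := hb y
      _ ≤ |C| * (d * ‖y‖ ^ 2) := h3.trans h4
      _ = _ := by ring
  have hc : 0 ≤ |C| * (d : ℝ) := by positivity
  exact quadratic_of_third ν _ hc hb' (fun a b e x => D_three ν _ hc hb' K hF a b e x)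

end Quadratic

end Vale.Agent.Lib.P058S
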