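import Mathlib
import Vale.Agent.Lib.P058S.AssemblyA
import Vale.Agent.Lib.P058S.Frechet

/-!
# P058: a signed balanced array makes a finite set Ramsey
-/

set_option linter.unusedVariables false
set_option linter.unusedSectionVars false

namespace Vale.Agent.Lib.P058S

/-- The two iterated difference operators agree. -/
theorem asmD_eq_D {d : ℕ} (l : List (Fin d → ℝ)) :
    ∀ (nu : (Fin d → ℝ) → ℝ) (x : Fin d → ℝ), Asm.D nu l x = D nu l x := by
  induction l with
  | nil => intro nu x; rfl
  | cons a l ih =>
    intro nu x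
    simp only [Asm.D, D]
    exact ih _ x

/-- The Frechet lemma in the form used by the assembly. -/
theorem frechet_asm {d : ℕ} (nu : (Fin d → ℝ) → ℝ) (K : ℕ)
    (hF : ∀ l : List (Fin d → ℝ), l.length = K → ∀ x, Asm.D nu l x = 0) (C : ℝ)
    (hb : ∀ v, |nu v| ≤ C * ∑ p, v p ^ 2) :
    ∃ B : Fin d → Fin d → ℝ, ∀ v, nu v = ∑ p, ∑ q, B p q * v p * v q := by
  obtain ⟨B, -, hB⟩ := quadratic_of_frechet nu K
    (fun l hl x => by rw [← asmD_eq_D]; exact hF l hl x) C hb
  exact ⟨B, hB⟩

/-- A signed array gives affine arrays of every positive gain. -/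
theorem affineArray_of_signedArray {k d : ℕ} (x : Fin k → Fin d → ℝ) (hx : SignedArray x)
    (W : ℝ) (hW : 0 < W) : AffineArray x W :=
  Asm.affineArray_of_signedArray frechet_asm x hx W hW

/-- **A finite family of points with a signed balanced array is Ramsey.** -/
theorem isRamseyFamily_of_signedArray {k d : ℕ} (x : Fin k → EuclideanSpace ℝ (Fin d))
    (hx : SignedArray (fun a p => x a p)) : Vale.Agent.Lib.P058.IsRamseyFamily x :=
  Asm.isRamseyFamily_of_signedArray_aux frechet_asm x hx

end Vale.Agent.Lib.P058S
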