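import Vale.Agent.Lib.P058K.CyclicPN
import Vale.Agent.Lib.P058S.Defs

/-!
# A signed balanced array with `3 + 3` columns for any six points of a circle

Split six distinct points of a circle into two triples. In half-angle coordinates there are two
triples of affine forms with the same multiset of values at each of the six points, whose Gram
matrices differ by a nonzero multiple of the identity.
-/

namespace Vale.Agent.Lib.P058S.Six

noncomputable section

/-- The three rows of a `3 × 3` array of cells. -/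
def Gr (e : Fin 3 → Fin 3 → ℝ) : Fin 3 → ℝ :=
  ![e 0 0 + e 1 1 + e 2 2, e 0 1 + e 1 2 + e 2 0, e 0 2 + e 1 0 + e 2 1]

/-- The three columns of a `3 × 3` array of cells, with a minus sign. -/
def Fc (e : Fin 3 → Fin 3 → ℝ) : Fin 3 → ℝ :=
  ![-(e 0 0 + e 1 2 + e 2 1), -(e 0 1 + e 1 0 + e 2 2), -(e 0 2 + e 1 1 + e 2 0)]

/-- Rows and columns of a product array with zero sums: the basic cell identity. -/
lemma cell_id {x y : Fin 3 → ℝ} (hx : x 0 + x 1 + x 2 = 0) (hy : y 0 + y 1 + y 2 = 0) :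
    (Gr (fun u v => x u * y v) 0 - Fc (fun u v => x u * y v) 0 = 3 * (x 0 * y 0)) ∧
    (Gr (fun u v => x u * y v) 1 - Fc (fun u v => x u * y v) 1 = 3 * (x 0 * y 1)) ∧
    (Gr (fun u v => x u * y v) 2 - Fc (fun u v => x u * y v) 2 = 3 * (x 0 * y 2)) ∧
    (Gr (fun u v => x u * y v) 0 - Fc (fun u v => x u * y v) 2 = 3 * (x 1 * y 1)) ∧
    (Gr (fun u v => x u * y v) 1 - Fc (fun u v => x u * y v) 0 = 3 * (x 1 * y 2)) ∧
    (Gr (fun u v => x u * y v) 2 - Fc (fun u v => x u * y v) 1 = 3 * (x 1 * y 0)) ∧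
    (Gr (fun u v => x u * y v) 0 - Fc (fun u v => x u * y v) 1 = 3 * (x 2 * y 2)) ∧
    (Gr (fun u v => x u * y v) 1 - Fc (fun u v => x u * y v) 2 = 3 * (x 2 * y 0)) ∧
    (Gr (fun u v => x u * y v) 2 - Fc (fun u v => x u * y v) 0 = 3 * (x 2 * y 1)) := by
  have h2x : x 2 = -x 0 - x 1 := by linarith
  have h2y : y 2 = -y 0 - y 1 := by linarith
  simp only [Gr, Fc, Matrix.cons_val_zero, Matrix.cons_val_one, Matrix.cons_val]
  rw [h2x, h2y]
  refine ⟨?_, ?_, ?_, ?_, ?_, ?_, ?_, ?_, ?_⟩ <;> ring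

/-- The cell coefficients of a chord form. -/
def T0 (a a' b b' : ℝ) : ℝ := (a * b + a' * b') / 2
/-- The cell coefficients of a chord form. -/
def T1 (a a' b b' : ℝ) : ℝ := (a' * b' - a * b) / 2
/-- The cell coefficients of a chord form. -/
def T2 (a a' b b' : ℝ) : ℝ := -(a * b' + a' * b) / 2

lemma T_eval {a a' b b' p q : ℝ} (h : p ^ 2 + q ^ 2 = 1) :
    T0 a a' b b' + T1 a a' b b' * (p ^ 2 - q ^ 2) + T2 a a' b b' * (2 * p * q) =
      (q * a - p * a') * (q * b - p * b') := by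
  simp only [T0, T1, T2]
  linear_combination (-(a * b + a' * b') / 2) * h

/-- The weights. -/
def wt (a a' : Fin 3 → ℝ) (u : Fin 3) : ℝ :=
  ![a 1 * a' 2 - a' 1 * a 2, a 2 * a' 0 - a' 2 * a 0, a 0 * a' 1 - a' 0 * a 1] u

lemma wt_sum (a a' : Fin 3 → ℝ) (p q : ℝ) :
    wt a a' 0 * (q * a 0 - p * a' 0) + wt a a' 1 * (q * a 1 - p * a' 1) +
      wt a a' 2 * (q * a 2 - p * a' 2) = 0 := by
  simp only [wt, Matrix.cons_val_zero, Matrix.cons_val_one, Matrix.cons_val]
  ring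

/-- Values of the rows at a point. -/
lemma Gr_val (e0 e1 e2 : Fin 3 → Fin 3 → ℝ) (X Y : ℝ) (j : Fin 3) :
    Gr e0 j + Gr e1 j * X + Gr e2 j * Y = Gr (fun u v => e0 u v + e1 u v * X + e2 u v * Y) j := by
  fin_cases j <;> simp [Gr] <;> ring

/-- Values of the columns at a point. -/
lemma Fc_val (e0 e1 e2 : Fin 3 → Fin 3 → ℝ) (X Y : ℝ) (j : Fin 3) :
    Fc e0 j + Fc e1 j * X + Fc e2 j * Y = Fc (fun u v => e0 u v + e1 u v * X + e2 u v * Y) j := by
  fin_cases j <;> simp [Fc] <;> ring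

section Gram

variable (P Q R S : Fin 3 → ℝ)

/-- The `u`-part of a cell. -/
def e1 (u v : Fin 3) : ℝ := (Q u * S v - P u * R v) / 2
/-- The `v`-part of a cell. -/
def e2 (u v : Fin 3) : ℝ := -(P u * S v + Q u * R v) / 2

/-- The Gram identities. -/
lemma gram_id (hP : P 0 + P 1 + P 2 = 0) (hQ : Q 0 + Q 1 + Q 2 = 0) (hR : R 0 + R 1 + R 2 = 0)
    (hS : S 0 + S 1 + S 2 = 0) :
    (∑ k, Fc (e1 P Q R S) k ^ 2 - ∑ j, Gr (e1 P Q R S) j ^ 2 =
      9 / 2 * ((P 0 * Q 1 - P 1 * Q 0) * (R 0 * S 1 - R 1 * S 0))) ∧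
    (∑ k, Fc (e2 P Q R S) k ^ 2 - ∑ j, Gr (e2 P Q R S) j ^ 2 =
      9 / 2 * ((P 0 * Q 1 - P 1 * Q 0) * (R 0 * S 1 - R 1 * S 0))) ∧
    (∑ k, Fc (e1 P Q R S) k * Fc (e2 P Q R S) k - ∑ j, Gr (e1 P Q R S) j * Gr (e2 P Q R S) j = 0) := by
  have h2P : P 2 = -P 0 - P 1 := by linarith
  have h2Q : Q 2 = -Q 0 - Q 1 := by linarith
  have h2R : R 2 = -R 0 - R 1 := by linarith
  have h2S : S 2 = -S 0 - S 1 := by linarith
  simp only [Fin.sum_univ_three, Gr, Fc, e1, e2, Matrix.cons_val_zero, Matrix.cons_val_one,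
    Matrix.cons_val]
  rw [h2P, h2Q, h2R, h2S]
  refine ⟨?_, ?_, ?_⟩ <;> ring

end Gram

lemma ms_rot (u v w : ℝ) : ({v, w, u} : Multiset ℝ) = {u, v, w} := by
  ext t
  simp only [Multiset.insert_eq_cons, Multiset.count_cons, Multiset.count_singleton]
  ring

lemma ms_rot' (u v w : ℝ) : ({w, u, v} : Multiset ℝ) = {u, v, w} := by
  ext t
  simp only [Multiset.insert_eq_cons, Multiset.count_cons, Multiset.count_singleton]
  ring

lemma ms_sw12 (u v w : ℝ) : ({u, w, v} : Multiset ℝ) = {u, v, w} := by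
  ext t
  simp only [Multiset.insert_eq_cons, Multiset.count_cons, Multiset.count_singleton]
  ring

lemma ms_sw02 (u v w : ℝ) : ({w, v, u} : Multiset ℝ) = {u, v, w} := by
  ext t
  simp only [Multiset.insert_eq_cons, Multiset.count_cons, Multiset.count_singleton]
  ring

lemma ms_sw01 (u v w : ℝ) : ({v, u, w} : Multiset ℝ) = {u, v, w} := by
  ext t
  simp only [Multiset.insert_eq_cons, Multiset.count_cons, Multiset.count_singleton]
  ring

/-- Equal multisets at a zero of one factor. -/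
lemma law_of_zero {x y : Fin 3 → ℝ} (hx : x 0 + x 1 + x 2 = 0) (hy : y 0 + y 1 + y 2 = 0)
    (h : x 0 = 0 ∨ x 1 = 0 ∨ x 2 = 0 ∨ y 0 = 0 ∨ y 1 = 0 ∨ y 2 = 0) :
    ({Fc (fun u v => x u * y v) 0, Fc (fun u v => x u * y v) 1, Fc (fun u v => x u * y v) 2} :
      Multiset ℝ) =
    {Gr (fun u v => x u * y v) 0, Gr (fun u v => x u * y v) 1, Gr (fun u v => x u * y v) 2} := by
  obtain ⟨h1, h2, h3, h4, h5, h6, h7, h8, h9⟩ := cell_id hx hy
  generalize Fc (fun u v => x u * y v) 0 = F0 at *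
  generalize Fc (fun u v => x u * y v) 1 = F1 at *
  generalize Fc (fun u v => x u * y v) 2 = F2 at *
  generalize Gr (fun u v => x u * y v) 0 = G0 at *
  generalize Gr (fun u v => x u * y v) 1 = G1 at *
  generalize Gr (fun u v => x u * y v) 2 = G2 at *
  rcases h with h | h | h | h | h | h
  · simp only [h, zero_mul, mul_zero] at h1 h2 h3
    have e0 : G0 = F0 := by linarith
    have e1 : G1 = F1 := by linarith
    have e2 : G2 = F2 := by linarith
    rw [e0, e1, e2]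
  · simp only [h, zero_mul, mul_zero] at h4 h5 h6
    have e0 : G0 = F2 := by linarith
    have e1 : G1 = F0 := by linarith
    have e2 : G2 = F1 := by linarith
    rw [e0, e1, e2]
    exact (ms_rot' F0 F1 F2).symm
  · simp only [h, zero_mul, mul_zero] at h7 h8 h9
    have e0 : G0 = F1 := by linarith
    have e1 : G1 = F2 := by linarith
    have e2 : G2 = F0 := by linarith
    rw [e0, e1, e2]
    exact (ms_rot F0 F1 F2).symm
  · simp only [h, mul_zero] at h1 h6 h8
    have e0 : G0 = F0 := by linarith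
    have e1 : G1 = F2 := by linarith
    have e2 : G2 = F1 := by linarith
    rw [e0, e1, e2]
    exact (ms_sw12 F0 F1 F2).symm
  · simp only [h, mul_zero] at h2 h4 h9
    have e0 : G0 = F2 := by linarith
    have e1 : G1 = F1 := by linarith
    have e2 : G2 = F0 := by linarith
    rw [e0, e1, e2]
    exact (ms_sw02 F0 F1 F2).symm
  · simp only [h, mul_zero] at h3 h5 h7
    have e0 : G0 = F1 := by linarith
    have e1 : G1 = F0 := by linarith
    have e2 : G2 = F2 := by linarith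
    rw [e0, e1, e2]
    exact (ms_sw01 F0 F1 F2).symm

/-- The three coefficient arrays of the data. -/
def E0 (a a' b b' : Fin 3 → ℝ) (u v : Fin 3) : ℝ :=
  wt a a' u * wt b b' v * T0 (a u) (a' u) (b v) (b' v)
/-- The three coefficient arrays of the data. -/
def E1 (a a' b b' : Fin 3 → ℝ) (u v : Fin 3) : ℝ :=
  wt a a' u * wt b b' v * T1 (a u) (a' u) (b v) (b' v)
/-- The three coefficient arrays of the data. -/
def E2 (a a' b b' : Fin 3 → ℝ) (u v : Fin 3) : ℝ :=
  wt a a' u * wt b b' v * T2 (a u) (a' u) (b v) (b' v)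

/-- Equal laws at a point annihilated by one of the factors. -/
lemma law_core (a a' b b' : Fin 3 → ℝ) {p q : ℝ} (hpq : p ^ 2 + q ^ 2 = 1)
    (h : (q * a 0 - p * a' 0 = 0) ∨ (q * a 1 - p * a' 1 = 0) ∨ (q * a 2 - p * a' 2 = 0) ∨
      (q * b 0 - p * b' 0 = 0) ∨ (q * b 1 - p * b' 1 = 0) ∨ (q * b 2 - p * b' 2 = 0)) :
    ({Fc (E0 a a' b b') 0 + Fc (E1 a a' b b') 0 * (p ^ 2 - q ^ 2) + Fc (E2 a a' b b') 0 * (2 * p * q),
      Fc (E0 a a' b b') 1 + Fc (E1 a a' b b') 1 * (p ^ 2 - q ^ 2) + Fc (E2 a a' b b') 1 * (2 * p * q),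
      Fc (E0 a a' b b') 2 + Fc (E1 a a' b b') 2 * (p ^ 2 - q ^ 2) + Fc (E2 a a' b b') 2 * (2 * p * q)} :
      Multiset ℝ) =
    {Gr (E0 a a' b b') 0 + Gr (E1 a a' b b') 0 * (p ^ 2 - q ^ 2) + Gr (E2 a a' b b') 0 * (2 * p * q),
      Gr (E0 a a' b b') 1 + Gr (E1 a a' b b') 1 * (p ^ 2 - q ^ 2) + Gr (E2 a a' b b') 1 * (2 * p * q),
      Gr (E0 a a' b b') 2 + Gr (E1 a a' b b') 2 * (p ^ 2 - q ^ 2) + Gr (E2 a a' b b') 2 * (2 * p * q)} := by
  set x : Fin 3 → ℝ := fun u => wt a a' u * (q * a u - p * a' u) with hx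
  set y : Fin 3 → ℝ := fun v => wt b b' v * (q * b v - p * b' v) with hy
  have hcell : (fun u v => E0 a a' b b' u v + E1 a a' b b' u v * (p ^ 2 - q ^ 2) +
      E2 a a' b b' u v * (2 * p * q)) = fun u v => x u * y v := by
    funext u v
    have := T_eval (a := a u) (a' := a' u) (b := b v) (b' := b' v) hpq
    simp only [E0, E1, E2, hx, hy]
    linear_combination (wt a a' u * wt b b' v) * this
  simp only [Gr_val, Fc_val, hcell]
  refine law_of_zero (wt_sum a a' p q) (wt_sum b b' p q) ?_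
  rcases h with h | h | h | h | h | h
  · left; simp only [hx, h, mul_zero]
  · right; left; simp only [hx, h, mul_zero]
  · right; right; left; simp only [hx, h, mul_zero]
  · right; right; right; left; simp only [hy, h, mul_zero]
  · right; right; right; right; left; simp only [hy, h, mul_zero]
  · right; right; right; right; right; simp only [hy, h, mul_zero]

lemma E1_eq (a a' b b' : Fin 3 → ℝ) :
    E1 a a' b b' = e1 (fun u => wt a a' u * a u) (fun u => wt a a' u * a' u)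
      (fun v => wt b b' v * b v) (fun v => wt b b' v * b' v) := by
  funext u v
  simp only [E1, T1, e1]
  ring

lemma E2_eq (a a' b b' : Fin 3 → ℝ) :
    E2 a a' b b' = e2 (fun u => wt a a' u * a u) (fun u => wt a a' u * a' u)
      (fun v => wt b b' v * b v) (fun v => wt b b' v * b' v) := by
  funext u v
  simp only [E2, T2, e2]
  ring

lemma wt_vec_sum (a a' : Fin 3 → ℝ) :
    (wt a a' 0 * a 0 + wt a a' 1 * a 1 + wt a a' 2 * a 2 = 0) ∧
    (wt a a' 0 * a' 0 + wt a a' 1 * a' 1 + wt a a' 2 * a' 2 = 0) := by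
  simp only [wt, Matrix.cons_val_zero, Matrix.cons_val_one, Matrix.cons_val]
  constructor <;> ring

lemma wt_area (a a' : Fin 3 → ℝ) :
    (wt a a' 0 * a 0) * (wt a a' 1 * a' 1) - (wt a a' 1 * a 1) * (wt a a' 0 * a' 0) =
      wt a a' 0 * wt a a' 1 * wt a a' 2 := by
  simp only [wt, Matrix.cons_val_zero, Matrix.cons_val_one, Matrix.cons_val]
  ring

/-- The Gram identities for the data. -/
lemma gram_core (a a' b b' : Fin 3 → ℝ) :
    (∑ k, Fc (E1 a a' b b') k ^ 2 - ∑ j, Gr (E1 a a' b b') j ^ 2 =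
      9 / 2 * ((wt a a' 0 * wt a a' 1 * wt a a' 2) * (wt b b' 0 * wt b b' 1 * wt b b' 2))) ∧
    (∑ k, Fc (E2 a a' b b') k ^ 2 - ∑ j, Gr (E2 a a' b b') j ^ 2 =
      9 / 2 * ((wt a a' 0 * wt a a' 1 * wt a a' 2) * (wt b b' 0 * wt b b' 1 * wt b b' 2))) ∧
    (∑ k, Fc (E1 a a' b b') k * Fc (E2 a a' b b') k -
      ∑ j, Gr (E1 a a' b b') j * Gr (E2 a a' b b') j = 0) := by
  rw [E1_eq, E2_eq]
  have h := gram_id (fun u => wt a a' u * a u) (fun u => wt a a' u * a' u)
    (fun v => wt b b' v * b v) (fun v => wt b b' v * b' v)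
    (wt_vec_sum a a').1 (wt_vec_sum a a').2 (wt_vec_sum b b').1 (wt_vec_sum b b').2
  simp only [wt_area] at h
  exact h

/-- Unit vectors with vanishing bracket give the same point of the circle. -/
lemma same_point {p q r s : ℝ} (h1 : p ^ 2 + q ^ 2 = 1) (h2 : r ^ 2 + s ^ 2 = 1)
    (h : p * s - q * r = 0) : r ^ 2 - s ^ 2 = p ^ 2 - q ^ 2 ∧ 2 * r * s = 2 * p * q := by
  set d := p * r + q * s with hd
  have hd2 : d ^ 2 = 1 := by
    have : d ^ 2 + (p * s - q * r) ^ 2 = (p ^ 2 + q ^ 2) * (r ^ 2 + s ^ 2) := by rw [hd]; ring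
    rw [h, h1, h2] at this
    linarith
  have hr : r = d * p := by
    have : r * (p ^ 2 + q ^ 2) = d * p - q * (p * s - q * r) := by rw [hd]; ring
    rw [h1, h] at this
    linarith
  have hs : s = d * q := by
    have : s * (p ^ 2 + q ^ 2) = d * q + p * (p * s - q * r) := by rw [hd]; ring
    rw [h1, h] at this
    linarith
  constructor
  · rw [hr, hs]; linear_combination (p ^ 2 - q ^ 2) * hd2
  · rw [hr, hs]; linear_combination (2 * p * q) * hd2

/-- **Six points of a circle: a signed balanced array with `3 + 3` columns.** -/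
theorem six_signed (x y : Fin 6 → ℝ) (R : ℝ) (hR : 0 < R) (hc : ∀ i, x i ^ 2 + y i ^ 2 = R ^ 2)
    (hne : ∀ i j, i ≠ j → x i ≠ x j ∨ y i ≠ y j) :
    ∃ (c u v c' u' v' : Fin 3 → ℝ) (κ : ℝ), κ ≠ 0 ∧
      (∀ i, ({c 0 + u 0 * x i + v 0 * y i, c 1 + u 1 * x i + v 1 * y i,
          c 2 + u 2 * x i + v 2 * y i} : Multiset ℝ) =
        {c' 0 + u' 0 * x i + v' 0 * y i, c' 1 + u' 1 * x i + v' 1 * y i,
          c' 2 + u' 2 * x i + v' 2 * y i}) ∧
      (∑ k, u k ^ 2 - ∑ k, u' k ^ 2 = κ) ∧ (∑ k, v k ^ 2 - ∑ k, v' k ^ 2 = κ) ∧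
      (∑ k, u k * v k - ∑ k, u' k * v' k = 0) := by
  choose θ hθx hθy using fun i => Vale.Agent.Lib.P058K.PNC.exists_angle hR (hc i)
  -- half angle coordinates
  obtain ⟨p, hp⟩ : ∃ p : Fin 6 → ℝ, ∀ i, p i = Real.cos (θ i / 2) := ⟨_, fun _ => rfl⟩
  obtain ⟨q, hq⟩ : ∃ q : Fin 6 → ℝ, ∀ i, q i = Real.sin (θ i / 2) := ⟨_, fun _ => rfl⟩
  have hunit : ∀ i, p i ^ 2 + q i ^ 2 = 1 := by
    intro i; rw [hp, hq, add_comm]; exact Real.sin_sq_add_cos_sq _
  have hx : ∀ i, x i = R * (p i ^ 2 - q i ^ 2) := by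
    intro i
    rw [hθx, hp, hq]
    have h1 : θ i = 2 * (θ i / 2) := by ring
    conv_lhs => rw [h1, Real.cos_two_mul]
    have h2 := Real.sin_sq_add_cos_sq (θ i / 2)
    nlinarith
  have hy : ∀ i, y i = R * (2 * p i * q i) := by
    intro i
    rw [hθy, hp, hq]
    have h1 : θ i = 2 * (θ i / 2) := by ring
    conv_lhs => rw [h1, Real.sin_two_mul]
    ring
  have hbr : ∀ i j, i ≠ j → p i * q j - q i * p j ≠ 0 := by
    intro i j hij h0
    obtain ⟨h1, h2⟩ := same_point (hunit i) (hunit j) h0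
    rcases hne i j hij with h | h
    · exact h (by rw [hx, hx, h1])
    · exact h (by rw [hy, hy, h2])
  obtain ⟨a, ha⟩ : ∃ a : Fin 3 → ℝ, a = ![p 0, p 1, p 2] := ⟨_, rfl⟩
  obtain ⟨a', ha'⟩ : ∃ a' : Fin 3 → ℝ, a' = ![q 0, q 1, q 2] := ⟨_, rfl⟩
  obtain ⟨b, hb⟩ : ∃ b : Fin 3 → ℝ, b = ![p 3, p 4, p 5] := ⟨_, rfl⟩
  obtain ⟨b', hb'⟩ : ∃ b' : Fin 3 → ℝ, b' = ![q 3, q 4, q 5] := ⟨_, rfl⟩
  obtain ⟨h1, h2, h3⟩ := gram_core a a' b b'
  have hw0 : wt a a' 0 ≠ 0 := by
    simp only [wt, ha, ha', Matrix.cons_val_zero, Matrix.cons_val_one, Matrix.cons_val]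
    exact hbr 1 2 (by decide)
  have hw1 : wt a a' 1 ≠ 0 := by
    simp only [wt, ha, ha', Matrix.cons_val_zero, Matrix.cons_val_one, Matrix.cons_val]
    exact hbr 2 0 (by decide)
  have hw2 : wt a a' 2 ≠ 0 := by
    simp only [wt, ha, ha', Matrix.cons_val_zero, Matrix.cons_val_one, Matrix.cons_val]
    exact hbr 0 1 (by decide)
  have hw3 : wt b b' 0 ≠ 0 := by
    simp only [wt, hb, hb', Matrix.cons_val_zero, Matrix.cons_val_one, Matrix.cons_val]
    exact hbr 4 5 (by decide)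
  have hw4 : wt b b' 1 ≠ 0 := by
    simp only [wt, hb, hb', Matrix.cons_val_zero, Matrix.cons_val_one, Matrix.cons_val]
    exact hbr 5 3 (by decide)
  have hw5 : wt b b' 2 ≠ 0 := by
    simp only [wt, hb, hb', Matrix.cons_val_zero, Matrix.cons_val_one, Matrix.cons_val]
    exact hbr 3 4 (by decide)
  refine ⟨Fc (E0 a a' b b'), fun k => Fc (E1 a a' b b') k / R, fun k => Fc (E2 a a' b b') k / R,
    Gr (E0 a a' b b'), fun k => Gr (E1 a a' b b') k / R, fun k => Gr (E2 a a' b b') k / R,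
    (9 / 2 * ((wt a a' 0 * wt a a' 1 * wt a a' 2) * (wt b b' 0 * wt b b' 1 * wt b b' 2))) / R ^ 2,
    ?_, ?_, ?_, ?_, ?_⟩
  · apply div_ne_zero _ (pow_ne_zero 2 hR.ne')
    apply mul_ne_zero (by norm_num)
    exact mul_ne_zero (mul_ne_zero (mul_ne_zero hw0 hw1) hw2) (mul_ne_zero (mul_ne_zero hw3 hw4) hw5)
  · intro i
    have hform : ∀ (c u v : ℝ), c + u / R * x i + v / R * y i =
        c + u * (p i ^ 2 - q i ^ 2) + v * (2 * p i * q i) := by
      intro c u v
      rw [hx, hy]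
      field_simp
    simp only [hform]
    refine law_core a a' b b' (hunit i) ?_
    fin_cases i
    · left; simp [ha, ha']; ring
    · right; left; simp [ha, ha']; ring
    · right; right; left; simp [ha, ha']; ring
    · right; right; right; left; simp [hb, hb']; ring
    · right; right; right; right; left; simp [hb, hb']; ring
    · right; right; right; right; right; simp [hb, hb']; ring
  · simp only [div_pow, ← Finset.sum_div, ← sub_div]
    rw [h1]
  · simp only [div_pow, ← Finset.sum_div, ← sub_div]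
    rw [h2]
  · have e1' : ∀ k, Fc (E1 a a' b b') k / R * (Fc (E2 a a' b b') k / R) =
        Fc (E1 a a' b b') k * Fc (E2 a a' b b') k / R ^ 2 := by
      intro k; field_simp
    have e2' : ∀ k, Gr (E1 a a' b b') k / R * (Gr (E2 a a' b b') k / R) =
        Gr (E1 a a' b b') k * Gr (E2 a a' b b') k / R ^ 2 := by
      intro k; field_simp
    simp only [e1', e2', ← Finset.sum_div, ← sub_div]
    rw [h3, zero_div]

/-- Packaging of the identities as a signed array. -/
lemma signedArray_of_data {X Y : Fin 6 → ℝ} {c u v c' u' v' : Fin 3 → ℝ} {κ : ℝ} (hκ : 0 < κ)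
    (hlaw : ∀ i, ({c 0 + u 0 * X i + v 0 * Y i, c 1 + u 1 * X i + v 1 * Y i,
          c 2 + u 2 * X i + v 2 * Y i} : Multiset ℝ) =
        {c' 0 + u' 0 * X i + v' 0 * Y i, c' 1 + u' 1 * X i + v' 1 * Y i,
          c' 2 + u' 2 * X i + v' 2 * Y i})
    (h1 : ∑ k, u k ^ 2 - ∑ k, u' k ^ 2 = κ) (h2 : ∑ k, v k ^ 2 - ∑ k, v' k ^ 2 = κ)
    (h3 : ∑ k, u k * v k - ∑ k, u' k * v' k = 0) :
    SignedArray (fun i : Fin 6 => ![X i, Y i]) := by
  refine ⟨{(c 0, ![u 0, v 0]), (c 1, ![u 1, v 1]), (c 2, ![u 2, v 2])},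
    {(c' 0, ![u' 0, v' 0]), (c' 1, ![u' 1, v' 1]), (c' 2, ![u' 2, v' 2])}, κ, hκ, ?_, ?_⟩
  · intro i
    have := hlaw i
    simpa [col, Fin.sum_univ_two, mul_comm, add_assoc] using this
  · intro p q
    simp only [Fin.sum_univ_three] at h1 h2 h3
    fin_cases p <;> fin_cases q
    · simp
      linarith
    · simp
      linarith
    · simp
      linarith
    · simp
      linarith

/-- **Every six points of a circle carry a signed balanced array.** -/
theorem six_signedArray (X Y : Fin 6 → ℝ) (z₀ z₁ R : ℝ) (hR : 0 < R)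
    (hc : ∀ i, (X i - z₀) ^ 2 + (Y i - z₁) ^ 2 = R ^ 2)
    (hne : ∀ i j, i ≠ j → X i ≠ X j ∨ Y i ≠ Y j) :
    SignedArray (fun i : Fin 6 => ![X i, Y i]) := by
  obtain ⟨c, u, v, c', u', v', κ, hκ, hlaw, h1, h2, h3⟩ :=
    six_signed (fun i => X i - z₀) (fun i => Y i - z₁) R hR hc (by
      intro i j hij
      rcases hne i j hij with h | h
      · left; intro h'; exact h (by linarith)
      · right; intro h'; exact h (by linarith))
  have hshift : ∀ i (c u v : ℝ), c + u * (X i - z₀) + v * (Y i - z₁) =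
      (c - u * z₀ - v * z₁) + u * X i + v * Y i := by
    intro i c u v; ring
  simp only [hshift] at hlaw
  rcases lt_or_gt_of_ne hκ with hneg | hpos
  · refine signedArray_of_data (κ := -κ) (by linarith)
      (c := fun k => c' k - u' k * z₀ - v' k * z₁) (u := u') (v := v')
      (c' := fun k => c k - u k * z₀ - v k * z₁) (u' := u) (v' := v)
      (fun i => (hlaw i).symm) (by linarith) (by linarith) (by linarith)
  · exact signedArray_of_data hpos
      (c := fun k => c k - u k * z₀ - v k * z₁) (u := u) (v := v)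
      (c' := fun k => c' k - u' k * z₀ - v' k * z₁) (u' := u') (v' := v')
      hlaw h1 h2 h3

end

end Vale.Agent.Lib.P058S.Six
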