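import Vale.Agent.Lib.P058S.SignedNecessity
import Vale.Agent.Lib.P058S.Assembly
import Vale.Agent.Lib.P058C.Necessity

/-!
# A finite family spans a Ramsey set iff it has a signed balanced array
-/

namespace Vale.Agent.Lib.P058S

open Vale.Agent.Lib.P058 Vale.Agent.Lib.P058C

/-- **The signed array criterion.**  The set of points of a finite family `x` is Ramsey iff the family
has a signed balanced array. -/
theorem isRamsey_range_iff_signedArray {k d : ℕ} (x : Fin k → EuclideanSpace ℝ (Fin d)) :
    IsRamsey (Set.range x) ↔ SignedArray (fun a p => x a p) := by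
  constructor
  · intro h
    refine Nec.signedArray_of_arrayCond x ?_
    have h2 := arrayCond_of_isRamseyFamily x (by
      intro r hr
      obtain ⟨D, hD, hc⟩ := h r hr
      refine ⟨D, hD, fun c => ?_⟩
      obtain ⟨f, hf, col, hcol⟩ := hc c
      exact ⟨fun i => f (x i), fun i j => hf _ ⟨i, rfl⟩ _ ⟨j, rfl⟩, col, fun i => hcol _ ⟨i, rfl⟩⟩) 2
      (le_refl 2)
    simpa using h2
  · intro h
    exact (isRamseyFamily_of_signedArray x h).range

end Vale.Agent.Lib.P058S
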