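import Mathlib

/-!
# Abstract Frechet elimination for functional equations on additive groups
-/

namespace Vale.Agent.Lib.P058S.AlgF

variable {G : Type*} [AddCommGroup G]

/-- The difference of `f` along `h`. -/
def Dl (h : G) (f : G → ℝ) : G → ℝ := fun x => f (x + h) - f x

/-- Iterated differences along a list. -/
def DD (f : G → ℝ) : List G → G → ℝ
  | [] => f
  | h :: l => DD (Dl h f) l

/-- All `n`-fold differences vanish. -/
def W (n : ℕ) (f : G → ℝ) : Prop := ∀ l : List G, l.length = n → ∀ x, DD f l x = 0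

theorem Dl_comm (h k : G) (f : G → ℝ) : Dl k (Dl h f) = Dl h (Dl k f) := by
  funext x
  simp only [Dl]
  rw [add_right_comm x k h]
  ring

theorem DD_Dl (h : G) (l : List G) : ∀ f : G → ℝ, DD (Dl h f) l = Dl h (DD f l) := by
  induction l with
  | nil => intro f; rfl
  | cons k l ih =>
    intro f
    show DD (Dl k (Dl h f)) l = Dl h (DD (Dl k f) l)
    rw [Dl_comm, ih]

theorem W_Dl {n : ℕ} {f : G → ℝ} (hf : W (n + 1) f) (h : G) : W n (Dl h f) := by
  intro l hl x
  exact hf (h :: l) (by simp [hl]) x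

theorem W_succ {n : ℕ} {f : G → ℝ} (hf : W n f) : W (n + 1) f := by
  intro l hl x
  cases l with
  | nil => simp at hl
  | cons h l =>
    have hl' : l.length = n := by simpa using hl
    show DD (Dl h f) l x = 0
    rw [DD_Dl]
    simp [Dl, hf l hl']

theorem W_add {n : ℕ} {f : G → ℝ} (hf : W n f) (m : ℕ) : W (n + m) f := by
  induction m with
  | zero => simpa using hf
  | succ m ih => exact W_succ ih

theorem DD_const {n : ℕ} {f : G → ℝ} (hf : W (n + 1) f) {l : List G} (hl : l.length = n) (x h : G) :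
    DD f l (x + h) = DD f l x := by
  have := hf (h :: l) (by simp [hl]) x
  have h2 : DD f (h :: l) x = DD (Dl h f) l x := rfl
  rw [h2, DD_Dl] at this
  simp only [Dl] at this
  linarith

theorem DD_lin (a b : ℝ) (l : List G) : ∀ (f f' : G → ℝ) (x : G),
    DD (fun y => a * f y + b * f' y) l x = a * DD f l x + b * DD f' l x := by
  induction l with
  | nil => intro f f' x; rfl
  | cons h l ih =>
    intro f f' x
    have e : Dl h (fun y => a * f y + b * f' y) = fun y => a * Dl h f y + b * Dl h f' y := by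
      funext y; simp only [Dl]; ring
    show DD (Dl h (fun y => a * f y + b * f' y)) l x = a * DD (Dl h f) l x + b * DD (Dl h f') l x
    rw [e, ih]

/-- Dilation by two. -/
def dbl (f : G → ℝ) : G → ℝ := fun x => f (x + x)

theorem Dl_dbl (h : G) (f : G → ℝ) : Dl h (dbl f) = dbl (Dl (h + h) f) := by
  funext x
  simp only [Dl, dbl]
  have : x + h + (x + h) = x + x + (h + h) := by abel
  rw [this]

theorem Dl_two (h : G) (f : G → ℝ) :
    Dl (h + h) f = fun y => (2 : ℝ) * Dl h f y + (1 : ℝ) * Dl h (Dl h f) y := by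
  funext y
  simp only [Dl]
  have : y + (h + h) = y + h + h := by abel
  rw [this]
  ring

theorem DD_dbl (l : List G) : ∀ (n : ℕ), l.length = n → ∀ f : G → ℝ, W (n + 1) f → ∀ x,
    DD (dbl f) l x = 2 ^ n * DD f l (x + x) := by
  induction l with
  | nil =>
    intro n hn f _ x
    simp at hn
    subst hn
    simp [DD, dbl]
  | cons h l ih =>
    intro n hn f hf x
    have hn' : l.length + 1 = n := by simpa using hn
    subst hn'
    show DD (Dl h (dbl f)) l x = 2 ^ (l.length + 1) * DD (Dl h f) l (x + x)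
    rw [Dl_dbl, ih l.length rfl _ (W_Dl hf (h + h)) x, Dl_two, DD_lin]
    have h0 : DD (Dl h (Dl h f)) l (x + x) = 0 := hf (h :: h :: l) (by simp) (x + x)
    rw [h0, pow_succ]
    ring

theorem W_reduce {n : ℕ} {f : G → ℝ} (hf : W (n + 1) f) :
    W n (fun x => (1 : ℝ) * f (x + x) + (-(2 : ℝ) ^ n) * f x) := by
  intro l hl x
  have e := DD_lin (1 : ℝ) (-(2 : ℝ) ^ n) l (dbl f) f x
  have e2 : (fun y => (1 : ℝ) * dbl f y + (-(2 : ℝ) ^ n) * f y) =
      (fun x => (1 : ℝ) * f (x + x) + (-(2 : ℝ) ^ n) * f x) := rfl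
  rw [e2] at e
  rw [e, DD_dbl l n hl f hf x, DD_const hf hl x x]
  ring

theorem reduce {V ι : Type*} [AddCommGroup V] [Fintype ι] (φ : ι → V →+ G) (Q : V → ℝ)
    (hQ : ∀ c, Q (c + c) = 4 * Q c) :
    ∀ (k : ℕ) (g : ι → G → ℝ) (κ : ℝ), (∀ a, W (k + 3) (g a)) → κ ≠ 0 →
      (∀ c, ∑ a, g a (φ a c) + κ * Q c = 0) →
      ∃ (κ' : ℝ) (g' : ι → G → ℝ), κ' ≠ 0 ∧ (∀ a, W 3 (g' a)) ∧
        ∀ c, ∑ a, g' a (φ a c) + κ' * Q c = 0 := by
  intro k
  induction k with
  | zero =>
    intro g κ hg hκ hid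
    exact ⟨κ, g, hκ, by simpa using hg, hid⟩
  | succ k ih =>
    intro g κ hg hκ hid
    have hne : (4 : ℝ) - 2 ^ (k + 3) ≠ 0 := by
      have h1 : (1 : ℝ) ≤ 2 ^ k := one_le_pow₀ (by norm_num)
      have h2 : (2 : ℝ) ^ (k + 3) = 8 * 2 ^ k := by rw [pow_add]; ring
      rw [h2]
      intro h
      linarith
    refine ih (fun a x => (1 : ℝ) * g a (x + x) + (-(2 : ℝ) ^ (k + 3)) * g a x)
      (κ * (4 - 2 ^ (k + 3))) (fun a => W_reduce (by simpa [add_assoc, add_comm, add_left_comm] using hg a))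
      (mul_ne_zero hκ hne) (fun c => ?_)
    have h1 := hid (c + c)
    have h2 := hid c
    rw [hQ] at h1
    simp only [map_add] at h1
    have h3 : ∑ a, ((1 : ℝ) * g a (φ a c + φ a c) + (-(2 : ℝ) ^ (k + 3)) * g a (φ a c)) =
        ∑ a, g a (φ a c + φ a c) + (-(2 : ℝ) ^ (k + 3)) * ∑ a, g a (φ a c) := by
      rw [Finset.sum_add_distrib, Finset.mul_sum]
      simp
    rw [h3]
    have h4 : ∑ a, g a (φ a c + φ a c) = - (κ * (4 * Q c)) := by linarith
    have h5 : ∑ a, g a (φ a c) = - (κ * Q c) := by linarith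
    rw [h4, h5]
    ring

theorem elim {V ι : Type*} [AddCommGroup V] [DecidableEq ι] (φ : ι → V →+ G) (a : ι)
    (sh : G → V) (hsh : ∀ h, φ a (sh h) = h)
    (e : ι → G → V) (he0 : ∀ b, b ≠ a → ∀ h, φ b (e b h) = 0)
    (he1 : ∀ b, b ≠ a → ∀ h, φ a (e b h) = h) (S : Finset ι) :
    ∀ (g : ι → G → ℝ), a ∉ S → (∀ c, g a (φ a c) + ∑ j ∈ S, g j (φ j c) = 0) →
      ∀ l : List G, l.length = S.card → ∀ x, DD (g a) l x = 0 := by
  induction S using Finset.induction_on with
  | empty =>
    intro g _ hid l hl x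
    have hl' : l = [] := by simpa using hl
    subst hl'
    have := hid (sh x)
    show g a x = 0
    simpa [hsh] using this
  | insert b S hb ih =>
    intro g ha hid l hl x
    have hab : b ≠ a := by
      rintro rfl
      exact ha (Finset.mem_insert_self _ _)
    have ha' : a ∉ S := fun h => ha (Finset.mem_insert_of_mem h)
    rw [Finset.card_insert_of_notMem hb] at hl
    cases l with
    | nil => simp at hl
    | cons h l =>
      have hl' : l.length = S.card := by simpa using hl
      have key := ih (fun j => Dl (φ j (e b h)) (g j)) ha' (fun c => ?_) l hl' x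
      · show DD (Dl h (g a)) l x = 0
        have e1 : Dl (φ a (e b h)) (g a) = Dl h (g a) := by rw [he1 b hab]
        simpa [e1] using key
      · have h1 := hid (c + e b h)
        have h2 := hid c
        rw [Finset.sum_insert hb] at h1 h2
        have h3 : φ b (c + e b h) = φ b c := by simp [he0 b hab h]
        rw [h3] at h1
        simp only [Dl]
        have h4 : ∑ j ∈ S, (g j (φ j c + φ j (e b h)) - g j (φ j c)) =
            ∑ j ∈ S, g j (φ j (c + e b h)) - ∑ j ∈ S, g j (φ j c) := by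
          rw [← Finset.sum_sub_distrib]
          simp
        rw [h4]
        have h5 : g a (φ a c + φ a (e b h)) = g a (φ a (c + e b h)) := by simp
        rw [h5]
        linarith

theorem W_of_identity {V ι : Type*} [AddCommGroup V] [Fintype ι] [DecidableEq ι]
    (φ : ι → V →+ G) (Q : V → ℝ) (sh : G → V) (hsh : ∀ a h, φ a (sh h) = h)
    (hQs : ∀ c h, Q (c + sh h) = Q c) (e : ι → ι → G → V)
    (he0 : ∀ a b, b ≠ a → ∀ h, φ b (e a b h) = 0)
    (he1 : ∀ a b, b ≠ a → ∀ h, φ a (e a b h) = h) (g : ι → G → ℝ)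
    (hid : ∀ c, ∑ a, g a (φ a c) + Q c = 0) (a : ι) : W (Fintype.card ι) (g a) := by
  intro l hl x
  have hcard : Fintype.card ι = (Finset.univ.erase a).card + 1 := by
    rw [Finset.card_erase_of_mem (Finset.mem_univ a), Finset.card_univ]
    have : 0 < Fintype.card ι := Fintype.card_pos_iff.mpr ⟨a⟩
    omega
  rw [hcard] at hl
  cases l with
  | nil => simp at hl
  | cons h l =>
    have hl' : l.length = (Finset.univ.erase a).card := by simpa using hl
    show DD (Dl h (g a)) l x = 0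
    refine elim φ a sh (hsh a) (e a) (he0 a) (he1 a) (Finset.univ.erase a)
      (fun j => Dl h (g j)) (by simp) (fun c => ?_) l hl' x
    rw [Finset.add_sum_erase _ (fun j => Dl h (g j) (φ j c)) (Finset.mem_univ a)]
    have h1 := hid (c + sh h)
    have h2 := hid c
    rw [hQs] at h1
    simp only [Dl]
    have h3 : ∑ j, (g j (φ j c + h) - g j (φ j c)) =
        ∑ j, g j (φ j (c + sh h)) - ∑ j, g j (φ j c) := by
      rw [← Finset.sum_sub_distrib]
      simp [hsh]
    rw [h3]
    linarith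

/-- The polar form of a function. -/
def polar (f : G → ℝ) (h k : G) : ℝ := f (h + k) - f h - f k + f 0

theorem polar_add_left {f : G → ℝ} (hf : W 3 f) (h1 h2 k : G) :
    polar f (h1 + h2) k = polar f h1 k + polar f h2 k := by
  have := hf [h1, h2, k] rfl 0
  simp only [DD, Dl, zero_add] at this
  simp only [polar]
  have e1 : k + h2 + h1 = h1 + h2 + k := by abel
  have e2 : k + h1 + h2 = h1 + h2 + k := by abel
  have e3 : k + h1 = h1 + k := by abel
  have e4 : k + h2 = h2 + k := by abel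
  have e5 : h2 + h1 = h1 + h2 := by abel
  have e6 : h2 + k + h1 = h1 + h2 + k := by abel
  simp only [e1, e2, e3, e4, e5, e6] at this
  linarith

theorem polar_comm (f : G → ℝ) (h k : G) : polar f h k = polar f k h := by
  simp only [polar]
  rw [add_comm h k]
  ring

/-- **Abstract elimination.** -/
theorem main {V ι : Type*} [AddCommGroup V] [Fintype ι] [DecidableEq ι]
    (φ : ι → V →+ G) (Q : V → ℝ) (hQ : ∀ c, Q (c + c) = 4 * Q c)
    (sh : G → V) (hsh : ∀ a h, φ a (sh h) = h) (hQs : ∀ c h, Q (c + sh h) = Q c)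
    (e : ι → ι → G → V) (he0 : ∀ a b, b ≠ a → ∀ h, φ b (e a b h) = 0)
    (he1 : ∀ a b, b ≠ a → ∀ h, φ a (e a b h) = h) (g : ι → G → ℝ)
    (hid : ∀ c, ∑ a, g a (φ a c) + Q c = 0) :
    ∃ (κ : ℝ) (A : ι → G → G → ℝ), κ ≠ 0 ∧
      (∀ a h1 h2 k, A a (h1 + h2) k = A a h1 k + A a h2 k) ∧
      (∀ a h k, A a h k = A a k h) ∧
      ∀ c c', ∑ a, A a (φ a c) (φ a c') + κ * (Q (c + c') - Q c - Q c') = 0 := by
  have hW : ∀ a, W (Fintype.card ι + 3) (g a) := fun a =>
    W_add (W_of_identity φ Q sh hsh hQs e he0 he1 g hid a) 3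
  obtain ⟨κ, g', hκ, hg', hid'⟩ := reduce φ Q hQ (Fintype.card ι) g 1 hW one_ne_zero
    (fun c => by simpa using hid c)
  refine ⟨κ, fun a => polar (g' a), hκ, fun a h1 h2 k => polar_add_left (hg' a) h1 h2 k,
    fun a h k => polar_comm _ h k, fun c c' => ?_⟩
  have h0 : Q 0 = 0 := by
    have := hQ 0
    simp only [add_zero] at this
    linarith
  have h1 := hid' (c + c')
  have h2 := hid' c
  have h3 := hid' c'
  have h4 := hid' 0
  simp only [map_add, map_zero, h0] at h1 h4
  simp only [polar]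
  have h5 : ∑ a, (g' a (φ a c + φ a c') - g' a (φ a c) - g' a (φ a c') + g' a 0) =
      ∑ a, g' a (φ a c + φ a c') - ∑ a, g' a (φ a c) - ∑ a, g' a (φ a c') + ∑ a, g' a 0 := by
    rw [← Finset.sum_sub_distrib, ← Finset.sum_sub_distrib, ← Finset.sum_add_distrib]
  rw [h5]
  linarith

end Vale.Agent.Lib.P058S.AlgF
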