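import Vale.Agent.Lib.P058S.AlgDual
import Vale.Agent.Lib.P058S.AlgFrechet
import Vale.Agent.Lib.P058S.SignedIff

/-!
# Ramsey sets and biadditive certificates
-/

namespace Vale.Agent.Lib.P058S.AlgCert

open Vale.Agent.Lib.P058S Vale.Agent.Lib.P058

/-- **Biadditive certificate** of a family of points: symmetric biadditive `A a : ℝ × ℝ → ℝ` and
additive `B p q : ℝ → ℝ` with `∑ p, B p p 1 = 1` such that
`∑ a, A a (t + ⟨v, x a⟩) (t' + ⟨v', x a⟩) + ∑ p q, B p q (v p * v' q + v' p * v q) = 0`
for all real `t, t'` and all real vectors `v, v'`. -/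
def BiadditiveCert {k d : ℕ} (x : Fin k → Fin d → ℝ) : Prop :=
  ∃ (A : Fin k → ℝ → ℝ → ℝ) (B : Fin d → Fin d → ℝ →+ ℝ),
    (∀ a u v w, A a (u + v) w = A a u w + A a v w) ∧
    (∀ a u v, A a u v = A a v u) ∧
    ∑ p, B p p 1 = 1 ∧
    ∀ (t t' : ℝ) (v v' : Fin d → ℝ),
      ∑ a, A a (t + ∑ p, v p * x a p) (t' + ∑ p, v' p * x a p) +
        ∑ p, ∑ q, B p q (v p * v' q + v' p * v q) = 0

/-- A signed array excludes a certificate. -/
theorem not_cert_of_signedArray {k d : ℕ} (x : Fin k → Fin d → ℝ) (h : SignedArray x) :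
    ¬ BiadditiveCert x := by
  rintro ⟨A, B, hA1, hA2, hB1, hid⟩
  obtain ⟨P, N, s, hs, hlaw, hmom⟩ := h
  have hs0 : s ≠ 0 := hs.ne'
  -- one column
  have hone : ∀ c : ℝ × (Fin d → ℝ),
      ∑ a, A a (s⁻¹ * col c (x a)) (col c (x a)) +
        ∑ p, ∑ q, B p q (2 * s⁻¹ * (c.2 p * c.2 q)) = 0 := by
    intro c
    have := hid (s⁻¹ * c.1) c.1 (fun p => s⁻¹ * c.2 p) c.2
    have e1 : ∀ a, s⁻¹ * c.1 + ∑ p, s⁻¹ * c.2 p * x a p = s⁻¹ * col c (x a) := by
      intro a
      simp only [col, mul_add, Finset.mul_sum, mul_assoc]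
    have e2 : ∀ p q, s⁻¹ * c.2 p * c.2 q + c.2 p * (s⁻¹ * c.2 q) =
        2 * s⁻¹ * (c.2 p * c.2 q) := by
      intro p q
      ring
    simp only [e1, e2] at this
    simpa [col] using this
  -- sum over a multiset
  have hM : ∀ M : Multiset (ℝ × (Fin d → ℝ)),
      ∑ a, ((M.map (fun c => col c (x a))).map (fun y => A a (s⁻¹ * y) y)).sum +
        ∑ p, ∑ q, B p q (2 * s⁻¹ * (M.map (fun c => c.2 p * c.2 q)).sum) = 0 := by
    intro M
    induction M using Multiset.induction_on with
    | empty => simp
    | cons c M ih =>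
      simp only [Multiset.map_cons, Multiset.sum_cons, mul_add, map_add,
        Finset.sum_add_distrib]
      have h1 := hone c
      linarith
  have hP := hM P
  have hN := hM N
  have hlaw' : ∀ a, ((P.map (fun c => col c (x a))).map (fun y => A a (s⁻¹ * y) y)).sum =
      ((N.map (fun c => col c (x a))).map (fun y => A a (s⁻¹ * y) y)).sum := by
    intro a
    rw [hlaw a]
  simp only [hlaw'] at hP
  have hdiff : ∀ p q, B p q (2 * s⁻¹ * (P.map (fun c => c.2 p * c.2 q)).sum) =
      B p q (2 * s⁻¹ * (N.map (fun c => c.2 p * c.2 q)).sum) +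
        B p q (if p = q then 2 else 0) := by
    intro p q
    rw [← map_add]
    congr 1
    have := hmom p q
    have e : (P.map (fun c => c.2 p * c.2 q)).sum =
        (N.map (fun c => c.2 p * c.2 q)).sum + if p = q then s else 0 := by linarith
    rw [e]
    by_cases hpq : p = q
    · simp only [hpq, if_true]
      field_simp
    · simp [hpq]
  simp only [hdiff, Finset.sum_add_distrib] at hP
  have hlast : ∑ p, ∑ q, B p q (if p = q then (2 : ℝ) else 0) = 2 := by
    have e : ∀ p, ∑ q, B p q (if p = q then (2 : ℝ) else 0) = 2 * B p p 1 := by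
      intro p
      rw [Finset.sum_eq_single p]
      · simp only [if_true]
        have : (2 : ℝ) = 1 + 1 := by norm_num
        rw [this, map_add]
        ring
      · intro q _ hq
        simp [Ne.symm hq]
      · simp
    simp only [e]
    rw [← Finset.mul_sum, hB1]
    norm_num
  rw [hlast] at hP
  linarith

/-- Without a signed array there is a certificate. -/
theorem cert_of_not_signedArray {k d : ℕ} (x : Fin k → Fin d → ℝ) (hinj : Function.Injective x)
    (h : ¬ SignedArray x) : BiadditiveCert x := by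
  classical
  rcases AlgDual.dichotomy (K := ℝ) (RingHom.id ℝ) x with h1 | ⟨g, B, hid, hB1⟩
  · exact absurd (by simpa using h1) h
  -- the additive maps
  let φ : Fin k → (ℝ × (Fin d → ℝ)) →+ ℝ := fun a =>
    AddMonoidHom.mk' (AlgDual.phi x a) (by
      intro c c'
      simp only [AlgDual.phi, Prod.fst_add, Prod.snd_add, Pi.add_apply, add_mul,
        Finset.sum_add_distrib]
      ring)
  have hφ : ∀ a c, φ a c = c.1 + ∑ p, c.2 p * x a p := fun a c => rfl
  let Q : (ℝ × (Fin d → ℝ)) → ℝ := fun c => ∑ p, ∑ q, B p q (c.2 p * c.2 q)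
  have hQ : ∀ c, Q (c + c) = 4 * Q c := by
    intro c
    simp only [Q, Prod.snd_add, Pi.add_apply]
    rw [Finset.mul_sum]
    refine Finset.sum_congr rfl fun p _ => ?_
    rw [Finset.mul_sum]
    refine Finset.sum_congr rfl fun q _ => ?_
    have e : (c.2 p + c.2 p) * (c.2 q + c.2 q) =
        c.2 p * c.2 q + c.2 p * c.2 q + (c.2 p * c.2 q + c.2 p * c.2 q) := by ring
    rw [e, map_add, map_add]
    ring
  let sh : ℝ → ℝ × (Fin d → ℝ) := fun h => (h, 0)
  have hsh : ∀ a h, φ a (sh h) = h := by
    intro a h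
    simp [hφ, sh]
  have hQs : ∀ c h, Q (c + sh h) = Q c := by
    intro c h
    simp [Q, sh]
  -- choose coordinates
  have hex : ∀ a b : Fin k, b ≠ a → ∃ p, x a p - x b p ≠ 0 := by
    intro a b hab
    by_contra hc
    push Not at hc
    apply hab
    apply hinj
    funext p
    linarith [hc p]
  let e : Fin k → Fin k → ℝ → ℝ × (Fin d → ℝ) := fun a b h =>
    if hab : b ≠ a then
      (-(h / (x a (hex a b hab).choose - x b (hex a b hab).choose) * x b (hex a b hab).choose),
        fun r => if r = (hex a b hab).choose then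
          h / (x a (hex a b hab).choose - x b (hex a b hab).choose) else 0)
    else 0
  have he : ∀ a b, ∀ hab : b ≠ a, ∀ h j, φ j (e a b h) =
      -(h / (x a (hex a b hab).choose - x b (hex a b hab).choose) * x b (hex a b hab).choose) +
        h / (x a (hex a b hab).choose - x b (hex a b hab).choose) * x j (hex a b hab).choose := by
    intro a b hab h j
    simp only [e, dif_pos hab, hφ, ite_mul, zero_mul]
    simp
  have he0 : ∀ a b, b ≠ a → ∀ h, φ b (e a b h) = 0 := by
    intro a b hab h
    rw [he a b hab h b]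
    ring
  have he1 : ∀ a b, b ≠ a → ∀ h, φ a (e a b h) = h := by
    intro a b hab h
    rw [he a b hab h a]
    have hne := (hex a b hab).choose_spec
    field_simp
    ring
  have hid' : ∀ c, ∑ a, g a (φ a c) + Q c = 0 := fun c => hid c
  obtain ⟨κ, A, hκ, hA1, hA2, hA3⟩ := AlgF.main φ Q hQ sh hsh hQs e he0 he1 g hid'
  refine ⟨fun a u v => κ⁻¹ * A a u v, B, fun a u v w => ?_, fun a u v => ?_, hB1, fun t t' v v' => ?_⟩
  · simp only [hA1, mul_add]
  · simp only [hA2 a u v]
  · have h3 := hA3 (t, v) (t', v')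
    have h4 : Q ((t, v) + (t', v')) - Q (t, v) - Q (t', v') =
        ∑ p, ∑ q, B p q (v p * v' q + v' p * v q) := by
      simp only [Q, Prod.mk_add_mk, Pi.add_apply]
      rw [← Finset.sum_sub_distrib, ← Finset.sum_sub_distrib]
      refine Finset.sum_congr rfl fun p _ => ?_
      rw [← Finset.sum_sub_distrib, ← Finset.sum_sub_distrib]
      refine Finset.sum_congr rfl fun q _ => ?_
      have e5 : (v p + v' p) * (v q + v' q) =
          v p * v q + (v p * v' q + v' p * v q) + v' p * v' q := by ring
      rw [e5, map_add, map_add]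
      ring
    rw [h4] at h3
    simp only [hφ] at h3
    rw [← Finset.mul_sum]
    have h5 := congrArg (fun y => κ⁻¹ * y) h3
    simp only [mul_add, mul_zero, ← mul_assoc, inv_mul_cancel₀ hκ, one_mul] at h5
    exact h5

/-- **Characterisation by biadditive certificates.** The set of points of a finite family of distinct
points of `ℝ^d` is Ramsey iff the family has no biadditive certificate. -/
theorem isRamsey_iff_not_cert {k d : ℕ} (x : Fin k → EuclideanSpace ℝ (Fin d))
    (hinj : Function.Injective x) :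
    IsRamsey (Set.range x) ↔ ¬ BiadditiveCert (fun a p => x a p) := by
  rw [isRamsey_range_iff_signedArray]
  constructor
  · exact not_cert_of_signedArray _
  · intro h
    by_contra hs
    exact h (cert_of_not_signedArray _ (fun a b hab => hinj (by
      ext p
      exact congrFun hab p)) hs)

end Vale.Agent.Lib.P058S.AlgCert
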