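import Mathlib

/-!
# The contradiction step of the algebraic case (Casimir contraction)
-/

namespace Vale.Agent.Lib.P058S.AlgContra

open Finset

theorem sum_single {K : Type} [Field K] {d : ℕ} (p : Fin d) (y : K) (w : Fin d → K) :
    ∑ q, (Pi.single p y : Fin d → K) q * w q = y * w p := by
  simp [Pi.single_apply, ite_mul]

/-- **Step L5b.** Contracting the bilinear identity with the Casimir element kills `κ`. -/
theorem kappa_eq_zero {K : Type} [Field K] [CharZero K] {k d : ℕ}
    (x : Fin k → Fin d → K) (z : Fin d → K) (R : K)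
    (hsph : ∀ a, ∑ p, (x a p) ^ 2 = R + 2 * ∑ p, z p * x a p)
    (A : Fin k → K → K → ℝ)
    (hA1 : ∀ a s t u, A a (s + t) u = A a s u + A a t u)
    (hA2 : ∀ a s t u, A a s (t + u) = A a s t + A a s u)
    (κ : ℝ) (B : Fin d → Fin d → K → ℝ)
    (hB : ∀ p q s t, B p q (s + t) = B p q s + B p q t)
    (hB1 : ∑ p, B p p 1 = 1)
    (hid : ∀ (c0 c0' : K) (v v' : Fin d → K),
      ∑ a, A a (c0 + ∑ p, v p * x a p) (c0' + ∑ p, v' p * x a p)
        + κ * ∑ p, ∑ q, B p q (v p * v' q + v' p * v q) = 0)
    {ι : Type} [Fintype ι] (om om' : ι → K)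
    (hcas : ∀ A' : K → K → ℝ, (∀ s t u, A' (s + t) u = A' s u + A' t u) →
      (∀ s t u, A' s (t + u) = A' s t + A' s u) →
      ∀ α, ∑ l, A' (α * om l) (om' l) = ∑ l, A' (om l) (α * om' l))
    (hC : ∑ l, om l * om' l ≠ 0) : κ = 0 := by
  classical
  have hB0 : ∀ p q, B p q 0 = 0 := by
    intro p q
    have := hB p q 0 0
    simp only [add_zero] at this
    linarith
  let S : Fin k → K → ℝ := fun a t => ∑ l, A a (t * om l) (om' l)
  have hSadd : ∀ a s t, S a (s + t) = S a s + S a t := by
    intro a s t
    simp only [S, add_mul, hA1, Finset.sum_add_distrib]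
  let Sh : Fin k → (K →+ ℝ) := fun a => AddMonoidHom.mk' (S a) (hSadd a)
  have hSsum : ∀ a (F : Fin d → K), S a (∑ p, F p) = ∑ p, S a (F p) := by
    intro a F
    exact map_sum (Sh a) F univ
  have hS2 : ∀ a s, S a (2 * s) = 2 * S a s := by
    intro a s
    rw [two_mul, hSadd]
    ring
  -- first identity
  have I1 : ∀ t, ∑ a, S a (t * R) = 0 := by
    intro t
    have h1 : ∀ l, ∑ a, A a (t * R * om l) (om' l) = 0 := by
      intro l
      have h := hid (t * R * om l) (om' l) 0 0
      simpa [hB0] using h
    calc ∑ a, S a (t * R) = ∑ l, ∑ a, A a (t * R * om l) (om' l) := by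
          simp only [S]
          rw [Finset.sum_comm]
      _ = 0 := by simp [h1]
  -- second identity
  have I2 : ∀ t p, ∑ a, S a (t * z p * x a p) = 0 := by
    intro t p
    have h1 : ∀ l, ∑ a, A a (t * z p * om l) (om' l * x a p) = 0 := by
      intro l
      have h := hid (t * z p * om l) 0 0 (Pi.single p (om' l))
      simpa [hB0, sum_single] using h
    have hc : ∀ a, S a (t * z p * x a p) = ∑ l, A a (t * z p * om l) (om' l * x a p) := by
      intro a
      have h2 := hcas (fun s u => A a (t * z p * s) u)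
        (fun s s' u => by simp only [mul_add, hA1]) (fun s u u' => by simp only [hA2]) (x a p)
      simp only [S]
      calc ∑ l, A a (t * z p * x a p * om l) (om' l)
          = ∑ l, A a (t * z p * (x a p * om l)) (om' l) := by
            apply Finset.sum_congr rfl
            intro l _
            congr 1
            ring
        _ = ∑ l, A a (t * z p * om l) (x a p * om' l) := h2
        _ = ∑ l, A a (t * z p * om l) (om' l * x a p) := by
            apply Finset.sum_congr rfl
            intro l _
            rw [mul_comm (x a p)]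
    calc ∑ a, S a (t * z p * x a p) = ∑ a, ∑ l, A a (t * z p * om l) (om' l * x a p) :=
          Finset.sum_congr rfl fun a _ => hc a
      _ = ∑ l, ∑ a, A a (t * z p * om l) (om' l * x a p) := Finset.sum_comm
      _ = 0 := by simp [h1]
  -- third identity
  have hmom : ∀ (p : Fin d) (s u : K), ∑ p', ∑ q', B p' q'
      ((Pi.single p s : Fin d → K) p' * (Pi.single p u : Fin d → K) q'
        + (Pi.single p u : Fin d → K) p' * (Pi.single p s : Fin d → K) q')
      = B p p (2 * (s * u)) := by
    intro p s u
    rw [Finset.sum_eq_single p]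
    · rw [Finset.sum_eq_single p]
      · simp only [Pi.single_eq_same]
        congr 1
        ring
      · intro q _ hq
        simp [Pi.single_apply, hq, hB0]
      · simp
    · intro p' _ hp'
      apply Finset.sum_eq_zero
      intro q _
      simp [Pi.single_apply, hp', hB0]
    · simp
  have I3 : ∀ t p, ∑ a, S a (t * (x a p) ^ 2) + κ * B p p (2 * (t * ∑ l, om l * om' l)) = 0 := by
    intro t p
    have hBsum : ∀ F : ι → K, B p p (∑ l, F l) = ∑ l, B p p (F l) := by
      intro F
      exact map_sum (AddMonoidHom.mk' (B p p) (hB p p)) F univ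
    have h1 : ∀ l, ∑ a, A a (t * om l * x a p) (om' l * x a p)
        + κ * B p p (2 * (t * om l * om' l)) = 0 := by
      intro l
      have h := hid 0 0 (Pi.single p (t * om l)) (Pi.single p (om' l))
      simp only [zero_add, sum_single] at h
      rw [hmom] at h
      exact h
    have hc : ∀ a, S a (t * (x a p) ^ 2) = ∑ l, A a (t * om l * x a p) (om' l * x a p) := by
      intro a
      have h2 := hcas (fun s u => A a (t * x a p * s) u)
        (fun s s' u => by simp only [mul_add, hA1]) (fun s u u' => by simp only [hA2]) (x a p)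
      simp only [S]
      calc ∑ l, A a (t * (x a p) ^ 2 * om l) (om' l)
          = ∑ l, A a (t * x a p * (x a p * om l)) (om' l) := by
            apply Finset.sum_congr rfl
            intro l _
            congr 1
            ring
        _ = ∑ l, A a (t * x a p * om l) (x a p * om' l) := h2
        _ = ∑ l, A a (t * om l * x a p) (om' l * x a p) := by
            apply Finset.sum_congr rfl
            intro l _
            rw [mul_comm (x a p), mul_right_comm t]
    have hsum := Finset.sum_eq_zero (s := univ) fun l (_ : l ∈ univ) => h1 l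
    rw [Finset.sum_add_distrib, ← Finset.mul_sum, Finset.sum_comm] at hsum
    have e1 : B p p (2 * (t * ∑ l, om l * om' l)) = ∑ l, B p p (2 * (t * om l * om' l)) := by
      rw [← hBsum]
      congr 1
      rw [Finset.mul_sum, Finset.mul_sum]
      apply Finset.sum_congr rfl
      intro l _
      ring
    rw [e1, Finset.sum_congr rfl fun a _ => hc a]
    exact hsum
  -- conclusion
  obtain ⟨C, hCdef⟩ : ∃ C, C = ∑ l, om l * om' l := ⟨_, rfl⟩
  rw [← hCdef] at hC I3
  have hfinal : κ * ∑ p, B p p (2 * (C⁻¹ * C)) = 0 := by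
    have h3 : ∑ p, (∑ a, S a (C⁻¹ * (x a p) ^ 2) + κ * B p p (2 * (C⁻¹ * C))) = 0 :=
      Finset.sum_eq_zero fun p _ => I3 C⁻¹ p
    rw [Finset.sum_add_distrib, ← Finset.mul_sum, Finset.sum_comm] at h3
    have h4 : ∀ a, ∑ p, S a (C⁻¹ * (x a p) ^ 2)
        = S a (C⁻¹ * R) + 2 * ∑ p, S a (C⁻¹ * z p * x a p) := by
      intro a
      rw [← hSsum]
      have e : ∑ p, C⁻¹ * (x a p) ^ 2 = C⁻¹ * R + 2 * ∑ p, C⁻¹ * z p * x a p := by
        rw [← Finset.mul_sum, hsph a, mul_add, Finset.mul_sum (f := fun p => C⁻¹ * z p * x a p)]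
        simp only [Finset.mul_sum, mul_assoc, mul_left_comm]
      rw [e, hSadd, hS2, hSsum]
    rw [Finset.sum_congr rfl fun a _ => h4 a, Finset.sum_add_distrib, I1, zero_add,
      ← Finset.mul_sum, Finset.sum_comm, Finset.sum_eq_zero fun p _ => I2 C⁻¹ p, mul_zero,
      zero_add] at h3
    exact h3
  rw [inv_mul_cancel₀ hC] at hfinal
  have h2 : ∀ p, B p p (2 * 1) = 2 * B p p 1 := by
    intro p
    have e : (2 : K) * 1 = 1 + 1 := by ring
    rw [e, hB]
    ring
  rw [Finset.sum_congr rfl fun p _ => h2 p, ← Finset.mul_sum, hB1] at hfinal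
  linarith

end Vale.Agent.Lib.P058S.AlgContra
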