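import Mathlib
import Vale.Agent.Lib.P058S.Defs

/-!
# P058: from a polynomial vanishing on the exponential curves to a signed array
-/

set_option linter.unusedVariables false
set_option linter.unusedSectionVars false

namespace Vale.Agent.Lib.P058S.RatB

noncomputable section

/-- The evaluation of polynomials on the exponential curve with exponents `e`. -/
def piA {d : ℕ} (e : Fin d → ℕ) : MvPolynomial (Option (Fin d)) ℚ →ₐ[ℚ] Polynomial ℚ :=
  MvPolynomial.aeval (fun o => o.elim Polynomial.X (fun i => Polynomial.X ^ e i))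

/-- The exponent of a monomial on the curve. -/
def expo {d : ℕ} (e : Fin d → ℕ) (c : Option (Fin d) →₀ ℕ) : ℕ := c none + ∑ i, c (some i) * e i

theorem piA_eq {d : ℕ} (e : Fin d → ℕ) (G : MvPolynomial (Option (Fin d)) ℚ) :
    piA e G = ∑ c ∈ G.support, Polynomial.C (G.coeff c) * Polynomial.X ^ expo e c := by
  unfold piA
  rw [MvPolynomial.aeval_def, MvPolynomial.eval₂_eq']
  refine Finset.sum_congr rfl fun c _ => ?_
  congr 1
  rw [Fintype.prod_option]
  simp only [Option.elim, ← pow_mul]
  rw [Finset.prod_pow_eq_pow_sum, ← pow_add]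
  congr 1
  unfold expo
  congr 1
  refine Finset.sum_congr rfl fun i _ => ?_
  ring

theorem multiset_eq_of_gen (U V : Multiset ℕ)
    (h : (U.map (fun n => (Polynomial.X : Polynomial ℚ) ^ n)).sum =
      (V.map (fun n => (Polynomial.X : Polynomial ℚ) ^ n)).sum) : U = V := by
  classical
  have hc : ∀ (W : Multiset ℕ) (n : ℕ),
      ((W.map (fun n => (Polynomial.X : Polynomial ℚ) ^ n)).sum).coeff n = (W.count n : ℚ) := by
    intro W n
    induction W using Multiset.induction_on with
    | empty => simp
    | cons a W ih =>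
      simp only [Multiset.map_cons, Multiset.sum_cons, Polynomial.coeff_add, ih,
        Polynomial.coeff_X_pow, Multiset.count_cons]
      by_cases hn : n = a
      · subst hn; simp; ring
      · simp [hn]
  ext n
  have := congrArg (fun p => Polynomial.coeff p n) h
  simp only [hc] at this
  exact_mod_cast this

/-- Positive part. -/
def posPart {ι : Type} (S : Finset ι) (z : ι → ℤ) : Multiset ι := ∑ c ∈ S, (z c).toNat • {c}

/-- Negative part. -/
def negPart {ι : Type} (S : Finset ι) (z : ι → ℤ) : Multiset ι := ∑ c ∈ S, (- z c).toNat • {c}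

theorem split {ι R : Type} [AddCommGroup R] (S : Finset ι) (z : ι → ℤ) (φ : ι → R) :
    ((posPart S z).map φ).sum - ((negPart S z).map φ).sum = ∑ c ∈ S, z c • φ c := by
  classical
  have key : ∀ n : ι → ℕ, ((∑ c ∈ S, n c • ({c} : Multiset ι)).map φ).sum = ∑ c ∈ S, n c • φ c := by
    intro n
    induction S using Finset.induction_on with
    | empty => simp
    | insert a S ha ih =>
      rw [Finset.sum_insert ha, Finset.sum_insert ha, Multiset.map_add, Multiset.sum_add, ih,
        Multiset.map_nsmul, Multiset.sum_nsmul]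
      simp
  unfold posPart negPart
  rw [key, key, ← Finset.sum_sub_distrib]
  refine Finset.sum_congr rfl fun c _ => ?_
  rw [← natCast_zsmul, ← natCast_zsmul, ← sub_smul, Int.toNat_sub_toNat_neg]

theorem exists_den {κ : Type} (S : Finset κ) (q : κ → ℚ) :
    ∃ M : ℕ, 0 < M ∧ ∃ z : κ → ℤ, ∀ c ∈ S, q c * M = z c := by
  classical
  refine ⟨∏ c ∈ S, (q c).den, Finset.prod_pos fun c _ => (q c).den_pos,
    fun c => (q c).num * (((∏ c ∈ S, (q c).den) / (q c).den : ℕ) : ℤ), fun c hc => ?_⟩
  have hd : (q c).den ∣ ∏ c ∈ S, (q c).den := Finset.dvd_prod_of_mem _ hc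
  obtain ⟨w, hw⟩ := hd
  have hpos : 0 < (q c).den := (q c).den_pos
  rw [hw]
  dsimp only
  rw [Nat.mul_div_cancel_left _ hpos]
  push_cast
  have := Rat.mul_den_eq_num (q c)
  rw [← this]
  ring

/-- **The bridge**: a polynomial vanishing on all the exponential curves with second moment matrix a
positive multiple of the identity gives a signed array. -/
theorem signedArray_of_poly {k d : ℕ} (x : Fin k → Fin d → ℝ) (z₀ : Fin d → ℝ)
    (e : Fin k → Fin d → ℕ) (s D : ℕ) (hD : 0 < D)
    (hx : ∀ a i, x a i = z₀ i + ((e a i : ℝ) - s) / D)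
    (G : MvPolynomial (Option (Fin d)) ℚ) (hπ : ∀ a, piA (e a) G = 0) (t : ℚ) (ht : 0 < t)
    (hMom : ∀ p q, ∑ c ∈ G.support, G.coeff c * ((c (some p) : ℚ) * (c (some q) : ℚ)) =
      if p = q then t else 0) :
    SignedArray x := by
  classical
  obtain ⟨M, hM, z, hz⟩ := exists_den G.support G.coeff
  have hDR : (D : ℝ) ≠ 0 := by positivity
  set colOf : (Option (Fin d) →₀ ℕ) → ℝ × (Fin d → ℝ) := fun c =>
    (((c none : ℝ) + s * ∑ i, (c (some i) : ℝ)) / D - ∑ i, (c (some i) : ℝ) * z₀ i,
      fun i => (c (some i) : ℝ)) with hcolOf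
  set Pi := posPart G.support z with hPi
  set Ni := negPart G.support z with hNi
  refine ⟨Pi.map colOf, Ni.map colOf, (M : ℝ) * (t : ℝ), by positivity, fun a => ?_, fun p q => ?_⟩
  · have hval : ∀ c, col (colOf c) (x a) = (expo (e a) c : ℝ) / D := by
      intro c
      simp only [col, hcolOf, hx, expo]
      push_cast
      have h1 : ∑ i, (c (some i) : ℝ) * (z₀ i + ((e a i : ℝ) - s) / D) =
          ∑ i, (c (some i) : ℝ) * z₀ i +
            ((∑ i, (c (some i) : ℝ) * (e a i : ℝ)) - s * ∑ i, (c (some i) : ℝ)) / D := by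
        rw [Finset.mul_sum, ← Finset.sum_sub_distrib, Finset.sum_div, ← Finset.sum_add_distrib]
        refine Finset.sum_congr rfl fun i _ => ?_
        field_simp
        try ring
      rw [h1]
      field_simp
      try ring
    have hlaw : Pi.map (expo (e a)) = Ni.map (expo (e a)) := by
      apply multiset_eq_of_gen
      rw [Multiset.map_map, Multiset.map_map]
      have h := split G.support z (fun c => (Polynomial.X : Polynomial ℚ) ^ expo (e a) c)
      have h2 : ∑ c ∈ G.support, z c • (Polynomial.X : Polynomial ℚ) ^ expo (e a) c =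
          Polynomial.C (M : ℚ) * piA (e a) G := by
        rw [piA_eq, Finset.mul_sum]
        refine Finset.sum_congr rfl fun c hc => ?_
        have h3 : Polynomial.C (M : ℚ) * Polynomial.C (G.coeff c) =
            Polynomial.C ((z c : ℤ) : ℚ) := by
          rw [← Polynomial.C_mul, mul_comm, hz c hc]
        rw [← mul_assoc, h3, zsmul_eq_mul]
        simp
      rw [hπ a, mul_zero] at h2
      rw [h2] at h
      exact sub_eq_zero.mp h
    rw [Multiset.map_map, Multiset.map_map]
    have h1 : (fun c => col c (x a)) ∘ colOf =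
        (fun n : ℕ => (n : ℝ) / D) ∘ expo (e a) := by
      funext c
      exact hval c
    rw [h1, ← Multiset.map_map, ← Multiset.map_map, hlaw]
  · rw [Multiset.map_map, Multiset.map_map]
    have h := split (R := ℝ) G.support z (fun c => (c (some p) : ℝ) * (c (some q) : ℝ))
    have h0 : ((fun c : ℝ × (Fin d → ℝ) => c.2 p * c.2 q) ∘ colOf) =
        fun c => (c (some p) : ℝ) * (c (some q) : ℝ) := by
      funext c
      rfl
    rw [h0, h]
    have h2 : ∑ c ∈ G.support, z c • ((c (some p) : ℝ) * (c (some q) : ℝ)) =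
        (M : ℝ) * ((∑ c ∈ G.support, G.coeff c * ((c (some p) : ℚ) * (c (some q) : ℚ)) : ℚ) : ℝ) := by
      push_cast
      rw [Finset.mul_sum]
      refine Finset.sum_congr rfl fun c hc => ?_
      have h3 : ((G.coeff c : ℚ) : ℝ) * (M : ℝ) = ((z c : ℤ) : ℝ) := by
        have := hz c hc
        have h4 : (((G.coeff c * M : ℚ)) : ℝ) = (((z c : ℤ) : ℚ) : ℝ) := by rw [this]
        push_cast at h4
        exact h4
      rw [zsmul_eq_mul, ← h3]
      ring
    rw [h2, hMom p q]
    by_cases hpq : p = q <;> simp [hpq]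

end

end Vale.Agent.Lib.P058S.RatB
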