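import Mathlib
import Vale.Agent.Lib.P058S.RatBridge

/-!
# P058: the rational duality step for points with coordinates in a subfield of the reals
-/

set_option linter.unusedVariables false
set_option linter.unusedSectionVars false

namespace Vale.Agent.Lib.P058S.AlgDual

open Vale.Agent.Lib.P058S.RatB

noncomputable section

variable {K : Type} [Field K] [Algebra ℚ K] {k d : ℕ}

/-- The value at the point `x a` of the column `c = (c₀, v)`. -/
def phi (x : Fin k → Fin d → K) (a : Fin k) (c : K × (Fin d → K)) : K :=
  c.1 + ∑ p, c.2 p * x a p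

/-- The space of laws and second moments. -/
abbrev ZZ (K : Type) [Field K] [Algebra ℚ K] (k d : ℕ) := (Fin k → (K →₀ ℚ)) × (Fin d → Fin d → K)

/-- The law and second moment of one column. -/
def LL (x : Fin k → Fin d → K) (c : K × (Fin d → K)) : ZZ K k d :=
  (fun a => Finsupp.single (phi x a c) 1, fun p q => c.2 p * c.2 q)

/-- The target vector: no law, identity second moment. -/
def tau (K : Type) [Field K] [Algebra ℚ K] (k d : ℕ) : ZZ K k d :=
  (0, fun p q => if p = q then 1 else 0)

theorem multiset_eq_of_single (U V : Multiset K)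
    (h : (U.map (fun t => Finsupp.single t (1 : ℚ))).sum =
      (V.map (fun t => Finsupp.single t (1 : ℚ))).sum) : U = V := by
  classical
  have hc : ∀ (W : Multiset K) (t : K),
      ((W.map (fun t => Finsupp.single t (1 : ℚ))).sum) t = (W.count t : ℚ) := by
    intro W t
    induction W using Multiset.induction_on with
    | empty => simp
    | cons a W ih =>
      simp only [Multiset.map_cons, Multiset.sum_cons, Finsupp.add_apply, ih,
        Multiset.count_cons, Finsupp.single_apply]
      by_cases hn : a = t
      · subst hn; simp; ring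
      · have hn' : t ≠ a := fun e => hn e.symm
        simp [hn, hn']
  ext t
  have := congrArg (fun p : K →₀ ℚ => p t) h
  simp only [hc] at this
  exact_mod_cast this

/-- **Dichotomy**: a signed array exists, or a rational functional certifies that none does. -/
theorem dichotomy (ι : K →+* ℝ) (x : Fin k → Fin d → K) :
    SignedArray (fun a p => ι (x a p)) ∨
    ∃ (g : Fin k → K → ℝ) (B : Fin d → Fin d → K →+ ℝ),
      (∀ c : K × (Fin d → K), ∑ a, g a (phi x a c) + ∑ p, ∑ q, B p q (c.2 p * c.2 q) = 0) ∧
      ∑ p, B p p 1 = 1 := by
  classical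
  by_cases hτ : tau K k d ∈ Submodule.span ℚ (Set.range (LL x))
  · left
    obtain ⟨l, hl⟩ := (Finsupp.mem_span_range_iff_exists_finsupp).1 hτ
    obtain ⟨M, hM, z, hz⟩ := exists_den l.support (fun c => l c)
    set S := l.support with hS
    have hl' : ∑ c ∈ S, l c • LL x c = tau K k d := hl
    set ρ : K × (Fin d → K) → ℝ × (Fin d → ℝ) := fun c => (ι c.1, fun p => ι (c.2 p)) with hρ
    refine ⟨(posPart S z).map ρ, (negPart S z).map ρ, (M : ℝ), by positivity, fun a => ?_,
      fun p q => ?_⟩
    · have hval : ∀ c, col (ρ c) (fun p => ι (x a p)) = ι (phi x a c) := by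
        intro c
        simp [col, hρ, phi, map_add, map_sum, map_mul]
      rw [Multiset.map_map, Multiset.map_map]
      have h1 : (fun r => col r (fun p => ι (x a p))) ∘ ρ = ι ∘ phi x a := by
        funext c
        exact hval c
      rw [h1, ← Multiset.map_map, ← Multiset.map_map]
      congr 1
      apply multiset_eq_of_single
      rw [Multiset.map_map, Multiset.map_map]
      have h2 := split S z (fun c => Finsupp.single (phi x a c) (1 : ℚ))
      have h3 : ∑ c ∈ S, z c • Finsupp.single (phi x a c) (1 : ℚ) = (M : ℚ) • (0 : K →₀ ℚ) := by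
        have h4 := congrArg (fun y : ZZ K k d => y.1 a) hl'
        simp only [tau, Prod.fst_sum, Finset.sum_apply, Prod.smul_fst, Pi.smul_apply, LL,
          Pi.zero_apply] at h4
        rw [← h4, Finset.smul_sum]
        refine Finset.sum_congr rfl fun c hc => ?_
        have h5 := hz c hc
        rw [smul_smul, mul_comm, h5, Int.cast_smul_eq_zsmul]
      rw [h3, smul_zero] at h2
      exact sub_eq_zero.mp h2
    · rw [Multiset.map_map, Multiset.map_map]
      have h2 := split (R := ℝ) S z (fun c => ι (c.2 p) * ι (c.2 q))
      have h0 : ((fun r : ℝ × (Fin d → ℝ) => r.2 p * r.2 q) ∘ ρ) =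
          fun c => ι (c.2 p) * ι (c.2 q) := by
        funext c
        rfl
      rw [h0, h2]
      have h4 := congrArg (fun y : ZZ K k d => ι (y.2 p q)) hl'
      simp only [tau, Prod.snd_sum, Finset.sum_apply, Prod.smul_snd, Pi.smul_apply, LL,
        map_sum] at h4
      have h5 : ∑ c ∈ S, z c • (ι (c.2 p) * ι (c.2 q)) =
          (M : ℝ) * ∑ c ∈ S, ι (l c • (c.2 p * c.2 q)) := by
        rw [Finset.mul_sum]
        refine Finset.sum_congr rfl fun c hc => ?_
        have h6 : ι (l c • (c.2 p * c.2 q)) = (l c : ℝ) * (ι (c.2 p) * ι (c.2 q)) := by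
          rw [Algebra.smul_def, eq_ratCast (algebraMap ℚ K) (l c), map_mul, map_mul, map_ratCast]
        have h7 := hz c hc
        have h8 : (((l c * M : ℚ)) : ℝ) = (((z c : ℤ) : ℚ) : ℝ) := by rw [h7]
        push_cast at h8
        rw [h6, zsmul_eq_mul, ← h8]
        ring
      rw [h5, h4]
      by_cases hpq : p = q <;> simp [hpq]
  · right
    obtain ⟨f, hf, hker⟩ := Submodule.exists_le_ker_of_notMem hτ
    set ψ : ZZ K k d →ₗ[ℚ] ℚ := (f (tau K k d))⁻¹ • f with hψ
    have hψτ : ψ (tau K k d) = 1 := by
      simp [hψ, hf]
    have hψL : ∀ c, ψ (LL x c) = 0 := by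
      intro c
      have : f (LL x c) = 0 := hker (Submodule.subset_span ⟨c, rfl⟩)
      simp [hψ, this]
    set E : Fin d → Fin d → K → (Fin d → Fin d → K) :=
      fun p q t r s => if r = p ∧ s = q then t else 0 with hE
    have hEadd : ∀ p q t t', E p q (t + t') = E p q t + E p q t' := by
      intro p q t t'
      funext r s
      simp only [hE, Pi.add_apply]
      split_ifs <;> simp
    refine ⟨fun a t => (ψ (Pi.single a (Finsupp.single t 1), 0) : ℝ),
      fun p q => AddMonoidHom.mk' (fun t => (ψ (0, E p q t) : ℝ)) (fun t t' => ?_), fun c => ?_, ?_⟩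
    · rw [← Rat.cast_add, ← map_add, Prod.mk_add_mk, add_zero, hEadd]
    · have hdec : LL x c = (∑ a, ((Pi.single a (Finsupp.single (phi x a c) (1 : ℚ)),
          (0 : Fin d → Fin d → K)) : ZZ K k d)) +
          ∑ p, ∑ q, (((0 : Fin k → (K →₀ ℚ)), E p q (c.2 p * c.2 q)) : ZZ K k d) := by
        refine Prod.ext ?_ ?_
        · funext a
          simp [LL, Prod.fst_sum, Finset.sum_apply, Pi.single_apply]
        · funext r s
          simp only [LL, Prod.snd_add, Prod.snd_sum, Finset.sum_const_zero, zero_add,
            Finset.sum_apply, hE]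
          rw [Finset.sum_eq_single r]
          · rw [Finset.sum_eq_single s]
            · simp
            · intro q _ hq
              simp [Ne.symm hq]
            · simp
          · intro p _ hp
            refine Finset.sum_eq_zero fun q _ => ?_
            simp [Ne.symm hp]
          · simp
      have h1 := hψL c
      rw [hdec, map_add, map_sum, map_sum] at h1
      simp only [map_sum] at h1
      have h2 := congrArg (fun y : ℚ => (y : ℝ)) h1
      simp only [Rat.cast_add, Rat.cast_sum, Rat.cast_zero] at h2
      simpa using h2
    · have hτdec : tau K k d = ∑ p, (((0 : Fin k → (K →₀ ℚ)), E p p 1) : ZZ K k d) := by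
        refine Prod.ext ?_ ?_
        · simp [tau, Prod.fst_sum]
        · funext r s
          simp only [tau, Prod.snd_sum, Finset.sum_apply, hE]
          by_cases hrs : r = s
          · subst hrs
            rw [Finset.sum_eq_single r]
            · simp
            · intro p _ hp
              simp [Ne.symm hp]
            · simp
          · rw [if_neg hrs]
            symm
            refine Finset.sum_eq_zero fun p _ => ?_
            rw [if_neg]
            rintro ⟨rfl, rfl⟩
            exact hrs rfl
      have h1 := hψτ
      rw [hτdec, map_sum] at h1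
      have h2 := congrArg (fun y : ℚ => (y : ℝ)) h1
      simp only [Rat.cast_sum, Rat.cast_one] at h2
      simpa using h2

end

end Vale.Agent.Lib.P058S.AlgDual
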