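import Vale.Agent.Lib.P058S.AlgGlue
import Vale.Agent.Lib.P058S.Assembly

/-!
# Every finite spherical set with algebraic coordinates is Ramsey
-/

namespace Vale.Agent.Lib.P058S.AlgFinal

open Finset Vale.Agent.Lib.P058

/-- **Every finite set of points on a sphere of `ℝ^d`, all of whose coordinates are algebraic numbers,
is a Ramsey family.**  The centre and the radius of the sphere are arbitrary reals. -/
theorem isRamseyFamily_of_algebraic {k d : ℕ} (x : Fin k → EuclideanSpace ℝ (Fin d))
    (hinj : Function.Injective x) (halg : ∀ a p, IsAlgebraic ℚ (x a p))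
    (c : EuclideanSpace ℝ (Fin d)) (r : ℝ) (hs : ∀ a, dist (x a) c = r) : IsRamseyFamily x := by
  classical
  let S : Set ℝ := Set.range fun q : Fin k × Fin d => x q.1 q.2
  have hSfin : Finite S := Set.finite_range _
  have hSint : ∀ y ∈ S, IsIntegral ℚ y := by
    rintro y ⟨q, rfl⟩
    exact (halg q.1 q.2).isIntegral
  let K : IntermediateField ℚ ℝ := IntermediateField.adjoin ℚ S
  haveI : FiniteDimensional ℚ K := IntermediateField.finiteDimensional_adjoin hSint
  have hmem : ∀ a p, x a p ∈ K := fun a p =>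
    IntermediateField.subset_adjoin ℚ S ⟨(a, p), rfl⟩
  let x' : Fin k → Fin d → K := fun a p => ⟨x a p, hmem a p⟩
  let ι : K →+* ℝ := algebraMap K ℝ
  have hι : ∀ a p, ι (x' a p) = x a p := fun a p => rfl
  have hinj' : Function.Injective x' := by
    intro a b h
    apply hinj
    ext p
    have := congrFun h p
    have h2 := congrArg (fun t : K => (t : ℝ)) this
    exact h2
  -- a `K`-linear retraction
  obtain ⟨π, hπ⟩ := LinearMap.exists_leftInverse_of_injective (Algebra.linearMap K ℝ)
    (LinearMap.ker_eq_bot.mpr (algebraMap K ℝ).injective)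
  have hπ' : ∀ y : K, π (algebraMap K ℝ y) = y := fun y => by
    have := LinearMap.congr_fun hπ y
    simpa using this
  -- the sphere equation over `ℝ`
  have hreal : ∀ a, ∑ p, (x a p) ^ 2 = (r ^ 2 - ∑ p, (c p) ^ 2) + 2 * ∑ p, c p * x a p := by
    intro a
    have h1 : dist (x a) c ^ 2 = ∑ p, (x a p - c p) ^ 2 := by
      rw [EuclideanSpace.dist_eq, Real.sq_sqrt (Finset.sum_nonneg fun _ _ => sq_nonneg _)]
      simp [Real.dist_eq, sq_abs]
    rw [hs a] at h1
    have h2 : ∑ p, (x a p - c p) ^ 2
        = ∑ p, (x a p) ^ 2 - 2 * ∑ p, c p * x a p + ∑ p, (c p) ^ 2 := by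
      rw [Finset.mul_sum, ← Finset.sum_sub_distrib, ← Finset.sum_add_distrib]
      apply Finset.sum_congr rfl
      intro p _
      ring
    rw [h2] at h1
    linarith
  have hK : ∀ a, ∑ p, (x' a p) ^ 2 = π (r ^ 2 - ∑ p, (c p) ^ 2) + 2 * ∑ p, π (c p) * x' a p := by
    intro a
    have h0 := congrArg π (hreal a)
    have e1 : ∑ p, (x a p) ^ 2 = algebraMap K ℝ (∑ p, (x' a p) ^ 2) := by
      simp only [map_sum, map_pow]
      rfl
    have e2 : ∀ p, c p * x a p = (x' a p) • c p := by
      intro p
      rw [Algebra.smul_def, mul_comm]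
      rfl
    rw [e1, hπ', map_add] at h0
    rw [h0]
    congr 1
    have e3 : (2 : ℝ) * ∑ p, c p * x a p = ∑ p, (2 * x' a p) • c p := by
      rw [Finset.mul_sum]
      apply Finset.sum_congr rfl
      intro p _
      rw [e2 p, Algebra.smul_def, Algebra.smul_def, map_mul]
      have : algebraMap K ℝ 2 = 2 := map_ofNat _ 2
      rw [this]
      ring
    rw [e3, map_sum, Finset.mul_sum]
    apply Finset.sum_congr rfl
    intro p _
    rw [map_smul, smul_eq_mul]
    ring
  have hsigned := AlgGlue.signedArray_of_numberField ι x' hinj' (fun p => π (c p))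
    (π (r ^ 2 - ∑ p, (c p) ^ 2)) hK
  exact Vale.Agent.Lib.P058S.isRamseyFamily_of_signedArray x hsigned

/-- **Every finite spherical set with algebraic coordinates is Ramsey.** -/
theorem isRamsey_of_algebraic {k d : ℕ} (x : Fin k → EuclideanSpace ℝ (Fin d))
    (hinj : Function.Injective x) (halg : ∀ a p, IsAlgebraic ℚ (x a p))
    (c : EuclideanSpace ℝ (Fin d)) (r : ℝ) (hs : ∀ a, dist (x a) c = r) :
    IsRamsey (Set.range x) :=
  (isRamseyFamily_of_algebraic x hinj halg c r hs).range

end Vale.Agent.Lib.P058S.AlgFinal
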