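import Mathlib
import Vale.Agent.Lib.P058S.AlgDual
import Vale.Agent.Lib.P058S.AlgFrechet
import Vale.Agent.Lib.P058K.Casimir

/-!
# P058: signed arrays for spherical sets with coordinates in a number field
-/

set_option linter.unusedVariables false
set_option linter.unusedSectionVars false

namespace Vale.Agent.Lib.P058S.AlgGlue7

open Vale.Agent.Lib.P058S.AlgDual

noncomputable section

variable {K : Type} [Field K] [Algebra ℚ K] {k d : ℕ}

/-- `phi` as an additive map. -/
def phiHom (x : Fin k → Fin d → K) (a : Fin k) : K × (Fin d → K) →+ K :=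
  AddMonoidHom.mk' (phi x a) (by
    intro c c'
    simp only [phi, Prod.fst_add, Prod.snd_add, Pi.add_apply, add_mul, Finset.sum_add_distrib]
    ring)

/-- The quadratic functional of a matrix of additive maps. -/
def QQ (B : Fin d → Fin d → K →+ ℝ) (c : K × (Fin d → K)) : ℝ :=
  ∑ p, ∑ q, B p q (c.2 p * c.2 q)

theorem QQ_polar (B : Fin d → Fin d → K →+ ℝ) (c c' : K × (Fin d → K)) :
    QQ B (c + c') - QQ B c - QQ B c' =
      ∑ p, ∑ q, B p q (c.2 p * c'.2 q + c'.2 p * c.2 q) := by
  unfold QQ
  rw [← Finset.sum_sub_distrib, ← Finset.sum_sub_distrib]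
  refine Finset.sum_congr rfl fun p _ => ?_
  rw [← Finset.sum_sub_distrib, ← Finset.sum_sub_distrib]
  refine Finset.sum_congr rfl fun q _ => ?_
  have h : (c + c').2 p * (c + c').2 q =
      c.2 p * c.2 q + c'.2 p * c'.2 q + (c.2 p * c'.2 q + c'.2 p * c.2 q) := by
    simp only [Prod.snd_add, Pi.add_apply]
    ring
  rw [h, map_add, map_add]
  ring

/-- **The contradiction** (L5b): a biadditive identity, a Casimir family and the sphere equation
force `κ = 0`. -/
theorem kappa_eq_zero (x : Fin k → Fin d → K) (z : Fin d → K) (R : K)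
    (hs : ∀ a, ∑ p, (x a p) ^ 2 = R + 2 * ∑ p, z p * x a p)
    (B : Fin d → Fin d → K →+ ℝ) (hB : ∑ p, B p p 1 = 1)
    (κ : ℝ) (A : Fin k → K → K → ℝ)
    (hAl : ∀ a h1 h2 w, A a (h1 + h2) w = A a h1 w + A a h2 w)
    (hAs : ∀ a h w, A a h w = A a w h)
    (hA : ∀ c c', ∑ a, A a (phi x a c) (phi x a c') + κ * (QQ B (c + c') - QQ B c - QQ B c') = 0)
    (S : Finset (K × K)) (hS1 : ∑ i ∈ S, i.1 * i.2 = 1)
    (hS2 : ∀ A : K → K → ℝ, (∀ u v w, A (u + v) w = A u w + A v w) →
      (∀ u v w, A u (v + w) = A u v + A u w) →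
      ∀ α : K, ∑ i ∈ S, A (α * i.1) i.2 = ∑ i ∈ S, A i.1 (α * i.2)) :
    κ = 0 := by
  classical
  set As : Fin k → K → ℝ := fun a t => ∑ i ∈ S, A a (t * i.1) i.2 with hAsdef
  have hAsadd : ∀ a u w, As a (u + w) = As a u + As a w := by
    intro a u w
    simp only [hAsdef, add_mul, hAl, Finset.sum_add_distrib]
  have hAsSum : ∀ (a : Fin k) (u : Fin d → K) (t : K),
      As a (∑ p, u p) = ∑ p, As a (u p) := by
    intro a u t
    have h0 : As a 0 = 0 := by
      have := hAsadd a 0 0
      rw [add_zero] at this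
      linarith
    exact map_sum (AddMonoidHom.mk' (As a) (hAsadd a)) u Finset.univ
  have hstar : ∀ a t α, As a (t * α) = ∑ i ∈ S, A a (t * i.1) (α * i.2) := by
    intro a t α
    have h := hS2 (fun u w => A a (t * u) w)
      (fun u v w => by simp only [mul_add, hAl])
      (fun u v w => by rw [hAs a _ (v + w), hAl, hAs a v, hAs a w])
      α
    simp only [hAsdef]
    rw [← h]
    refine Finset.sum_congr rfl fun i _ => ?_
    rw [mul_assoc]
  -- column constructors
  have hphi0 : ∀ a (u : K), phi x a (u, 0) = u := by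
    intro a u
    simp [phi]
  have hphi1 : ∀ a p (u : K), phi x a (0, Pi.single p u) = u * x a p := by
    intro a p u
    simp only [phi, zero_add]
    rw [Finset.sum_eq_single p]
    · simp
    · intro r _ hr
      simp [Pi.single_apply, hr]
    · simp
  have hpol0 : ∀ (c c' : K × (Fin d → K)), c.2 = 0 → QQ B (c + c') - QQ B c - QQ B c' = 0 := by
    intro c c' h
    rw [QQ_polar, h]
    simp
  have hpol1 : ∀ p (u w : K),
      QQ B ((0, Pi.single p u) + (0, Pi.single p w)) - QQ B (0, Pi.single p u) -
        QQ B (0, Pi.single p w) = 2 * B p p (u * w) := by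
    intro p u w
    rw [QQ_polar]
    rw [Finset.sum_eq_single p]
    · rw [Finset.sum_eq_single p]
      · simp only [Pi.single_eq_same]
        have : u * w + w * u = u * w + u * w := by ring
        rw [this, map_add]
        ring
      · intro q _ hq
        simp [Pi.single_apply, hq]
      · simp
    · intro r _ hr
      refine Finset.sum_eq_zero fun q _ => ?_
      simp [Pi.single_apply, hr]
    · simp
  -- (1)
  have h1 : ∀ t, ∑ a, As a (t * R) = 0 := by
    intro t
    have h : ∀ i ∈ S, ∑ a, A a (t * R * i.1) i.2 = 0 := by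
      intro i _
      have := hA (t * R * i.1, 0) (i.2, 0)
      rw [hpol0 _ _ rfl] at this
      simpa [hphi0] using this
    simp only [hAsdef]
    rw [Finset.sum_comm]
    exact Finset.sum_eq_zero h
  -- (2)
  have h2 : ∀ t p, ∑ a, As a (t * z p * x a p) = 0 := by
    intro t p
    simp only [hstar]
    rw [Finset.sum_comm]
    refine Finset.sum_eq_zero fun i _ => ?_
    have := hA (t * z p * i.1, 0) (0, Pi.single p i.2)
    rw [hpol0 _ _ rfl, mul_zero, add_zero] at this
    simp only [hphi0, hphi1] at this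
    rw [← this]
    refine Finset.sum_congr rfl fun a _ => ?_
    rw [mul_comm (x a p) i.2]
  -- (3)
  have h3 : ∀ t p, ∑ a, As a (t * (x a p) ^ 2) + 2 * κ * B p p t = 0 := by
    intro t p
    have hi : ∀ i ∈ S, ∑ a, A a (t * x a p * i.1) (x a p * i.2) + 2 * κ * B p p (t * (i.1 * i.2)) = 0 := by
      intro i _
      have := hA (0, Pi.single p (t * i.1)) (0, Pi.single p i.2)
      rw [hpol1] at this
      simp only [hphi1] at this
      rw [← this]
      congr 1
      · refine Finset.sum_congr rfl fun a _ => ?_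
        congr 1
        · ring
        · ring
      · have : t * i.1 * i.2 = t * (i.1 * i.2) := by ring
        rw [this]
        ring
    have hsum := Finset.sum_eq_zero hi
    rw [Finset.sum_add_distrib, Finset.sum_comm] at hsum
    have e1 : ∀ a, As a (t * (x a p) ^ 2) = ∑ i ∈ S, A a (t * x a p * i.1) (x a p * i.2) := by
      intro a
      rw [← hstar]
      congr 1
      ring
    have e2 : ∑ i ∈ S, 2 * κ * B p p (t * (i.1 * i.2)) = 2 * κ * B p p t := by
      rw [← Finset.mul_sum, ← map_sum, ← Finset.mul_sum, hS1, mul_one]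
    rw [e2] at hsum
    simp only [e1]
    exact hsum
  -- conclusion
  have hfinal := Finset.sum_congr rfl (fun p (_ : p ∈ Finset.univ) => h3 1 p)
  rw [Finset.sum_const_zero, Finset.sum_add_distrib, Finset.sum_comm] at hfinal
  have e3 : ∀ a, ∑ p, As a (1 * (x a p) ^ 2) =
      As a (1 * R) + (∑ p, As a (1 * z p * x a p) + ∑ p, As a (1 * z p * x a p)) := by
    intro a
    have hsum1 : ∑ p, As a (1 * (x a p) ^ 2) = As a (∑ p, 1 * (x a p) ^ 2) :=
      (hAsSum a (fun p => 1 * (x a p) ^ 2) 0).symm
    have hsum2 : ∑ p, As a (1 * z p * x a p) = As a (∑ p, 1 * z p * x a p) :=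
      (hAsSum a (fun p => 1 * z p * x a p) 0).symm
    have := hs a
    have e4 : ∑ p, 1 * (x a p) ^ 2 = 1 * R + (∑ p, 1 * z p * x a p + ∑ p, 1 * z p * x a p) := by
      simp only [one_mul]
      rw [this]
      ring
    rw [hsum1, hsum2, e4, hAsadd, hAsadd]
  simp only [e3, Finset.sum_add_distrib] at hfinal
  rw [h1 1] at hfinal
  have e6 : ∑ a, ∑ p, As a (1 * z p * x a p) = 0 := by
    rw [Finset.sum_comm]
    exact Finset.sum_eq_zero fun p _ => h2 1 p
  rw [e6] at hfinal
  have e7 : ∑ p, 2 * κ * B p p 1 = 2 * κ := by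
    rw [← Finset.mul_sum, hB, mul_one]
  rw [e7] at hfinal
  linarith

/-- **Signed arrays for spherical sets over a number field.** -/
theorem signedArray_of_numberField [FiniteDimensional ℚ K] (ι : K →+* ℝ)
    (x : Fin k → Fin d → K) (z : Fin d → K) (R : K)
    (hs : ∀ a, ∑ p, (x a p) ^ 2 = R + 2 * ∑ p, z p * x a p)
    (hinj : ∀ a b, b ≠ a → ∃ p, x a p ≠ x b p) :
    SignedArray (fun a p => ι (x a p)) := by
  classical
  rcases dichotomy ι x with h | ⟨g, B, hg, hB⟩
  · exact h
  exfalso
  -- data for the abstract elimination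
  set e : Fin k → Fin k → K → K × (Fin d → K) := fun a b h =>
    if hab : ∃ p, x a p ≠ x b p then
      (-(h / (x a hab.choose - x b hab.choose)) * x b hab.choose,
        Pi.single hab.choose (h / (x a hab.choose - x b hab.choose)))
    else 0 with he
  have hsingle : ∀ (a : Fin k) (p : Fin d) (u : K),
      ∑ r, (Pi.single p u : Fin d → K) r * x a r = u * x a p := by
    intro a p u
    rw [Finset.sum_eq_single p]
    · simp
    · intro r _ hr
      simp [Pi.single_apply, hr]
    · simp
  have he0 : ∀ a b, b ≠ a → ∀ h, phiHom x b (e a b h) = 0 := by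
    intro a b hba h
    have hab := hinj a b hba
    simp only [he, dif_pos hab]
    show phi x b _ = 0
    simp only [phi]
    rw [hsingle]
    ring
  have he1 : ∀ a b, b ≠ a → ∀ h, phiHom x a (e a b h) = h := by
    intro a b hba h
    have hab := hinj a b hba
    simp only [he, dif_pos hab]
    show phi x a _ = h
    simp only [phi]
    rw [hsingle]
    have hne : x a hab.choose - x b hab.choose ≠ 0 := sub_ne_zero.2 hab.choose_spec
    field_simp
    ring
  obtain ⟨κ, A, hκ, hAl, hAs, hA⟩ := Vale.Agent.Lib.P058S.AlgF.main (phiHom x) (QQ B)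
    (fun c => by
      unfold QQ
      rw [Finset.mul_sum]
      refine Finset.sum_congr rfl fun p _ => ?_
      rw [Finset.mul_sum]
      refine Finset.sum_congr rfl fun q _ => ?_
      have h : (c + c).2 p * (c + c).2 q =
          c.2 p * c.2 q + c.2 p * c.2 q + (c.2 p * c.2 q + c.2 p * c.2 q) := by
        simp only [Prod.snd_add, Pi.add_apply]
        ring
      rw [h, map_add, map_add]
      ring)
    (fun h => (h, 0)) (fun a h => by
      show phi x a (h, 0) = h
      simp [phi])
    (fun c h => by
      unfold QQ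
      simp)
    e he0 he1 g hg
  obtain ⟨S, hS1, hS2⟩ := Vale.Agent.Lib.P058K.RS.exists_casimir_family K
  exact hκ (kappa_eq_zero x z R hs B hB κ A hAl hAs hA S hS1 hS2)

end

end Vale.Agent.Lib.P058S.AlgGlue7
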