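import Mathlib

/-!
# Reduction of a real sphere equation to the field generated by the coordinates
-/

set_option linter.unusedVariables false
set_option linter.unusedSectionVars false

namespace Vale.Agent.Lib.P058S.AlgReduce

open Finset

/-- Reduction of a real sphere equation to the number field generated by the coordinates, by a
linear projection of the reals onto that field. -/
theorem reduce_to_field {k d : ℕ} (x : Fin k → Fin d → ℝ)
    (halg : ∀ a p, IsAlgebraic ℚ (x a p)) (z : Fin d → ℝ) (r : ℝ)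
    (hs : ∀ a, ∑ p, (x a p - z p) ^ 2 = r) :
    ∃ (K : IntermediateField ℚ ℝ) (_ : FiniteDimensional ℚ K) (x' : Fin k → Fin d → K)
      (z' : Fin d → K) (R : K),
      (∀ a p, ((x' a p : K) : ℝ) = x a p) ∧
      ∀ a, ∑ p, (x' a p) ^ 2 = R + 2 * ∑ p, z' p * x' a p := by
  classical
  let S : Set ℝ := Set.range (fun i : Fin k × Fin d => x i.1 i.2)
  have : Finite S := Set.finite_range _ |>.to_subtype
  let K : IntermediateField ℚ ℝ := IntermediateField.adjoin ℚ S
  have hfd : FiniteDimensional ℚ K := by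
    apply IntermediateField.finiteDimensional_adjoin
    rintro _ ⟨i, rfl⟩
    exact (halg i.1 i.2).isIntegral
  have hmem : ∀ a p, x a p ∈ K := fun a p =>
    IntermediateField.subset_adjoin ℚ S ⟨(a, p), rfl⟩
  let x' : Fin k → Fin d → K := fun a p => ⟨x a p, hmem a p⟩
  obtain ⟨π, hπ⟩ := LinearMap.exists_leftInverse_of_injective (Algebra.linearMap K ℝ)
    (LinearMap.ker_eq_bot.mpr (algebraMap K ℝ).injective)
  have hπ1 : ∀ t : K, π (t : ℝ) = t := fun t => by
    have := LinearMap.congr_fun hπ t
    simpa using this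
  have hπ2 : ∀ (t : K) (y : ℝ), π ((t : ℝ) * y) = t * π y := fun t y => by
    have : (t : ℝ) * y = t • y := rfl
    rw [this, map_smul, smul_eq_mul]
  refine ⟨K, hfd, x', fun p => π (z p), π (r - ∑ p, z p ^ 2), fun a p => rfl, fun a => ?_⟩
  have h1 : ((∑ p, (x' a p) ^ 2 : K) : ℝ) =
      (r - ∑ p, z p ^ 2) + 2 * ∑ p, ((x' a p : K) : ℝ) * z p := by
    rw [← hs a]
    push_cast
    simp only [x']
    rw [Finset.mul_sum, ← Finset.sum_sub_distrib, ← Finset.sum_add_distrib]
    apply Finset.sum_congr rfl
    intro p _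
    ring
  have h2 := congrArg π h1
  rw [hπ1, map_add] at h2
  rw [h2]
  congr 1
  have h3 : ∀ y : ℝ, π (2 * y) = 2 * π y := fun y => by
    have h4 : (2 : ℝ) * y = y + y := two_mul y
    rw [h4, map_add, two_mul]
  rw [h3, map_sum]
  congr 1
  apply Finset.sum_congr rfl
  intro p _
  rw [hπ2, mul_comm]

end Vale.Agent.Lib.P058S.AlgReduce
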