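import Mathlib
import Vale.Agent.Lib.P058S.AlgGlue7
import Vale.Agent.Lib.P058S.AlgReduce
import Vale.Agent.Lib.P058S.Assembly

/-!
# P058: every finite spherical set with algebraic coordinates is Ramsey
-/

set_option linter.unusedVariables false
set_option linter.unusedSectionVars false

namespace Vale.Agent.Lib.P058S.AlgFinal7

/-- **Signed arrays for algebraic spherical sets.** -/
theorem signedArray_of_algebraic {k d : ℕ} (x : Fin k → Fin d → ℝ)
    (hinj : Function.Injective x) (halg : ∀ a p, IsAlgebraic ℚ (x a p)) (z : Fin d → ℝ) (r : ℝ)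
    (hs : ∀ a, ∑ p, (x a p - z p) ^ 2 = r) : SignedArray x := by
  classical
  obtain ⟨K, hK, x', z', R0, hx', hsph⟩ :=
    Vale.Agent.Lib.P058S.AlgReduce.reduce_to_field x halg z r hs
  haveI := hK
  have hinj' : ∀ a b, b ≠ a → ∃ p, x' a p ≠ x' b p := by
    intro a b hba
    by_contra hne
    push Not at hne
    apply hba
    apply hinj
    funext p
    rw [← hx' b p, ← hx' a p, hne p]
  have h := Vale.Agent.Lib.P058S.AlgGlue7.signedArray_of_numberField (K := K)
    (algebraMap K ℝ) x' z' R0 hsph hinj'
  have he : (fun a p => algebraMap K ℝ (x' a p)) = x := by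
    funext a p
    exact hx' a p
  rw [he] at h
  exact h

/-- **Every finite spherical set with algebraic coordinates is Ramsey.** -/
theorem isRamseyFamily_of_algebraic {k d : ℕ} (x : Fin k → EuclideanSpace ℝ (Fin d))
    (hinj : Function.Injective x) (halg : ∀ a p, IsAlgebraic ℚ (x a p))
    (z : EuclideanSpace ℝ (Fin d)) (ρ : ℝ) (hs : ∀ a, dist (x a) z = ρ) :
    Vale.Agent.Lib.P058.IsRamseyFamily x := by
  refine isRamseyFamily_of_signedArray x (signedArray_of_algebraic (fun a p => x a p) ?_ halg
    (fun p => z p) (ρ ^ 2) fun a => ?_)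
  · intro a b h
    apply hinj
    ext p
    exact congrFun h p
  · rw [← hs a, EuclideanSpace.dist_eq, Real.sq_sqrt (Finset.sum_nonneg fun _ _ => sq_nonneg _)]
    refine Finset.sum_congr rfl fun p _ => ?_
    rw [Real.dist_eq, sq_abs]

end Vale.Agent.Lib.P058S.AlgFinal7
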