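import Mathlib

/-!
# The Casimir element of a number field, for biadditive maps
-/

namespace Vale.Agent.Lib.P058S.Cas

open Finset

theorem casimir (K : Type*) [Field K] [Algebra ℚ K] [FiniteDimensional ℚ K] :
    ∃ (n : ℕ) (om om' : Fin n → K),
      (∀ A : K → K → ℝ, (∀ x y z, A (x + y) z = A x z + A y z) →
        (∀ x y z, A x (y + z) = A x y + A x z) → ∀ α : K,
          ∑ l, A (α * om l) (om' l) = ∑ l, A (om l) (α * om' l)) ∧
      ∑ l, om l * om' l ≠ 0 := by
  classical
  let b := Module.finBasis ℚ K
  let T : LinearMap.BilinForm ℚ K := Algebra.traceForm ℚ K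
  have hT : T.Nondegenerate := traceForm_nondegenerate ℚ K
  let d := LinearMap.BilinForm.dualBasis T hT b
  have hdb : ∀ i j, T (d i) (b j) = if j = i then 1 else 0 := fun i j => by
    simpa [d] using LinearMap.BilinForm.apply_dualBasis_left hT b i j
  have hbd : ∀ i j, T (b i) (d j) = if i = j then 1 else 0 := fun i j => by
    simpa [d] using LinearMap.BilinForm.apply_dualBasis_right hT (Algebra.traceForm_isSymm ℚ) b i j
  -- expansions
  have hexpb : ∀ y : K, y = ∑ m, T y (d m) • b m := by
    intro y
    conv_lhs => rw [← b.sum_repr y]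
    refine Finset.sum_congr rfl fun m _ => ?_
    congr 1
    conv_rhs => rw [← b.sum_repr y]
    simp only [map_sum, LinearMap.sum_apply, map_smul, LinearMap.smul_apply, hbd, smul_eq_mul]
    simp
  have hexpd : ∀ y : K, y = ∑ m, T y (b m) • d m := by
    intro y
    conv_lhs => rw [← d.sum_repr y]
    refine Finset.sum_congr rfl fun m _ => ?_
    congr 1
    conv_rhs => rw [← d.sum_repr y]
    simp only [map_sum, LinearMap.sum_apply, map_smul, LinearMap.smul_apply, hdb, smul_eq_mul]
    simp
  refine ⟨Module.finrank ℚ K, fun l => b l, fun l => d l, ?_, ?_⟩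
  · intro A h1 h2 α
    -- additive maps are rational linear
    let fl : K → K →+ ℝ := fun z => AddMonoidHom.mk' (fun x => A x z) (fun x y => h1 x y z)
    let fr : K → K →+ ℝ := fun x => AddMonoidHom.mk' (fun z => A x z) (fun y z => h2 x y z)
    have hl : ∀ i, A (α * b i) (d i) = ∑ m, T (α * b i) (d m) * A (b m) (d i) := by
      intro i
      have e := hexpb (α * b i)
      calc A (α * b i) (d i) = fl (d i) (α * b i) := rfl
        _ = fl (d i) (∑ m, T (α * b i) (d m) • b m) := by rw [← e]
        _ = ∑ m, T (α * b i) (d m) • fl (d i) (b m) := by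
            rw [map_sum]
            exact Finset.sum_congr rfl fun m _ => map_rat_smul _ _ _
        _ = _ := by
            refine Finset.sum_congr rfl fun m _ => ?_
            rw [Rat.smul_def]
            rfl
    have hr : ∀ m, A (b m) (α * d m) = ∑ i, T (α * d m) (b i) * A (b m) (d i) := by
      intro m
      have e := hexpd (α * d m)
      calc A (b m) (α * d m) = fr (b m) (α * d m) := rfl
        _ = fr (b m) (∑ i, T (α * d m) (b i) • d i) := by rw [← e]
        _ = ∑ i, T (α * d m) (b i) • fr (b m) (d i) := by
            rw [map_sum]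
            exact Finset.sum_congr rfl fun i _ => map_rat_smul _ _ _
        _ = _ := by
            refine Finset.sum_congr rfl fun i _ => ?_
            rw [Rat.smul_def]
            rfl
    simp only [hl, hr]
    rw [Finset.sum_comm]
    refine Finset.sum_congr rfl fun m _ => Finset.sum_congr rfl fun i _ => ?_
    congr 2
    simp only [T, Algebra.traceForm_apply]
    congr 1
    ring
  · intro h0
    have h1 : Algebra.trace ℚ K (∑ l, b l * d l) = ∑ l, T (b l) (d l) := by
      rw [map_sum]
      rfl
    rw [h0, map_zero] at h1
    simp only [hbd, if_true, Finset.sum_const, Finset.card_univ, Fintype.card_fin, nsmul_eq_mul,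
      mul_one] at h1
    have hpos : Module.finrank ℚ K ≠ 0 := Module.finrank_pos.ne'
    exact hpos (by exact_mod_cast h1.symm)

end Vale.Agent.Lib.P058S.Cas
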