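import Vale.Agent.Lib.P058S.AlgDual
import Vale.Agent.Lib.P058S.AlgFrechet
import Vale.Agent.Lib.P058S.Casimir
import Vale.Agent.Lib.P058S.AlgContra

/-!
# Finite spherical sets with coordinates in a number field carry a signed balanced array
-/

namespace Vale.Agent.Lib.P058S.AlgGlue

open Finset

/-- Points with coordinates in a number field `K ⊂ ℝ`, on a sphere with equation over `K`, carry a
signed balanced array. -/
theorem signedArray_of_numberField {K : Type} [Field K] [Algebra ℚ K] [FiniteDimensional ℚ K]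
    {k d : ℕ} (ι : K →+* ℝ) (x : Fin k → Fin d → K) (hinj : Function.Injective x)
    (z : Fin d → K) (R : K) (hsph : ∀ a, ∑ p, (x a p) ^ 2 = R + 2 * ∑ p, z p * x a p) :
    SignedArray (fun a p => ι (x a p)) := by
  classical
  rcases AlgDual.dichotomy ι x with h | ⟨g, B, hg, hB1⟩
  · exact h
  exfalso
  haveI : CharZero K := algebraRat.charZero K
  let φ : Fin k → (K × (Fin d → K)) →+ K := fun a => AddMonoidHom.mk' (AlgDual.phi x a) (by
    intro c c'
    simp only [AlgDual.phi, Prod.fst_add, Prod.snd_add, Pi.add_apply, add_mul,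
      Finset.sum_add_distrib]
    ring)
  have hφ : ∀ a c, φ a c = c.1 + ∑ p, c.2 p * x a p := fun a c => rfl
  let Q : K × (Fin d → K) → ℝ := fun c => ∑ p, ∑ q, B p q (c.2 p * c.2 q)
  have hQ : ∀ c, Q (c + c) = 4 * Q c := by
    intro c
    simp only [Q, Finset.mul_sum]
    apply Finset.sum_congr rfl
    intro p _
    apply Finset.sum_congr rfl
    intro q _
    have e : (c + c).2 p * (c + c).2 q = (4 : ℕ) • (c.2 p * c.2 q) := by
      simp only [Prod.snd_add, Pi.add_apply, nsmul_eq_mul]
      push_cast
      ring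
    rw [e, map_nsmul, nsmul_eq_mul]
    push_cast
    ring
  let sh : K → K × (Fin d → K) := fun h => (h, 0)
  have hsh : ∀ a h, φ a (sh h) = h := by
    intro a h
    simp [hφ, sh]
  have hQs : ∀ c h, Q (c + sh h) = Q c := by
    intro c h
    simp [Q, sh]
  have hne : ∀ a b : Fin k, b ≠ a → ∃ p, x a p ≠ x b p := by
    intro a b hb
    by_contra hc
    push_neg at hc
    exact hb (hinj (funext hc)).symm
  let e : Fin k → Fin k → K → K × (Fin d → K) := fun a b h =>
    if hb : b ≠ a then
      (-(h / (x a (hne a b hb).choose - x b (hne a b hb).choose)) * x b (hne a b hb).choose,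
        Pi.single (hne a b hb).choose (h / (x a (hne a b hb).choose - x b (hne a b hb).choose)))
    else 0
  have he0 : ∀ a b, b ≠ a → ∀ h, φ b (e a b h) = 0 := by
    intro a b hb h
    simp only [e, dif_pos hb, hφ]
    rw [AlgContra.sum_single]
    ring
  have he1 : ∀ a b, b ≠ a → ∀ h, φ a (e a b h) = h := by
    intro a b hb h
    simp only [e, dif_pos hb, hφ]
    rw [AlgContra.sum_single]
    have h0 : x a (hne a b hb).choose - x b (hne a b hb).choose ≠ 0 :=
      sub_ne_zero.mpr (hne a b hb).choose_spec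
    field_simp
    ring
  have hg' : ∀ c, ∑ a, g a (φ a c) + Q c = 0 := fun c => hg c
  obtain ⟨κ, A, hκ, hA1, hAs, hAid⟩ := AlgF.main φ Q hQ sh hsh hQs e he0 he1 g hg'
  have hA2 : ∀ a s t u, A a s (t + u) = A a s t + A a s u := by
    intro a s t u
    rw [hAs, hA1, hAs a t s, hAs a u s]
  obtain ⟨n, om, om', hcas, hC⟩ := Cas.casimir K
  have hid : ∀ (c0 c0' : K) (v v' : Fin d → K),
      ∑ a, A a (c0 + ∑ p, v p * x a p) (c0' + ∑ p, v' p * x a p)
        + κ * ∑ p, ∑ q, B p q (v p * v' q + v' p * v q) = 0 := by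
    intro c0 c0' v v'
    have h := hAid (c0, v) (c0', v')
    simp only [hφ] at h
    have e2 : Q ((c0, v) + (c0', v')) - Q (c0, v) - Q (c0', v')
        = ∑ p, ∑ q, B p q (v p * v' q + v' p * v q) := by
      simp only [Q, Prod.mk_add_mk, Pi.add_apply, ← Finset.sum_sub_distrib]
      apply Finset.sum_congr rfl
      intro p _
      apply Finset.sum_congr rfl
      intro q _
      have e3 : (v p + v' p) * (v q + v' q)
          = v p * v q + (v p * v' q + v' p * v q) + v' p * v' q := by ring
      rw [e3, map_add, map_add]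
      ring
    rw [e2] at h
    exact h
  exact hκ (AlgContra.kappa_eq_zero x z R hsph A hA1 hA2 κ (fun p q t => B p q t)
    (fun p q s t => map_add (B p q) s t) hB1 hid om om' hcas hC)

end Vale.Agent.Lib.P058S.AlgGlue
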