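import Mathlib
import Vale.Agent.Lib.P058S.Defs

namespace Vale.Agent.Lib.P058S.AlgReal

open Finset

/-- Reduction from real points with algebraic coordinates to a number field. -/
theorem signedArray_of_real_algebraic
    (hK : ∀ {K : Type} [Field K] [Algebra ℚ K] [FiniteDimensional ℚ K] (i : K →+* ℝ) {k d : ℕ}
      (x : Fin k → Fin d → K) (hinj : Function.Injective x) (z : Fin d → K) (R₀ : K)
      (hsph : ∀ a, ∑ p, (x a p) ^ 2 = R₀ + 2 * ∑ p, z p * x a p),
      SignedArray (fun a p => i (x a p)))
    {k d : ℕ} (x : Fin k → Fin d → ℝ) (hinj : Function.Injective x)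
    (halg : ∀ a p, IsAlgebraic ℚ (x a p)) (z : Fin d → ℝ) (R₀ : ℝ)
    (hsph : ∀ a, ∑ p, (x a p) ^ 2 = R₀ + 2 * ∑ p, z p * x a p) :
    SignedArray x := by
  classical
  -- the number field of the coordinates
  let S : Set ℝ := Set.range (fun ap : Fin k × Fin d => x ap.1 ap.2)
  haveI : Finite S := Set.finite_range _ |>.to_subtype
  let K : IntermediateField ℚ ℝ := IntermediateField.adjoin ℚ S
  have hint : ∀ y ∈ S, IsIntegral ℚ y := by
    rintro _ ⟨ap, rfl⟩
    exact (halg ap.1 ap.2).isIntegral
  haveI : FiniteDimensional ℚ K := IntermediateField.finiteDimensional_adjoin hint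
  have hmem : ∀ a p, x a p ∈ K := fun a p =>
    IntermediateField.subset_adjoin ℚ S ⟨(a, p), rfl⟩
  let x' : Fin k → Fin d → K := fun a p => ⟨x a p, hmem a p⟩
  -- a `K`-linear retraction
  let f : K →ₗ[K] ℝ := Algebra.linearMap K ℝ
  have hf : LinearMap.ker f = ⊥ := by
    apply LinearMap.ker_eq_bot'.mpr
    intro y hy
    have : (y : ℝ) = 0 := hy
    exact Subtype.ext this
  obtain ⟨π, hπ⟩ := LinearMap.exists_leftInverse_of_injective f hf
  have hπ1 : ∀ y : K, π (y : ℝ) = y := fun y => LinearMap.congr_fun hπ y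
  have hπmul : ∀ (y : K) (u : ℝ), π ((y : ℝ) * u) = y * π u := fun y u => by
    have := π.map_smul y u
    simpa [Algebra.smul_def] using this
  have hinj' : Function.Injective x' := by
    intro a b hab
    apply hinj
    funext p
    have := congrFun hab p
    exact congrArg Subtype.val this
  have hsph' : ∀ a, ∑ p, (x' a p) ^ 2 = π R₀ + 2 * ∑ p, π (z p) * x' a p := by
    intro a
    have h1 := congrArg π (hsph a)
    have hL : π (∑ p, (x a p) ^ 2) = ∑ p, (x' a p) ^ 2 := by
      have : ∑ p, (x a p) ^ 2 = ((∑ p, (x' a p) ^ 2 : K) : ℝ) := by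
        push_cast
        rfl
      rw [this, hπ1]
    have hR : π (R₀ + 2 * ∑ p, z p * x a p) = π R₀ + 2 * ∑ p, π (z p) * x' a p := by
      rw [map_add]
      congr 1
      have h2 : (2 : ℝ) * ∑ p, z p * x a p = ((2 : K) : ℝ) * ∑ p, ((x' a p : K) : ℝ) * z p := by
        push_cast
        congr 1
        apply Finset.sum_congr rfl
        intro p _
        exact mul_comm _ _
      rw [h2, hπmul, map_sum]
      congr 1
      apply Finset.sum_congr rfl
      intro p _
      rw [hπmul, mul_comm]
    rw [hL, hR] at h1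
    exact h1
  have := hK (K := K) K.val.toRingHom x' hinj' (fun p => π (z p)) (π R₀) hsph'
  exact this

end Vale.Agent.Lib.P058S.AlgReal
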