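import Mathlib

namespace Vale.Agent.Lib.P058S.CasimirContra85

open Finset

/-- The algebraic contradiction step: the Casimir element of a field kills the coefficient. -/
theorem kappa_eq_zero {K : Type*} [Field K] {k d : ℕ} {L : Type*} [Fintype L] (om om' : L → K)
    (hcas : ∀ (A : K →+ K →+ ℝ) (α : K),
      ∑ l, A (α * om l) (om' l) = ∑ l, A (om l) (α * om' l))
    (hC : ∑ l, om l * om' l ≠ 0)
    (A : Fin k → K →+ K →+ ℝ) (B : Fin d → Fin d → K →+ ℝ) (κ : ℝ)
    (x : Fin k → Fin d → K) (z : Fin d → K) (R : K)
    (hs : ∀ a, ∑ p, (x a p) ^ 2 = R + 2 * ∑ p, z p * x a p)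
    (hB : ∑ p, B p p 1 = 1)
    (H : ∀ (c0 c0' : K) (v v' : Fin d → K),
      ∑ a, A a (c0 + ∑ p, v p * x a p) (c0' + ∑ p, v' p * x a p)
        + κ * ∑ p, ∑ q, B p q (v p * v' q + v' p * v q) = 0) :
    κ = 0 := by
  classical
  -- the additive maps `S a`
  obtain ⟨S, hS⟩ : ∃ S : Fin k → K →+ ℝ, ∀ a t, S a t = ∑ l, A a (t * om l) (om' l) := by
    refine ⟨fun a => AddMonoidHom.mk' (fun t => ∑ l, A a (t * om l) (om' l)) ?_, fun a t => rfl⟩
    intro s t
    simp [add_mul, Finset.sum_add_distrib]
  -- step 1
  have h1 : ∀ t : K, ∑ a, S a (t * R) = 0 := by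
    intro t
    have : ∀ l, ∑ a, A a (t * R * om l) (om' l) = 0 := by
      intro l
      have := H (t * R * om l) (om' l) 0 0
      simpa using this
    calc ∑ a, S a (t * R) = ∑ a, ∑ l, A a (t * R * om l) (om' l) := by simp only [hS]
      _ = ∑ l, ∑ a, A a (t * R * om l) (om' l) := Finset.sum_comm
      _ = 0 := by simp [this]
  -- a single-vector helper
  have hsingle : ∀ (w : K) (a : Fin k) (p : Fin d),
      ∑ q, (Pi.single p w : Fin d → K) q * x a q = w * x a p := by
    intro w a p
    rw [Finset.sum_eq_single p]
    · simp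
    · intro q _ hq
      simp [Pi.single_eq_of_ne hq]
    · simp
  -- Casimir for a premultiplied form
  have hcas' : ∀ (a : Fin k) (s α : K),
      ∑ l, A a (s * om l) (α * om' l) = ∑ l, A a (s * (α * om l)) (om' l) := by
    intro a s α
    have := hcas ((A a).comp (AddMonoidHom.mulLeft s)) α
    simp only [AddMonoidHom.comp_apply, AddMonoidHom.coe_mulLeft] at this
    exact this.symm
  -- step 2
  have h2 : ∀ (t : K) (p : Fin d), ∑ a, S a (t * (z p * x a p)) = 0 := by
    intro t p
    have : ∀ l, ∑ a, A a (t * z p * om l) (om' l * x a p) = 0 := by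
      intro l
      have := H (t * z p * om l) 0 0 (Pi.single p (om' l))
      simp only [Pi.zero_apply, zero_mul, Finset.sum_const_zero, add_zero, zero_add, mul_zero,
        hsingle, AddMonoidHom.map_zero, mul_zero] at this
      simpa using this
    calc ∑ a, S a (t * (z p * x a p))
        = ∑ a, ∑ l, A a (t * z p * om l) (x a p * om' l) := by
          refine Finset.sum_congr rfl fun a _ => ?_
          rw [hS, hcas' a (t * z p) (x a p)]
          refine Finset.sum_congr rfl fun l _ => ?_
          congr 2
          ring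
      _ = ∑ l, ∑ a, A a (t * z p * om l) (om' l * x a p) := by
          rw [Finset.sum_comm]
          refine Finset.sum_congr rfl fun l _ => Finset.sum_congr rfl fun a _ => ?_
          rw [mul_comm (x a p)]
      _ = 0 := by simp [this]
  -- the double sum for two single vectors
  have hBsingle : ∀ (p : Fin d) (u w : K),
      ∑ q, ∑ r, B q r ((Pi.single p u : Fin d → K) q * (Pi.single p w : Fin d → K) r
        + (Pi.single p w : Fin d → K) q * (Pi.single p u : Fin d → K) r) = B p p (u * w + w * u) := by
    intro p u w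
    rw [Finset.sum_eq_single p]
    · rw [Finset.sum_eq_single p]
      · simp
      · intro r _ hr
        simp [Pi.single_eq_of_ne hr]
      · simp
    · intro q _ hq
      refine Finset.sum_eq_zero fun r _ => ?_
      simp [Pi.single_eq_of_ne hq]
    · simp
  -- step 3
  have h3 : ∀ (t : K) (p : Fin d),
      ∑ a, S a (t * (x a p) ^ 2) + 2 * κ * B p p (t * ∑ l, om l * om' l) = 0 := by
    intro t p
    have : ∀ l, ∑ a, A a (t * om l * x a p) (om' l * x a p)
        + 2 * κ * B p p (t * (om l * om' l)) = 0 := by
      intro l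
      have := H 0 0 (Pi.single p (t * om l)) (Pi.single p (om' l))
      rw [hBsingle] at this
      simp only [hsingle, zero_add] at this
      have e : t * om l * om' l + om' l * (t * om l) = t * (om l * om' l) + t * (om l * om' l) := by
        ring
      rw [e, map_add] at this
      linarith
    have hsum := Finset.sum_eq_zero (s := Finset.univ) fun l (_ : l ∈ Finset.univ) => this l
    rw [Finset.sum_add_distrib] at hsum
    have e1 : ∑ l, ∑ a, A a (t * om l * x a p) (om' l * x a p) = ∑ a, S a (t * (x a p) ^ 2) := by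
      rw [Finset.sum_comm]
      refine Finset.sum_congr rfl fun a _ => ?_
      rw [hS]
      have := hcas' a (t * x a p) (x a p)
      calc ∑ l, A a (t * om l * x a p) (om' l * x a p)
          = ∑ l, A a (t * x a p * om l) (x a p * om' l) := by
            refine Finset.sum_congr rfl fun l _ => ?_
            rw [mul_comm (om' l), mul_right_comm t (om l)]
        _ = ∑ l, A a (t * x a p * (x a p * om l)) (om' l) := this
        _ = ∑ l, A a (t * x a p ^ 2 * om l) (om' l) := by
            refine Finset.sum_congr rfl fun l _ => ?_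
            congr 2
            ring
    have e2 : ∑ l, 2 * κ * B p p (t * (om l * om' l)) = 2 * κ * B p p (t * ∑ l, om l * om' l) := by
      rw [← Finset.mul_sum, ← map_sum, Finset.mul_sum]
    rw [e1, e2] at hsum
    exact hsum
  -- conclusion
  set C := ∑ l, om l * om' l with hCdef
  have hfinal : 2 * κ * ∑ p, B p p (C⁻¹ * C) = 0 := by
    have hsumA : ∑ p, ∑ a, S a (C⁻¹ * (x a p) ^ 2) = 0 := by
      rw [Finset.sum_comm]
      calc ∑ a, ∑ p, S a (C⁻¹ * (x a p) ^ 2)
          = ∑ a, S a (C⁻¹ * ∑ p, (x a p) ^ 2) := by
            refine Finset.sum_congr rfl fun a _ => ?_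
            rw [Finset.mul_sum, map_sum]
        _ = ∑ a, (S a (C⁻¹ * R) + 2 * ∑ p, S a (C⁻¹ * (z p * x a p))) := by
            refine Finset.sum_congr rfl fun a _ => ?_
            rw [hs a, mul_add, map_add]
            congr 1
            have : C⁻¹ * (2 * ∑ p, z p * x a p)
                = ∑ p, C⁻¹ * (z p * x a p) + ∑ p, C⁻¹ * (z p * x a p) := by
              rw [← Finset.mul_sum]
              ring
            rw [this, map_add, map_sum]
            ring
        _ = 0 := by
            rw [Finset.sum_add_distrib, h1, ← Finset.mul_sum, Finset.sum_comm]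
            simp [h2]
    have h4 := Finset.sum_eq_zero (s := Finset.univ)
      fun p (_ : p ∈ Finset.univ) => h3 C⁻¹ p
    rw [Finset.sum_add_distrib, hsumA, zero_add, ← Finset.mul_sum] at h4
    exact h4
  rw [inv_mul_cancel₀ hC, hB] at hfinal
  linarith

end Vale.Agent.Lib.P058S.CasimirContra85
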