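import Mathlib
import Vale.Agent.Lib.P058K.RatHahnBanach

/-!
# Farkas lemma over the rationals with real costs, for multisets of generators
-/

namespace Vale.Agent.Lib.P058S

open Finset

section Farkas

variable {Col V : Type*} [AddCommGroup V] [Module ℚ V]

/-- The set of values of representations of `v`. -/
def repVals (L : Col → V) (cP cN : Col → ℝ) (v : V) : Set ℝ :=
  {t | ∃ (P N : Multiset Col) (K : ℕ), 0 < K ∧ (P.map L).sum - (N.map L).sum = K • v ∧
    t = ((P.map cP).sum + (N.map cN).sum) / K}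

variable {L : Col → V} {cP cN : Col → ℝ}

theorem sum_nsmul_map {α β : Type*} [AddCommMonoid β] (n : ℕ) (A : Multiset α) (f : α → β) :
    ((n • A).map f).sum = n • (A.map f).sum := by
  rw [Multiset.map_nsmul, Multiset.sum_nsmul]

theorem rep_add_vals {v v' : V} {t t' : ℝ} (ht : t ∈ repVals L cP cN v) (ht' : t' ∈ repVals L cP cN v') :
    t + t' ∈ repVals L cP cN (v + v') := by
  obtain ⟨P, N, K, hK, h1, rfl⟩ := ht
  obtain ⟨P', N', K', hK', h1', rfl⟩ := ht'
  refine ⟨K' • P + K • P', K' • N + K • N', K * K', Nat.mul_pos hK hK', ?_, ?_⟩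
  · simp only [Multiset.map_add, Multiset.sum_add, sum_nsmul_map]
    have e : K' • (P.map L).sum + K • (P'.map L).sum - (K' • (N.map L).sum + K • (N'.map L).sum)
        = K' • ((P.map L).sum - (N.map L).sum) + K • ((P'.map L).sum - (N'.map L).sum) := by
      simp only [smul_sub]; abel
    rw [e, h1, h1', smul_add, smul_smul, smul_smul, mul_comm K' K]
  · have hK0 : (K : ℝ) ≠ 0 := by positivity
    have hK0' : (K' : ℝ) ≠ 0 := by positivity
    simp only [Multiset.map_add, Multiset.sum_add, sum_nsmul_map, nsmul_eq_mul]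
    push_cast
    field_simp
    ring

theorem rep_smul_vals {v : V} {t : ℝ} (ht : t ∈ repVals L cP cN v) (q : ℚ) (hq : 0 < q) :
    (q : ℝ) * t ∈ repVals L cP cN (q • v) := by
  obtain ⟨P, N, K, hK, h1, rfl⟩ := ht
  have hnum : 0 < q.num := Rat.num_pos.mpr hq
  set a : ℕ := q.num.toNat with ha
  have haq : (a : ℤ) = q.num := Int.toNat_of_nonneg hnum.le
  have hb : 0 < q.den := q.den_pos
  have hqd : q * (q.den : ℚ) = (a : ℚ) := by
    rw [Rat.mul_den_eq_num, ← haq]
    simp
  refine ⟨a • P, a • N, q.den * K, Nat.mul_pos hb hK, ?_, ?_⟩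
  · simp only [sum_nsmul_map]
    rw [← smul_sub, h1, smul_smul]
    have h3 : (q.den * K) • q • v = (a * K) • v := by
      have h4 : ((q.den * K : ℕ) : ℚ) * q = ((a * K : ℕ) : ℚ) := by
        push_cast
        linear_combination (K : ℚ) * hqd
      calc (q.den * K) • q • v = ((q.den * K : ℕ) : ℚ) • q • v := by
            rw [Nat.cast_smul_eq_nsmul]
        _ = (((q.den * K : ℕ) : ℚ) * q) • v := by rw [smul_smul]
        _ = ((a * K : ℕ) : ℚ) • v := by rw [h4]
        _ = (a * K) • v := by rw [Nat.cast_smul_eq_nsmul]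
    rw [h3]
  · simp only [sum_nsmul_map, nsmul_eq_mul]
    have hqR : (q : ℝ) * (q.den : ℝ) = (a : ℝ) := by
      exact_mod_cast hqd
    have hK0 : (K : ℝ) ≠ 0 := by positivity
    have hb0 : ((q.den : ℕ) : ℝ) ≠ 0 := by exact_mod_cast hb.ne'
    rw [← hqR]
    push_cast
    field_simp

/-- If `v` and `-v` both have representations, the values add to a nonnegative number. -/
theorem rep_neg_vals (h : ∀ P N : Multiset Col, (P.map L).sum = (N.map L).sum →
      0 ≤ (P.map cP).sum + (N.map cN).sum) {t : ℝ}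
    (ht : t ∈ repVals L cP cN (0 : V)) : 0 ≤ t := by
  obtain ⟨P, N, K, hK, h1, rfl⟩ := ht
  have h2 : (P.map L).sum = (N.map L).sum := by
    rw [smul_zero] at h1
    exact sub_eq_zero.mp h1
  exact div_nonneg (h P N h2) (by positivity)

/-- **Farkas.** -/
theorem farkas_multiset (L : Col → V) (cP cN : Col → ℝ)
    (h : ∀ P N : Multiset Col, (P.map L).sum = (N.map L).sum →
      0 ≤ (P.map cP).sum + (N.map cN).sum) :
    ∃ ψ : V →ₗ[ℚ] ℝ, (∀ c, ψ (L c) ≤ cP c) ∧ (∀ c, - ψ (L c) ≤ cN c) := by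
  classical
  -- the subspace
  let V0 : Submodule ℚ V := Submodule.span ℚ (Set.range L)
  have hex : ∀ v ∈ V0, (repVals L cP cN v).Nonempty := by
    intro v hv
    induction hv using Submodule.span_induction with
    | mem v hv =>
      obtain ⟨c, rfl⟩ := hv
      exact ⟨_, {c}, 0, 1, one_pos, by simp, rfl⟩
    | zero => exact ⟨_, 0, 0, 1, one_pos, by simp, rfl⟩
    | add v v' _ _ hv hv' =>
      obtain ⟨t, ht⟩ := hv
      obtain ⟨t', ht'⟩ := hv'
      exact ⟨_, rep_add_vals ht ht'⟩
    | smul q v _ hv =>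
      obtain ⟨t, ht⟩ := hv
      rcases lt_trichotomy q 0 with hq | rfl | hq
      · -- negative scalars: swap
        have hswap : ∀ t ∈ repVals L cP cN v, ∃ t', t' ∈ repVals L cP cN (-v) := by
          rintro _ ⟨P, N, K, hK, h1, rfl⟩
          refine ⟨_, N, P, K, hK, ?_, rfl⟩
          rw [smul_neg, ← h1]
          abel
        obtain ⟨t', ht'⟩ := hswap t ht
        have h2 := rep_smul_vals ht' (-q) (by linarith)
        have h3 : (-q) • (-v) = q • v := by simp
        rw [h3] at h2
        exact ⟨_, h2⟩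
      · exact ⟨_, 0, 0, 1, one_pos, by simp, rfl⟩
      · exact ⟨_, rep_smul_vals ht q hq⟩
  have hbdd : ∀ v ∈ V0, BddBelow (repVals L cP cN v) := by
    intro v hv
    obtain ⟨t', ht'⟩ := hex (-v) (V0.neg_mem hv)
    refine ⟨-t', fun t ht => ?_⟩
    have h2 := rep_add_vals ht ht'
    rw [add_neg_cancel] at h2
    have := rep_neg_vals h h2
    linarith
  let p : V0 → ℝ := fun v => sInf (repVals L cP cN (v : V))
  have hadd : ∀ u v : V0, p (u + v) ≤ p u + p v := by
    intro u v
    simp only [p]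
    have h1 : ∀ t ∈ repVals L cP cN (u : V), ∀ t' ∈ repVals L cP cN (v : V),
        sInf (repVals L cP cN ((u + v : V0) : V)) ≤ t + t' := by
      intro t ht t' ht'
      exact csInf_le (hbdd _ (u + v).2) (rep_add_vals ht ht')
    have h2 : ∀ t' ∈ repVals L cP cN (v : V),
        sInf (repVals L cP cN ((u + v : V0) : V)) - t' ≤ sInf (repVals L cP cN (u : V)) := by
      intro t' ht'
      refine le_csInf (hex _ u.2) fun t ht => ?_
      have := h1 t ht t' ht'
      linarith
    have h3 : sInf (repVals L cP cN ((u + v : V0) : V)) - sInf (repVals L cP cN (u : V))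
        ≤ sInf (repVals L cP cN (v : V)) := by
      refine le_csInf (hex _ v.2) fun t' ht' => ?_
      have := h2 t' ht'
      linarith
    linarith
  have hsmul_le : ∀ (q : ℚ), 0 < q → ∀ v : V0, p (q • v) ≤ (q : ℝ) * p v := by
    intro q hq v
    simp only [p]
    have hq' : (0 : ℝ) < q := by exact_mod_cast hq
    have h1 : sInf (repVals L cP cN ((q • v : V0) : V)) / q ≤ sInf (repVals L cP cN (v : V)) := by
      refine le_csInf (hex _ v.2) fun t ht => ?_
      rw [div_le_iff₀ hq']
      have := csInf_le (hbdd _ (q • v).2) (rep_smul_vals ht q hq)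
      rw [mul_comm] at this
      exact this
    rw [div_le_iff₀ hq'] at h1
    linarith
  have hsmul : ∀ (q : ℚ), 0 < q → ∀ v : V0, p (q • v) = (q : ℝ) * p v := by
    intro q hq v
    refine le_antisymm (hsmul_le q hq v) ?_
    have h1 := hsmul_le q⁻¹ (inv_pos.mpr hq) (q • v)
    rw [smul_smul, inv_mul_cancel₀ hq.ne', one_smul] at h1
    have hq' : (0 : ℝ) < q := by exact_mod_cast hq
    push_cast at h1
    have h2 : (q : ℝ) * ((q : ℝ)⁻¹ * p (q • v)) = p (q • v) := by
      field_simp
    nlinarith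
  obtain ⟨ψ0, hψ0⟩ := Vale.Agent.Lib.P058K.rat_hahn_banach p hadd hsmul
  obtain ⟨ψ, hψ⟩ := LinearMap.exists_extend ψ0
  have hψv : ∀ v : V0, ψ v = ψ0 v := fun v => by
    rw [← hψ]
    rfl
  have hmem : ∀ c, L c ∈ V0 := fun c => Submodule.subset_span ⟨c, rfl⟩
  refine ⟨ψ, fun c => ?_, fun c => ?_⟩
  · have h1 := hψ0 ⟨L c, hmem c⟩
    rw [← hψv] at h1
    refine h1.trans ?_
    refine csInf_le (hbdd _ (hmem c)) ⟨{c}, 0, 1, one_pos, by simp, by simp⟩
  · have h1 := hψ0 (-⟨L c, hmem c⟩)
    rw [← hψv] at h1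
    simp only [Submodule.coe_neg, map_neg] at h1
    refine h1.trans ?_
    refine csInf_le (hbdd _ (V0.neg_mem (hmem c))) ⟨0, {c}, 1, one_pos, by simp, by simp⟩

end Farkas

end Vale.Agent.Lib.P058S
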