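import Mathlib
import Vale.Agent.Lib.P058K.ProperSep
import Vale.Agent.Lib.P058S.FarkasMultiset

/-!
# The certificate attached to the failure of the array condition with affine columns
-/

namespace Vale.Agent.Lib.P058S.Cert

open Finset

variable {k d : ℕ}

/-- The value of the affine column `c = (τ, v)` at the point `y`. -/
noncomputable def col (c : ℝ × (Fin d → ℝ)) (y : Fin d → ℝ) : ℝ := c.1 + ∑ p, c.2 p * y p

/-- The sums of squared differences of a multiset of affine columns. -/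
noncomputable def DD (x : Fin k → Fin d → ℝ) (A : Multiset (ℝ × (Fin d → ℝ))) (i j : Fin k) : ℝ :=
  (A.map fun c => (col c (x i) - col c (x j)) ^ 2).sum

/-- Equal laws at every index. -/
def EqLaws (x : Fin k → Fin d → ℝ) (P N : Multiset (ℝ × (Fin d → ℝ))) : Prop :=
  ∀ i, P.map (fun c => col c (x i)) = N.map (fun c => col c (x i))

theorem DD_add (x : Fin k → Fin d → ℝ) (A B : Multiset (ℝ × (Fin d → ℝ))) (i j : Fin k) :
    DD x (A + B) i j = DD x A i j + DD x B i j := by simp [DD]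

/-- Scaling a column. -/
noncomputable def scl (s : ℝ) (c : ℝ × (Fin d → ℝ)) : ℝ × (Fin d → ℝ) := (s * c.1, s • c.2)

theorem col_scl (s : ℝ) (c : ℝ × (Fin d → ℝ)) (y : Fin d → ℝ) :
    col (scl s c) y = s * col c y := by
  simp only [col, scl, Pi.smul_apply, smul_eq_mul, mul_add, mul_sum]
  congr 1
  exact sum_congr rfl fun p _ => by ring

theorem DD_scl (x : Fin k → Fin d → ℝ) (A : Multiset (ℝ × (Fin d → ℝ))) (s : ℝ) (i j : Fin k) :
    DD x (A.map (scl s)) i j = s ^ 2 * DD x A i j := by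
  simp only [DD, Multiset.map_map, Function.comp_def, col_scl]
  rw [← Multiset.sum_map_mul_left]
  congr 1
  exact Multiset.map_congr rfl fun c _ => by ring

/-- A linear form in two matrices as a sum of coordinates. -/
theorem linear_expand (φ : ((Fin k → Fin k → ℝ) × (Fin k → Fin k → ℝ)) →ₗ[ℝ] ℝ)
    (A B : Fin k → Fin k → ℝ) :
    φ (A, B) = ∑ i, ∑ j, φ (Pi.single i (Pi.single j 1), 0) * A i j
      + ∑ i, ∑ j, φ (0, Pi.single i (Pi.single j 1)) * B i j := by
  classical
  have h : ((A, B) : (Fin k → Fin k → ℝ) × (Fin k → Fin k → ℝ)) =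
      ∑ i, ∑ j, A i j • ((Pi.single i (Pi.single j 1), 0) : (Fin k → Fin k → ℝ) × (Fin k → Fin k → ℝ))
      + ∑ i, ∑ j, B i j • ((0, Pi.single i (Pi.single j 1)) : (Fin k → Fin k → ℝ) × (Fin k → Fin k → ℝ)) := by
    ext i j
    · simp [Prod.fst_sum, Finset.sum_apply, Pi.single_apply, Finset.sum_ite_eq]
    · simp [Prod.snd_sum, Finset.sum_apply, Pi.single_apply, Finset.sum_ite_eq]
  conv_lhs => rw [h]
  simp only [map_add, map_sum, map_smul, smul_eq_mul]
  congr 1
  · exact sum_congr rfl fun i _ => sum_congr rfl fun j _ => mul_comm _ _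
  · exact sum_congr rfl fun i _ => sum_congr rfl fun j _ => mul_comm _ _

/-- The law vector of a column. -/
noncomputable def LC (x : Fin k → Fin d → ℝ) (c : ℝ × (Fin d → ℝ)) : Fin k → (ℝ →₀ ℚ) :=
  fun a => Finsupp.single (col c (x a)) 1

theorem coeff_LC_sum (x : Fin k → Fin d → ℝ) (A : Multiset (ℝ × (Fin d → ℝ))) (a : Fin k) (s : ℝ) :
    ((A.map (LC x)).sum a) s = ((A.map fun c => col c (x a)).count s : ℚ) := by
  classical
  induction A using Multiset.induction_on with
  | empty => simp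
  | cons c A ih =>
    simp only [Multiset.map_cons, Multiset.sum_cons, Pi.add_apply, Finsupp.add_apply, ih, LC,
      Multiset.count_cons, Finsupp.single_apply]
    by_cases h : col c (x a) = s
    · simp [h]; ring
    · have h' : s ≠ col c (x a) := fun e => h e.symm
      simp [h, h']

theorem eqLaws_of_sum_eq (x : Fin k → Fin d → ℝ) {P N : Multiset (ℝ × (Fin d → ℝ))}
    (h : (P.map (LC x)).sum = (N.map (LC x)).sum) : EqLaws x P N := by
  classical
  intro i
  ext s
  have h1 := coeff_LC_sum x P i s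
  have h2 := coeff_LC_sum x N i s
  rw [h, h2] at h1
  exact_mod_cast h1.symm

theorem sum_form (x : Fin k → Fin d → ℝ) (h : Fin k → Fin k → ℝ)
    (A : Multiset (ℝ × (Fin d → ℝ))) :
    (A.map fun c => ∑ i, ∑ j, h i j * (col c (x i) - col c (x j)) ^ 2).sum =
      ∑ i, ∑ j, h i j * DD x A i j := by
  induction A using Multiset.induction_on with
  | empty => simp [DD]
  | cons c A ih =>
    simp only [Multiset.map_cons, Multiset.sum_cons, ih, DD, mul_add, sum_add_distrib]

/-- **Certificate.** If the array condition with gain `W` fails for affine columns, there are real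
functions `f a` and two linear forms `g, g'` in the squared differences such that `∑ f a (col c a)`
is bounded above by `g'` and below by `-g`, for all affine columns, with a proper separation. -/
theorem certificate (x : Fin k → Fin d → ℝ) (dsq : Fin k → Fin k → ℝ) (W : ℝ)
    (hno : ¬ ∃ (P N : Multiset (ℝ × (Fin d → ℝ))) (g : ℝ), 0 < g ∧ EqLaws x P N ∧
      (∀ i j, DD x N i j = g * dsq i j) ∧ (∀ i j, DD x P i j = W * g * dsq i j)) :
    ∃ (f : Fin k → ℝ → ℝ) (g g' : Fin k → Fin k → ℝ),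
      (∀ c, ∑ a, f a (col c (x a)) ≤ ∑ i, ∑ j, g' i j * (col c (x i) - col c (x j)) ^ 2) ∧
      (∀ c, - ∑ a, f a (col c (x a)) ≤ ∑ i, ∑ j, g i j * (col c (x i) - col c (x j)) ^ 2) ∧
      (∑ i, ∑ j, g i j * dsq i j + W * ∑ i, ∑ j, g' i j * dsq i j ≤ 0) ∧
      (∑ i, ∑ j, g i j * dsq i j + W * ∑ i, ∑ j, g' i j * dsq i j ≠ 0 ∨
        ∃ P N : Multiset (ℝ × (Fin d → ℝ)), EqLaws x P N ∧
          ∑ i, ∑ j, g i j * DD x N i j + ∑ i, ∑ j, g' i j * DD x P i j ≠ 0) := by
  classical
  let C : Set ((Fin k → Fin k → ℝ) × (Fin k → Fin k → ℝ)) :=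
    {u | ∃ P N : Multiset (ℝ × (Fin d → ℝ)), EqLaws x P N ∧ u = (DD x N, DD x P)}
  have h0 : (0 : (Fin k → Fin k → ℝ) × (Fin k → Fin k → ℝ)) ∈ C := by
    refine ⟨0, 0, fun i => rfl, ?_⟩
    ext i j <;> simp [DD]
  have hadd : ∀ u ∈ C, ∀ v ∈ C, u + v ∈ C := by
    rintro _ ⟨P, N, h1, rfl⟩ _ ⟨P', N', h1', rfl⟩
    refine ⟨P + P', N + N', fun i => ?_, ?_⟩
    · rw [Multiset.map_add, Multiset.map_add, h1 i, h1' i]
    · ext i j <;> simp [DD_add]
  have hsmul : ∀ s : ℝ, 0 ≤ s → ∀ u ∈ C, s • u ∈ C := by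
    rintro s hs _ ⟨P, N, h1, rfl⟩
    refine ⟨P.map (scl (Real.sqrt s)), N.map (scl (Real.sqrt s)), fun i => ?_, ?_⟩
    · simp only [Multiset.map_map, Function.comp_def, col_scl]
      have h2 := congrArg (Multiset.map fun r => Real.sqrt s * r) (h1 i)
      simpa [Multiset.map_map, Function.comp_def] using h2
    · ext i j <;> simp [DD_scl, Real.sq_sqrt hs]
  let τ : (Fin k → Fin k → ℝ) × (Fin k → Fin k → ℝ) := (dsq, fun i j => W * dsq i j)
  have hτ : τ ∉ C := by
    rintro ⟨P, N, h1, h2⟩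
    refine hno ⟨P, N, 1, one_pos, h1, fun i j => ?_, fun i j => ?_⟩
    · have := congrFun (congrFun (congrArg Prod.fst h2) i) j
      simp only [τ] at this
      rw [← this, one_mul]
    · have := congrFun (congrFun (congrArg Prod.snd h2) i) j
      simp only [τ] at this
      rw [← this, mul_one]
  obtain ⟨φ, hφ1, hφ2, hφ3⟩ := Vale.Agent.Lib.P058K.proper_separation C h0 hadd hsmul τ hτ
  let g : Fin k → Fin k → ℝ := fun i j => φ (Pi.single i (Pi.single j 1), 0)
  let g' : Fin k → Fin k → ℝ := fun i j => φ (0, Pi.single i (Pi.single j 1))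
  have hexp : ∀ A B, φ (A, B) = ∑ i, ∑ j, g i j * A i j + ∑ i, ∑ j, g' i j * B i j :=
    fun A B => linear_expand φ A B
  -- Farkas
  let cP : ℝ × (Fin d → ℝ) → ℝ := fun c => ∑ i, ∑ j, g' i j * (col c (x i) - col c (x j)) ^ 2
  let cN : ℝ × (Fin d → ℝ) → ℝ := fun c => ∑ i, ∑ j, g i j * (col c (x i) - col c (x j)) ^ 2
  have hF : ∀ P N : Multiset (ℝ × (Fin d → ℝ)), (P.map (LC x)).sum = (N.map (LC x)).sum →
      0 ≤ (P.map cP).sum + (N.map cN).sum := by
    intro P N hPN
    have h1 : (DD x N, DD x P) ∈ C := ⟨P, N, eqLaws_of_sum_eq x hPN, rfl⟩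
    have h2 := hφ1 _ h1
    rw [hexp] at h2
    simp only [cP, cN, sum_form]
    linarith
  obtain ⟨ψ, hψ1, hψ2⟩ := Vale.Agent.Lib.P058S.farkas_multiset (LC x) cP cN hF
  let f : Fin k → ℝ → ℝ := fun a s => ψ (Pi.single a (Finsupp.single s 1))
  have hfψ : ∀ c : ℝ × (Fin d → ℝ), ∑ a, f a (col c (x a)) = ψ (LC x c) := by
    intro c
    simp only [f]
    rw [← map_sum]
    congr 1
    ext a s
    simp [LC, Finset.sum_apply, Pi.single_apply]
  refine ⟨f, g, g', fun c => ?_, fun c => ?_, ?_, ?_⟩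
  · rw [hfψ]
    exact hψ1 c
  · rw [hfψ]
    exact hψ2 c
  · have h1 := hexp dsq (fun i j => W * dsq i j)
    have h2 : ∑ i, ∑ j, g' i j * (W * dsq i j) = W * ∑ i, ∑ j, g' i j * dsq i j := by
      simp only [mul_sum]
      exact sum_congr rfl fun i _ => sum_congr rfl fun j _ => by ring
    rw [h2] at h1
    rw [← h1]
    exact hφ2
  · rcases hφ3 with h | ⟨z, ⟨P, N, h1, rfl⟩, h2⟩
    · left
      have h1 := hexp dsq (fun i j => W * dsq i j)
      have h2' : ∑ i, ∑ j, g' i j * (W * dsq i j) = W * ∑ i, ∑ j, g' i j * dsq i j := by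
        simp only [mul_sum]
        exact sum_congr rfl fun i _ => sum_congr rfl fun j _ => by ring
      rw [h2'] at h1
      rw [← h1]
      exact h
    · right
      refine ⟨P, N, h1, ?_⟩
      rw [hexp] at h2
      exact h2

end Vale.Agent.Lib.P058S.Cert
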