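import Mathlib
import Vale.Agent.Lib.P058S.Defs
import Vale.Agent.Lib.P058C.Defs

/-!
# An array with gain `W > 1` of a spanning family is a signed balanced array of affine columns
-/

set_option linter.unusedVariables false
set_option linter.unusedSectionVars false

namespace Vale.Agent.Lib.P058S.Conv

open Finset
open Vale.Agent.Lib.P058S Vale.Agent.Lib.P058C

theorem msum_finset {α β : Type*} (A : Multiset α) (s : Finset β) (h : β → α → ℝ) :
    (A.map (fun u => ∑ b ∈ s, h b u)).sum = ∑ b ∈ s, (A.map (h b)).sum := by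
  induction A using Multiset.induction_on with
  | empty => simp
  | cons a A ih =>
    simp only [Multiset.map_cons, Multiset.sum_cons, ih, sum_add_distrib]

theorem msum_mul {α : Type*} (A : Multiset α) (c : ℝ) (h : α → ℝ) :
    (A.map (fun u => h u * c)).sum = (A.map h).sum * c := by
  induction A using Multiset.induction_on with
  | empty => simp
  | cons a A ih =>
    simp only [Multiset.map_cons, Multiset.sum_cons, ih]
    ring

theorem msum_congr {α : Type*} (A : Multiset α) (h h' : α → ℝ) (e : ∀ u ∈ A, h u = h' u) :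
    (A.map h).sum = (A.map h').sum := by
  rw [Multiset.map_congr rfl e]

/-- The identity behind affine dependencies. -/
theorem quad_id {k : ℕ} (c a : Fin k → ℝ) (hc : ∑ i, c i = 0) :
    ∑ i, ∑ j, c i * c j * (a i - a j) ^ 2 = -2 * (∑ i, c i * a i) ^ 2 := by
  have h1 : ∀ i j, c i * c j * (a i - a j) ^ 2 =
      (c i * a i ^ 2) * c j + c i * (c j * a j ^ 2) - 2 * (c i * a i) * (c j * a j) := by
    intro i j
    ring
  simp only [h1, sum_sub_distrib, sum_add_distrib]
  have e1 : ∑ i, ∑ j, (c i * a i ^ 2) * c j = 0 := by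
    simp only [← mul_sum, hc, mul_zero, sum_const_zero]
  have e2 : ∑ i, ∑ j, c i * (c j * a j ^ 2) = 0 := by
    simp only [← mul_sum, ← sum_mul, hc, zero_mul]
  have e3 : ∑ i, ∑ j, 2 * (c i * a i) * (c j * a j) = 2 * (∑ i, c i * a i) ^ 2 := by
    rw [sq, Finset.sum_mul_sum, mul_sum]
    refine sum_congr rfl fun i _ => ?_
    rw [mul_sum]
    refine sum_congr rfl fun j _ => ?_
    ring
  rw [e1, e2, e3]
  ring

/-- Columns of an array with squared distances proportional to `dsq` respect all dependencies. -/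
theorem resp_of_D {k d : ℕ} (x : Fin k → Fin d → ℝ) (A : Multiset (Fin k → ℝ)) (G : ℝ)
    (hA : ∀ i j, (A.map (fun t => (t i - t j) ^ 2)).sum = G * dsq x i j)
    (c : Fin k → ℝ) (hc : ∑ i, c i = 0) (hcx : ∀ p, ∑ i, c i * x i p = 0) (u : Fin k → ℝ)
    (hu : u ∈ A) : ∑ i, c i * u i = 0 := by
  have hd : ∑ i, ∑ j, c i * c j * dsq x i j = 0 := by
    have h1 : ∀ i j, c i * c j * dsq x i j = ∑ p, c i * c j * (x i p - x j p) ^ 2 := by
      intro i j
      simp only [dsq, mul_sum]
    simp only [h1]
    have h2 : ∑ i, ∑ j, ∑ p, c i * c j * (x i p - x j p) ^ 2 =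
        ∑ p, ∑ i, ∑ j, c i * c j * (x i p - x j p) ^ 2 := by
      calc ∑ i, ∑ j, ∑ p, c i * c j * (x i p - x j p) ^ 2
          = ∑ i, ∑ p, ∑ j, c i * c j * (x i p - x j p) ^ 2 :=
            sum_congr rfl fun i _ => sum_comm
        _ = ∑ p, ∑ i, ∑ j, c i * c j * (x i p - x j p) ^ 2 := sum_comm
    rw [h2]
    refine sum_eq_zero fun p _ => ?_
    rw [quad_id c (fun i => x i p) hc, hcx p]
    ring
  have hsum : (A.map (fun t => (∑ i, c i * t i) ^ 2)).sum = 0 := by
    have h1 : ∀ t : Fin k → ℝ, (∑ i, c i * t i) ^ 2 =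
        ∑ i, ∑ j, (t i - t j) ^ 2 * (-(1 / 2) * (c i * c j)) := by
      intro t
      have := quad_id c t hc
      have e : ∑ i, ∑ j, (t i - t j) ^ 2 * (-(1 / 2) * (c i * c j)) =
          -(1 / 2) * ∑ i, ∑ j, c i * c j * (t i - t j) ^ 2 := by
        rw [mul_sum]
        refine sum_congr rfl fun i _ => ?_
        rw [mul_sum]
        refine sum_congr rfl fun j _ => ?_
        ring
      rw [e, this]
      ring
    simp only [h1]
    rw [msum_finset]
    refine Eq.trans (sum_congr rfl fun i _ => ?_) (?_ : ∑ i, ∑ j, G * dsq x i j * (-(1 / 2) * (c i * c j)) = 0)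
    · rw [msum_finset]
      refine sum_congr rfl fun j _ => ?_
      rw [msum_mul, hA]
    · have e : ∑ i, ∑ j, G * dsq x i j * (-(1 / 2) * (c i * c j)) =
          (-(1 / 2) * G) * ∑ i, ∑ j, c i * c j * dsq x i j := by
        rw [mul_sum]
        refine sum_congr rfl fun i _ => ?_
        rw [mul_sum]
        refine sum_congr rfl fun j _ => ?_
        ring
      rw [e, hd, mul_zero]
  have hle : (∑ i, c i * u i) ^ 2 ≤ (A.map (fun t => (∑ i, c i * t i) ^ 2)).sum := by
    apply Multiset.single_le_sum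
    · intro y hy
      obtain ⟨t, -, rfl⟩ := Multiset.mem_map.mp hy
      positivity
    · exact Multiset.mem_map_of_mem (fun t => (∑ i, c i * t i) ^ 2) hu
  rw [hsum] at hle
  have := le_antisymm hle (sq_nonneg _)
  exact pow_eq_zero_iff (two_ne_zero) |>.mp this

/-- A tuple respecting all affine dependencies of the points is the restriction of an affine
function. -/
theorem exists_col_of_resp {k d : ℕ} (x : Fin k → Fin d → ℝ) (u : Fin k → ℝ)
    (hu : ∀ c : Fin k → ℝ, ∑ i, c i = 0 → (∀ p, ∑ i, c i * x i p = 0) → ∑ i, c i * u i = 0) :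
    ∃ c0 : ℝ × (Fin d → ℝ), ∀ i, u i = col c0 (x i) := by
  classical
  let Φ : (Fin k → ℝ) →ₗ[ℝ] (ℝ × (Fin d → ℝ)) :=
    LinearMap.prod (∑ i, LinearMap.proj i)
      (LinearMap.pi fun p => ∑ i, (x i p) • (LinearMap.proj i))
  let ℓ : (Fin k → ℝ) →ₗ[ℝ] ℝ := ∑ i, (u i) • (LinearMap.proj i)
  have hΦ : ∀ c, Φ c = (∑ i, c i, fun p => ∑ i, c i * x i p) := by
    intro c
    ext p
    · simp [Φ]
    · simp [Φ, mul_comm]
  have hℓ : ∀ c, ℓ c = ∑ i, c i * u i := by
    intro c
    simp [ℓ, mul_comm]
  have hmem : ℓ ∈ (LinearMap.ker Φ).dualAnnihilator := by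
    rw [Submodule.mem_dualAnnihilator]
    intro c hc
    have h0 : Φ c = 0 := LinearMap.mem_ker.mp hc
    rw [hΦ] at h0
    have h1 : ∑ i, c i = 0 := congrArg Prod.fst h0
    have h2 : ∀ p, ∑ i, c i * x i p = 0 := fun p => congrFun (congrArg Prod.snd h0) p
    rw [hℓ]
    exact hu c h1 h2
  rw [← LinearMap.range_dualMap_eq_dualAnnihilator_ker] at hmem
  obtain ⟨ψ, hψ⟩ := LinearMap.mem_range.mp hmem
  have hψ' : ∀ c, ψ (Φ c) = ℓ c := fun c => LinearMap.congr_fun hψ c
  refine ⟨(ψ (1, 0), fun p => ψ (0, Pi.single p 1)), fun i => ?_⟩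
  have h1 : u i = ℓ (Pi.single i 1) := by
    rw [hℓ]
    simp [Pi.single_apply]
  rw [h1, ← hψ', hΦ]
  have h2 : (∑ j, (Pi.single i (1 : ℝ) : Fin k → ℝ) j,
      fun p => ∑ j, (Pi.single i (1 : ℝ) : Fin k → ℝ) j * x j p) = ((1 : ℝ), x i) := by
    ext p
    · simp
    · simp [Pi.single_apply]
  rw [h2]
  have h3 : ((1 : ℝ), x i) = ((1 : ℝ), (0 : Fin d → ℝ)) + ∑ p, x i p • ((0 : ℝ), (Pi.single p (1 : ℝ) : Fin d → ℝ)) := by
    ext q
    · simp [Prod.fst_sum]
    · simp [Prod.snd_sum, Finset.sum_apply, Pi.single_apply]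
  rw [h3, map_add, map_sum]
  simp only [map_smul, smul_eq_mul, col, mul_comm]

/-- An array with gain `W > 1` of a family of points spanning `ℝ^d` affinely is a signed balanced
array of affine columns. -/
theorem signedArray_of_arrayCond {k d : ℕ} (x : Fin k → Fin d → ℝ)
    (hspan : ∀ v : Fin d → ℝ, (∀ i j, ∑ p, v p * (x i p - x j p) = 0) → v = 0)
    (W : ℝ) (hW : 1 < W) (h : ArrayCond (dsq x) W) : SignedArray x := by
  classical
  obtain ⟨P, N, g, hg, hlaw, hN, hP⟩ := h
  let lift : (Fin k → ℝ) → ℝ × (Fin d → ℝ) := fun u =>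
    if h : ∃ c0 : ℝ × (Fin d → ℝ), ∀ i, u i = col c0 (x i) then h.choose else 0
  have hlift : ∀ u : Fin k → ℝ, (∃ c0 : ℝ × (Fin d → ℝ), ∀ i, u i = col c0 (x i)) →
      ∀ i, col (lift u) (x i) = u i := by
    intro u hex i
    simp only [lift, dif_pos hex]
    exact (hex.choose_spec i).symm
  have hNaff : ∀ u ∈ N, ∀ i, col (lift u) (x i) = u i := fun u hu =>
    hlift u (exists_col_of_resp x u fun c hc hcx => resp_of_D x N g hN c hc hcx u hu)
  have hPaff : ∀ u ∈ P, ∀ i, col (lift u) (x i) = u i := fun u hu =>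
    hlift u (exists_col_of_resp x u fun c hc hcx => resp_of_D x P (W * g) hP c hc hcx u hu)
  let GramP : Fin d → Fin d → ℝ := fun p q => (P.map fun u => (lift u).2 p * (lift u).2 q).sum
  let GramN : Fin d → Fin d → ℝ := fun p q => (N.map fun u => (lift u).2 p * (lift u).2 q).sum
  let s : ℝ := (W - 1) * g
  have hs : 0 < s := mul_pos (by linarith) hg
  -- squared distances through the Gram matrices
  have hD : ∀ A : Multiset (Fin k → ℝ), (∀ u ∈ A, ∀ i, col (lift u) (x i) = u i) → ∀ i j,
      (A.map (fun t => (t i - t j) ^ 2)).sum =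
        ∑ p, ∑ q, (A.map fun u => (lift u).2 p * (lift u).2 q).sum * ((x i p - x j p) * (x i q - x j q)) := by
    intro A hA i j
    have h1 : ∀ u ∈ A, (u i - u j) ^ 2 = ∑ p, ∑ q, (lift u).2 p * (lift u).2 q * ((x i p - x j p) * (x i q - x j q)) := by
      intro u hu
      have e : u i - u j = ∑ p, (lift u).2 p * (x i p - x j p) := by
        rw [← hA u hu i, ← hA u hu j]
        simp only [col, mul_sub, sum_sub_distrib]
        ring
      rw [e, sq, Finset.sum_mul_sum]
      refine sum_congr rfl fun p _ => sum_congr rfl fun q _ => ?_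
      ring
    rw [msum_congr A _ _ h1, msum_finset]
    refine sum_congr rfl fun p _ => ?_
    rw [msum_finset]
    refine sum_congr rfl fun q _ => ?_
    rw [msum_mul]
  let T : Fin d → Fin d → ℝ := fun p q => GramP p q - GramN p q - if p = q then s else 0
  have hTsymm : ∀ p q, T p q = T q p := by
    intro p q
    simp only [T, GramP, GramN, mul_comm ((lift _).2 p), eq_comm (a := p)]
  -- the quadratic form of `T` vanishes on differences
  have hq : ∀ i j, ∑ p, ∑ q, T p q * ((x i p - x j p) * (x i q - x j q)) = 0 := by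
    intro i j
    have h1 := hD P hPaff i j
    have h2 := hD N hNaff i j
    rw [hP i j] at h1
    rw [hN i j] at h2
    have h3 : ∑ p, ∑ q, (if p = q then s else 0) * ((x i p - x j p) * (x i q - x j q)) =
        s * dsq x i j := by
      simp only [dsq, mul_sum, ite_mul, zero_mul, sum_ite_eq, mem_univ, if_true]
      refine sum_congr rfl fun p _ => ?_
      ring
    have h4 : ∑ p, ∑ q, T p q * ((x i p - x j p) * (x i q - x j q)) =
        W * g * dsq x i j - g * dsq x i j - s * dsq x i j := by
      rw [h1, h2, ← h3, ← sum_sub_distrib, ← sum_sub_distrib]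
      refine sum_congr rfl fun p _ => ?_
      rw [← sum_sub_distrib, ← sum_sub_distrib]
      refine sum_congr rfl fun q _ => ?_
      simp only [T, GramP, GramN]
      ring
    rw [h4]
    simp only [s]
    ring
  -- polarisation
  have hpol : ∀ i j l, ∑ p, ∑ q, T p q * ((x i p - x l p) * (x j q - x l q)) = 0 := by
    intro i j l
    have h1 := hq i l
    have h2 := hq j l
    have h3 := hq i j
    have h4 : ∑ p, ∑ q, T p q * ((x j p - x l p) * (x i q - x l q)) =
        ∑ p, ∑ q, T p q * ((x i p - x l p) * (x j q - x l q)) := by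
      rw [sum_comm]
      refine sum_congr rfl fun p _ => sum_congr rfl fun q _ => ?_
      rw [hTsymm]
      ring
    have h5 : ∑ p, ∑ q, T p q * ((x i p - x j p) * (x i q - x j q)) =
        ∑ p, ∑ q, T p q * ((x i p - x l p) * (x i q - x l q)) +
        ∑ p, ∑ q, T p q * ((x j p - x l p) * (x j q - x l q)) -
        ∑ p, ∑ q, T p q * ((x j p - x l p) * (x i q - x l q)) -
        ∑ p, ∑ q, T p q * ((x i p - x l p) * (x j q - x l q)) := by
      rw [← sum_add_distrib, ← sum_sub_distrib, ← sum_sub_distrib]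
      refine sum_congr rfl fun p _ => ?_
      rw [← sum_add_distrib, ← sum_sub_distrib, ← sum_sub_distrib]
      refine sum_congr rfl fun q _ => ?_
      ring
    rw [h3, h1, h2, h4] at h5
    linarith
  -- first use of the spanning hypothesis
  have hz : ∀ i l q, ∑ p, T p q * (x i p - x l p) = 0 := by
    intro i l q
    have : (fun q => ∑ p, T p q * (x i p - x l p)) = 0 := by
      apply hspan
      intro j j'
      have h1 := hpol i j l
      have h2 := hpol i j' l
      have e : ∑ q, (∑ p, T p q * (x i p - x l p)) * (x j q - x j' q) =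
          ∑ p, ∑ q, T p q * ((x i p - x l p) * (x j q - x l q)) -
          ∑ p, ∑ q, T p q * ((x i p - x l p) * (x j' q - x l q)) := by
        simp only [sum_mul]
        rw [sum_comm, ← sum_sub_distrib]
        refine sum_congr rfl fun p _ => ?_
        rw [← sum_sub_distrib]
        refine sum_congr rfl fun q _ => ?_
        ring
      rw [e, h1, h2, sub_zero]
    exact congrFun this q
  -- second use of the spanning hypothesis
  have hT : ∀ p q, T p q = 0 := by
    intro p q
    have : (fun p => T p q) = 0 := by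
      apply hspan
      intro i j
      exact hz i j q
    exact congrFun this p
  refine ⟨P.map lift, N.map lift, s, hs, fun i => ?_, fun p q => ?_⟩
  · rw [Multiset.map_map, Multiset.map_map]
    have h1 : P.map ((fun c => col c (x i)) ∘ lift) = P.map (fun t => t i) :=
      Multiset.map_congr rfl fun u hu => hPaff u hu i
    have h2 : N.map ((fun c => col c (x i)) ∘ lift) = N.map (fun t => t i) :=
      Multiset.map_congr rfl fun u hu => hNaff u hu i
    rw [h1, h2, hlaw i]
  · rw [Multiset.map_map, Multiset.map_map]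
    have h1 := hT p q
    simp only [T, GramP, GramN] at h1
    simp only [Function.comp_def]
    linarith

end Vale.Agent.Lib.P058S.Conv
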