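import Mathlib

/-!
# A function with vanishing iterated differences and a quadratic bound is a quadratic form
-/

namespace Vale.Agent.Lib.P058S.F5

open Finset

variable {d : ℕ}

/-- Iterated differences along a list of steps. -/
def D (nu : (Fin d → ℝ) → ℝ) : List (Fin d → ℝ) → (Fin d → ℝ) → ℝ
  | [] => nu
  | a :: l => D (fun x => nu (x + a) - nu x) l

/-- The squared Euclidean norm. -/
def q (v : Fin d → ℝ) : ℝ := ∑ p, v p ^ 2

theorem q_nonneg (v : Fin d → ℝ) : 0 ≤ q v := sum_nonneg fun _ _ => sq_nonneg _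

theorem q_add_le (u w : Fin d → ℝ) : q (u + w) ≤ 2 * q u + 2 * q w := by
  unfold q
  rw [mul_sum, mul_sum, ← sum_add_distrib]
  refine sum_le_sum fun p _ => ?_
  simp only [Pi.add_apply]
  nlinarith [sq_nonneg (u p - w p)]

theorem q_smul (c : ℝ) (v : Fin d → ℝ) : q (c • v) = c ^ 2 * q v := by
  unfold q
  rw [mul_sum]
  refine sum_congr rfl fun p _ => ?_
  simp only [Pi.smul_apply, smul_eq_mul]
  ring

theorem q_nsmul (N : ℕ) (v : Fin d → ℝ) : q (N • v) = (N : ℝ) ^ 2 * q v := by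
  rw [← q_smul]
  congr 1
  ext p
  simp

theorem q_zero : q (0 : Fin d → ℝ) = 0 := by
  simp [q]

theorem D_cons (f : (Fin d → ℝ) → ℝ) (a : Fin d → ℝ) (l : List (Fin d → ℝ)) (x : Fin d → ℝ) :
    D f (a :: l) x = D f l (x + a) - D f l x := by
  induction l generalizing f x with
  | nil => rfl
  | cons b l ih =>
    have h : (fun x => ((f (x + b + a) - f (x + b)) - (f (x + a) - f x))) =
        (fun x => ((f (x + a + b) - f (x + a)) - (f (x + b) - f x))) := by
      funext y
      rw [add_right_comm y b a]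
      ring
    calc D f (a :: b :: l) x
        = D (fun x => ((f (x + b + a) - f (x + b)) - (f (x + a) - f x))) l x := rfl
      _ = D (fun x => ((f (x + a + b) - f (x + a)) - (f (x + b) - f x))) l x := by rw [h]
      _ = D (fun x => f (x + b) - f x) (a :: l) x := rfl
      _ = D (fun x => f (x + b) - f x) l (x + a) - D (fun x => f (x + b) - f x) l x := ih _ _
      _ = D f (b :: l) (x + a) - D f (b :: l) x := rfl

/-- All iterated differences of length `r` vanish. -/
def Van (f : (Fin d → ℝ) → ℝ) (r : ℕ) : Prop := ∀ l : List (Fin d → ℝ), l.length = r → ∀ x, D f l x = 0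

theorem Van.succ {f : (Fin d → ℝ) → ℝ} {r : ℕ} (h : Van f r) : Van f (r + 1) := by
  intro l hl x
  rcases l with _ | ⟨a, l⟩
  · simp at hl
  · rw [D_cons, h l (by simpa using hl), h l (by simpa using hl), sub_zero]

/-- Independence of the base point. -/
theorem D_indep {f : (Fin d → ℝ) → ℝ} {r : ℕ} (h : Van f (r + 1)) (l : List (Fin d → ℝ))
    (hl : l.length = r) (x y : Fin d → ℝ) : D f l x = D f l y := by
  have h1 : ∀ (a x : Fin d → ℝ), D f l (x + a) = D f l x := fun a x => by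
    have := h (a :: l) (by simp [hl]) x
    rw [D_cons] at this
    linarith
  have := h1 (y - x) x
  rw [add_sub_cancel] at this
  exact this.symm

/-- Additivity in the first step. -/
theorem D_add_head {f : (Fin d → ℝ) → ℝ} {r : ℕ} (h : Van f (r + 2)) (a a' : Fin d → ℝ)
    (l : List (Fin d → ℝ)) (hl : l.length = r) (x : Fin d → ℝ) :
    D f ((a + a') :: l) x = D f (a :: l) x + D f (a' :: l) x := by
  have hi := D_indep h (a :: l) (by simp [hl]) (x + a') x
  rw [← hi, D_cons, D_cons, D_cons]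
  rw [← add_assoc, add_right_comm x a' a, add_assoc x a a', add_comm a a', ← add_assoc]
  ring

theorem D_nsmul_head {f : (Fin d → ℝ) → ℝ} {r : ℕ} (h : Van f (r + 2)) (N : ℕ) (a : Fin d → ℝ)
    (l : List (Fin d → ℝ)) (hl : l.length = r) (x : Fin d → ℝ) :
    D f ((N • a) :: l) x = (N : ℝ) * D f (a :: l) x := by
  induction N with
  | zero =>
    simp only [zero_smul, Nat.cast_zero, zero_mul]
    rw [D_cons, add_zero, sub_self]
  | succ N ih =>
    rw [succ_nsmul, D_add_head h _ _ l hl, ih]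
    push_cast
    ring

/-- Differences of differences. -/
theorem Van.delta {f : (Fin d → ℝ) → ℝ} {r : ℕ} (h : Van f (r + 1)) (a : Fin d → ℝ) :
    Van (fun x => f (x + a) - f x) r := fun l hl x => h (a :: l) (by simp [hl]) x

/-- Scaling all the steps. -/
theorem D_scale (N : ℕ) : ∀ (r : ℕ) (f : (Fin d → ℝ) → ℝ), Van f (r + 1) →
    ∀ (l : List (Fin d → ℝ)), l.length = r → ∀ x,
      D f (l.map (fun a => N • a)) x = (N : ℝ) ^ r * D f l x
  | 0, f, _, l, hl, x => by
    have : l = [] := List.length_eq_zero_iff.mp hl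
    subst this
    simp [D]
  | r + 1, f, h, l, hl, x => by
    rcases l with _ | ⟨a, l⟩
    · simp at hl
    · have hlen : l.length = r := by simpa using hl
      have h1 : D f ((N • a) :: l.map (fun a => N • a)) x =
          (N : ℝ) * D f (a :: l.map (fun a => N • a)) x :=
        D_nsmul_head h N a _ (by simpa using hlen) x
      rw [List.map_cons, h1]
      have h2 : D f (a :: l.map (fun a => N • a)) x =
          D (fun x => f (x + a) - f x) (l.map (fun a => N • a)) x := rfl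
      rw [h2, D_scale N r _ (h.delta a) l hlen x]
      have h3 : D (fun x => f (x + a) - f x) l x = D f (a :: l) x := rfl
      rw [h3]
      ring

/-- The size bound for iterated differences. -/
theorem D_bound {f : (Fin d → ℝ) → ℝ} {C : ℝ} (hC : 0 ≤ C) (hb : ∀ v, |f v| ≤ C * q v)
    (l : List (Fin d → ℝ)) (x : Fin d → ℝ) :
    |D f l x| ≤ 3 ^ l.length * C * (q x + (l.map q).sum) := by
  induction l generalizing x with
  | nil => simpa [D] using hb x
  | cons a l ih =>
    rw [D_cons]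
    have h1 := ih (x + a)
    have h2 := ih x
    have h3 := q_add_le x a
    have hs : 0 ≤ (l.map q).sum := List.sum_nonneg (by
      intro y hy
      obtain ⟨z, -, rfl⟩ := List.mem_map.mp hy
      exact q_nonneg z)
    have hqx := q_nonneg x
    have hqa := q_nonneg a
    have hK : 0 ≤ (3 : ℝ) ^ l.length * C := by positivity
    have h4 : |D f l (x + a) - D f l x| ≤ |D f l (x + a)| + |D f l x| := abs_sub _ _
    simp only [List.length_cons, List.map_cons, List.sum_cons]
    have h5 : (3 : ℝ) ^ l.length * C * (q (x + a) + (l.map q).sum) ≤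
        (3 : ℝ) ^ l.length * C * (2 * q x + 2 * q a + (l.map q).sum) :=
      mul_le_mul_of_nonneg_left (by linarith) hK
    have h6 : (3 : ℝ) ^ l.length * C * (2 * q x + 2 * q a + (l.map q).sum) +
        (3 : ℝ) ^ l.length * C * (q x + (l.map q).sum) ≤
        (3 : ℝ) ^ (l.length + 1) * C * (q x + (q a + (l.map q).sum)) := by
      rw [pow_succ]
      have : 0 ≤ (3 : ℝ) ^ l.length * C * (q a + (l.map q).sum) := by positivity
      nlinarith
    linarith

/-- Descent: if differences of length `r + 1`, `r ≥ 3`, vanish then those of length `r` vanish. -/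
theorem Van.descent {f : (Fin d → ℝ) → ℝ} {C : ℝ} (hC : 0 ≤ C) (hb : ∀ v, |f v| ≤ C * q v) {r : ℕ}
    (hr : 3 ≤ r) (h : Van f (r + 1)) : Van f r := by
  intro l hl x
  have hx : D f l x = D f l 0 := D_indep h l hl x 0
  rw [hx]
  by_contra hne
  have hpos : 0 < |D f l 0| := abs_pos.mpr hne
  set K : ℝ := 3 ^ l.length * C * (l.map q).sum with hK
  have hsum : ∀ (N : ℕ) (l : List (Fin d → ℝ)), ((l.map (fun a => N • a)).map q).sum =
      (N : ℝ) ^ 2 * (l.map q).sum := by
    intro N l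
    induction l with
    | nil => simp
    | cons a l ih =>
      simp only [List.map_cons, List.sum_cons] at ih ⊢
      rw [ih, q_nsmul]
      ring
  obtain ⟨N, hN⟩ := exists_nat_gt (K / |D f l 0|)
  have hN1 : (0 : ℝ) < N := lt_of_le_of_lt (by
    apply div_nonneg _ hpos.le
    apply mul_nonneg (by positivity)
    exact List.sum_nonneg (by
      intro y hy
      obtain ⟨z, -, rfl⟩ := List.mem_map.mp hy
      exact q_nonneg z)) hN
  have hN1' : (1 : ℝ) ≤ N := by exact_mod_cast (Nat.cast_pos.mp hN1)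
  have h1 := D_scale N r f h l hl 0
  have h2 := D_bound hC hb (l.map (fun a => N • a)) 0
  rw [h1, q_zero, zero_add, hsum, List.length_map, abs_mul, abs_of_nonneg (by positivity)] at h2
  have h3 : (N : ℝ) ^ 3 ≤ (N : ℝ) ^ r := pow_le_pow_right₀ hN1' hr
  have h4 : (N : ℝ) ^ 3 * |D f l 0| ≤ (N : ℝ) ^ 2 * K := by
    calc (N : ℝ) ^ 3 * |D f l 0| ≤ (N : ℝ) ^ r * |D f l 0| :=
          mul_le_mul_of_nonneg_right h3 hpos.le
      _ ≤ 3 ^ l.length * C * ((N : ℝ) ^ 2 * (l.map q).sum) := h2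
      _ = (N : ℝ) ^ 2 * K := by rw [hK]; ring
  have h5 : (N : ℝ) * |D f l 0| ≤ K := by
    have hN2 : (0 : ℝ) < (N : ℝ) ^ 2 := by positivity
    have : (N : ℝ) ^ 2 * ((N : ℝ) * |D f l 0|) ≤ (N : ℝ) ^ 2 * K := by
      calc (N : ℝ) ^ 2 * ((N : ℝ) * |D f l 0|) = (N : ℝ) ^ 3 * |D f l 0| := by ring
        _ ≤ _ := h4
    exact le_of_mul_le_mul_left this hN2
  rw [div_lt_iff₀ hpos] at hN
  linarith

/-- Hence the threefold differences vanish. -/
theorem van_three {f : (Fin d → ℝ) → ℝ} {C : ℝ} (hC : 0 ≤ C) (hb : ∀ v, |f v| ≤ C * q v) :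
    ∀ K, Van f K → Van f 3
  | 0, h => h.succ.succ.succ
  | 1, h => h.succ.succ
  | 2, h => h.succ
  | 3, h => h
  | K + 4, h => van_three hC hb (K + 3) (h.descent hC hb (by omega))

/-- The polarisation of `nu`. -/
def Bi (nu : (Fin d → ℝ) → ℝ) (u w : Fin d → ℝ) : ℝ := nu (u + w) - nu u - nu w

theorem Bi_comm (nu : (Fin d → ℝ) → ℝ) (u w : Fin d → ℝ) : Bi nu u w = Bi nu w u := by
  unfold Bi
  rw [add_comm u w]
  ring

section Quad

variable {nu : (Fin d → ℝ) → ℝ} {C : ℝ}

theorem nu_zero (hb : ∀ v, |nu v| ≤ C * q v) : nu 0 = 0 := by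
  have := hb 0
  rw [q_zero, mul_zero] at this
  exact abs_eq_zero.mp (le_antisymm this (abs_nonneg _))

theorem Bi_eq_D (hb : ∀ v, |nu v| ≤ C * q v) (u w : Fin d → ℝ) : Bi nu u w = D nu [u, w] 0 := by
  rw [D_cons, D_cons, D_cons]
  simp only [D, zero_add, nu_zero hb, Bi]
  ring

theorem Bi_add_left (hb : ∀ v, |nu v| ≤ C * q v) (h3 : Van nu 3) (u u' w : Fin d → ℝ) :
    Bi nu (u + u') w = Bi nu u w + Bi nu u' w := by
  rw [Bi_eq_D hb, Bi_eq_D hb, Bi_eq_D hb]
  exact D_add_head (r := 1) h3 u u' [w] rfl 0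

theorem Bi_add_right (hb : ∀ v, |nu v| ≤ C * q v) (h3 : Van nu 3) (u w w' : Fin d → ℝ) :
    Bi nu u (w + w') = Bi nu u w + Bi nu u w' := by
  rw [Bi_comm, Bi_add_left hb h3, Bi_comm nu w, Bi_comm nu w']

/-- The map in the first slot as an additive map. -/
def BiL (hb : ∀ v, |nu v| ≤ C * q v) (h3 : Van nu 3) (w : Fin d → ℝ) : (Fin d → ℝ) →+ ℝ :=
  AddMonoidHom.mk' (fun u => Bi nu u w) (fun u u' => Bi_add_left hb h3 u u' w)

theorem BiL_apply (hb : ∀ v, |nu v| ≤ C * q v) (h3 : Van nu 3) (w u : Fin d → ℝ) :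
    BiL hb h3 w u = Bi nu u w := rfl

theorem Bi_bound (hC : 0 ≤ C) (hb : ∀ v, |nu v| ≤ C * q v) (u w : Fin d → ℝ) :
    |Bi nu u w| ≤ 3 * C * q u + 3 * C * q w := by
  unfold Bi
  have h1 := hb (u + w)
  have h2 := hb u
  have h3 := hb w
  have h4 := q_add_le u w
  have h5 : C * q (u + w) ≤ C * (2 * q u + 2 * q w) := mul_le_mul_of_nonneg_left h4 hC
  have h6 := abs_sub (nu (u + w) - nu u) (nu w)
  have h7 := abs_sub (nu (u + w)) (nu u)
  nlinarith

theorem Bi_nsmul_left (hb : ∀ v, |nu v| ≤ C * q v) (h3 : Van nu 3) (N : ℕ) (u w : Fin d → ℝ) :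
    Bi nu (N • u) w = (N : ℝ) * Bi nu u w := by
  have := map_nsmul (BiL hb h3 w) N u
  simpa [BiL_apply] using this

theorem Bi_nsmul_right (hb : ∀ v, |nu v| ≤ C * q v) (h3 : Van nu 3) (N : ℕ) (u w : Fin d → ℝ) :
    Bi nu u (N • w) = (N : ℝ) * Bi nu u w := by
  rw [Bi_comm, Bi_nsmul_left hb h3, Bi_comm]

theorem continuous_q : Continuous (q : (Fin d → ℝ) → ℝ) := by
  unfold q
  exact continuous_finsetSum _ fun p _ => (continuous_apply p).pow 2

theorem BiL_continuous (hC : 0 ≤ C) (hb : ∀ v, |nu v| ≤ C * q v) (h3 : Van nu 3)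
    (w : Fin d → ℝ) : Continuous (BiL hb h3 w) := by
  apply continuous_of_continuousAt_zero (BiL hb h3 w)
  rw [ContinuousAt, map_zero, Metric.tendsto_nhds]
  intro ε hε
  obtain ⟨N, hN⟩ := exists_nat_gt (6 * C * q w / ε + 1)
  have hqw := q_nonneg w
  have hN0 : (1 : ℝ) < N := by
    have : 0 ≤ 6 * C * q w / ε := by positivity
    linarith
  have hNpos : (0 : ℝ) < N := by linarith
  have ht : Filter.Tendsto (fun u => 3 * C * (N : ℝ) ^ 2 * q u) (nhds 0)
      (nhds (3 * C * (N : ℝ) ^ 2 * q (0 : Fin d → ℝ))) :=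
    ((continuous_q (d := d)).tendsto 0).const_mul _
  rw [q_zero, mul_zero] at ht
  have hev := ht.eventually (Iio_mem_nhds (show (0 : ℝ) < ε / 2 by positivity))
  filter_upwards [hev] with u hu
  rw [Real.dist_eq, sub_zero, BiL_apply]
  have hNne : (N : ℝ) ≠ 0 := hNpos.ne'
  let w' : Fin d → ℝ := (N : ℝ)⁻¹ • w
  have hw' : N • w' = w := by
    ext p
    simp [w', hNne]
  have e : Bi nu u w = Bi nu (N • u) w' := by
    rw [Bi_nsmul_left hb h3]
    conv_lhs => rw [← hw']
    rw [Bi_nsmul_right hb h3]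
  rw [e]
  have hb1 := Bi_bound hC hb (N • u) w'
  rw [q_nsmul] at hb1
  have hqw' : q w' = ((N : ℝ)⁻¹) ^ 2 * q w := q_smul _ _
  rw [hqw'] at hb1
  have hu' : 3 * C * (N : ℝ) ^ 2 * q u < ε / 2 := hu
  have h2 : 3 * C * (((N : ℝ)⁻¹) ^ 2 * q w) < ε / 2 := by
    have h6 : 6 * C * q w < (N : ℝ) * ε := by
      have : 6 * C * q w / ε < N := by linarith
      rwa [div_lt_iff₀ hε] at this
    have h7 : ((N : ℝ)⁻¹) ^ 2 ≤ (N : ℝ)⁻¹ := by
      have h8 : (N : ℝ)⁻¹ ≤ 1 := inv_le_one_of_one_le₀ hN0.le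
      have h9 : 0 ≤ (N : ℝ)⁻¹ := by positivity
      nlinarith
    have h10 : 3 * C * (((N : ℝ)⁻¹) ^ 2 * q w) ≤ 3 * C * ((N : ℝ)⁻¹ * q w) := by
      apply mul_le_mul_of_nonneg_left _ (by positivity)
      exact mul_le_mul_of_nonneg_right h7 hqw
    have h11 : 3 * C * ((N : ℝ)⁻¹ * q w) = (6 * C * q w) / N / 2 := by
      field_simp
      ring
    have h12 : (6 * C * q w) / N < ε := by
      rw [div_lt_iff₀ hNpos]
      linarith
    rw [h11] at h10
    linarith
  have h3' : 3 * C * ((N : ℝ) ^ 2 * q u) = 3 * C * (N : ℝ) ^ 2 * q u := by ring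
  rw [h3'] at hb1
  linarith

/-- The polarisation is real linear in the first slot. -/
theorem Bi_smul_left (hC : 0 ≤ C) (hb : ∀ v, |nu v| ≤ C * q v) (h3 : Van nu 3) (c : ℝ)
    (u w : Fin d → ℝ) : Bi nu (c • u) w = c * Bi nu u w := by
  have := map_real_smul (BiL hb h3 w) (BiL_continuous hC hb h3 w) c u
  simpa [BiL_apply] using this

/-- `nu` is half of its polarisation on the diagonal. -/
theorem nu_eq_half (hC : 0 ≤ C) (hb : ∀ v, |nu v| ≤ C * q v) (h3 : Van nu 3) (v : Fin d → ℝ) :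
    nu v = Bi nu v v / 2 := by
  -- additivity of the defect
  have hadd : ∀ u w : Fin d → ℝ, nu (u + w) - Bi nu (u + w) (u + w) / 2 =
      (nu u - Bi nu u u / 2) + (nu w - Bi nu w w / 2) := by
    intro u w
    rw [Bi_add_left hb h3, Bi_add_right hb h3, Bi_add_right hb h3, Bi_comm nu w u]
    have : Bi nu u w = nu (u + w) - nu u - nu w := rfl
    rw [this]
    ring
  let ell : (Fin d → ℝ) →+ ℝ :=
    AddMonoidHom.mk' (fun u => nu u - Bi nu u u / 2) hadd
  have hell : ∀ u, ell u = nu u - Bi nu u u / 2 := fun _ => rfl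
  have hbound : ∀ u, |ell u| ≤ 4 * C * q u := by
    intro u
    rw [hell]
    have h1 := hb u
    have h2 := Bi_bound hC hb u u
    have h4 := abs_sub (nu u) (Bi nu u u / 2)
    have h5 : |Bi nu u u / 2| = |Bi nu u u| / 2 := by
      rw [abs_div, abs_of_pos (by norm_num : (0 : ℝ) < 2)]
    rw [h5] at h4
    linarith
  suffices hz : ell v = 0 by
    rw [hell] at hz
    linarith
  by_contra hne
  have hpos : 0 < |ell v| := abs_pos.mpr hne
  have hqv := q_nonneg v
  obtain ⟨N, hN⟩ := exists_nat_gt (4 * C * q v / |ell v|)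
  have hNpos : (0 : ℝ) < N := lt_of_le_of_lt (by positivity) hN
  have hNne : (N : ℝ) ≠ 0 := hNpos.ne'
  let v' : Fin d → ℝ := (N : ℝ)⁻¹ • v
  have hv' : N • v' = v := by
    ext p
    simp [v', hNne]
  have h1 : ell v = (N : ℝ) * ell v' := by
    conv_lhs => rw [← hv']
    rw [map_nsmul, nsmul_eq_mul]
  have h2 := hbound v'
  have h3' : q v' = ((N : ℝ)⁻¹) ^ 2 * q v := q_smul _ _
  rw [h3'] at h2
  have h4 : |ell v| ≤ 4 * C * q v / N := by
    rw [h1, abs_mul, abs_of_pos hNpos]
    calc (N : ℝ) * |ell v'| ≤ (N : ℝ) * (4 * C * (((N : ℝ)⁻¹) ^ 2 * q v)) :=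
          mul_le_mul_of_nonneg_left h2 hNpos.le
      _ = 4 * C * q v / N := by
          field_simp
  rw [div_lt_iff₀ hpos] at hN
  rw [le_div_iff₀ hNpos] at h4
  linarith

end Quad

/-- Shift invariance passes to differences. -/
theorem D_invariant {w : Fin d → ℝ} (l : List (Fin d → ℝ)) :
    ∀ (g : (Fin d → ℝ) → ℝ), (∀ x, g (x + w) = g x) → ∀ x, D g l (x + w) = D g l x := by
  induction l with
  | nil => exact fun g h x => h x
  | cons a l ih =>
    intro g h x
    have h' : ∀ x, (fun x => g (x + a) - g x) (x + w) = (fun x => g (x + a) - g x) x := by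
      intro y
      simp only
      rw [add_right_comm y w a, h, h]
    exact ih _ h' x

/-- A difference along a step which leaves `g` invariant vanishes. -/
theorem D_eq_zero_of_invariant (g : (Fin d → ℝ) → ℝ) (w : Fin d → ℝ) (h : ∀ x, g (x + w) = g x)
    (l1 l2 : List (Fin d → ℝ)) (x : Fin d → ℝ) : D g (l1 ++ w :: l2) x = 0 := by
  induction l1 generalizing g with
  | nil =>
    simp only [List.nil_append]
    rw [D_cons, D_invariant l2 g h x, sub_self]
  | cons a l1 ih =>
    have h' : ∀ x, (fun x => g (x + a) - g x) (x + w) = (fun x => g (x + a) - g x) x := by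
      intro y
      simp only
      rw [add_right_comm y w a, h, h]
    exact ih _ h'

/-- **The theorem.**  If all differences of some length vanish and `nu` is bounded by a multiple of
the squared norm, then `nu` is a quadratic form. -/
theorem quadratic_of_frechet (nu : (Fin d → ℝ) → ℝ) (K : ℕ)
    (hF : ∀ l : List (Fin d → ℝ), l.length = K → ∀ x, D nu l x = 0) (C : ℝ)
    (hb : ∀ v, |nu v| ≤ C * ∑ p, v p ^ 2) :
    ∃ B : Matrix (Fin d) (Fin d) ℝ, B.IsSymm ∧ ∀ v, nu v = ∑ p, ∑ j, B p j * v p * v j := by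
  classical
  have hb' : ∀ v, |nu v| ≤ |C| * q v := fun v => by
    have h1 := hb v
    have h2 : C * ∑ p, v p ^ 2 ≤ |C| * q v :=
      mul_le_mul_of_nonneg_right (le_abs_self C) (q_nonneg v)
    linarith
  have hC := abs_nonneg C
  have h3 : Van nu 3 := van_three hC hb' K hF
  let e : Fin d → (Fin d → ℝ) := fun p => Pi.single p 1
  have hv : ∀ v : Fin d → ℝ, v = ∑ p, v p • e p := by
    intro v
    ext j
    simp [e, Finset.sum_apply, Pi.single_apply]
  -- linear map in the first slot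
  let L : (Fin d → ℝ) → ((Fin d → ℝ) →ₗ[ℝ] ℝ) := fun w =>
    { toFun := fun u => Bi nu u w
      map_add' := fun u u' => Bi_add_left hb' h3 u u' w
      map_smul' := fun c u => by
        simpa using Bi_smul_left hC hb' h3 c u w }
  have hL : ∀ w u, L w u = Bi nu u w := fun _ _ => rfl
  have hexp1 : ∀ u w : Fin d → ℝ, Bi nu u w = ∑ p, u p * Bi nu (e p) w := by
    intro u w
    rw [← hL]
    conv_lhs => rw [hv u]
    rw [map_sum]
    refine sum_congr rfl fun p _ => ?_
    rw [map_smul, hL, smul_eq_mul]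
  have hexp2 : ∀ v : Fin d → ℝ, Bi nu v v = ∑ p, ∑ j, Bi nu (e p) (e j) * v p * v j := by
    intro v
    rw [hexp1 v v]
    refine sum_congr rfl fun p _ => ?_
    rw [Bi_comm nu (e p) v, hexp1 v (e p), mul_sum]
    refine sum_congr rfl fun j _ => ?_
    rw [Bi_comm nu (e p) (e j)]
    ring
  refine ⟨Matrix.of fun p j => Bi nu (e p) (e j) / 2, ?_, fun v => ?_⟩
  · exact Matrix.IsSymm.ext fun p j => by
      simp only [Matrix.of_apply]
      rw [Bi_comm]
  · rw [nu_eq_half hC hb' h3 v, hexp2 v, sum_div]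
    refine sum_congr rfl fun p _ => ?_
    rw [sum_div]
    refine sum_congr rfl fun j _ => ?_
    simp only [Matrix.of_apply]
    ring

end Vale.Agent.Lib.P058S.F5
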