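import Mathlib

/-!
# Functions with vanishing higher differences and quadratic growth are quadratic forms
-/

set_option linter.unusedVariables false

namespace Vale.Agent.Lib.P058S.FH

open Finset

variable {d : ℕ}

/-- Iterated differences along a list. -/
def D (nu : (Fin d → ℝ) → ℝ) : List (Fin d → ℝ) → (Fin d → ℝ) → ℝ
  | [] => nu
  | a :: l => D (fun x => nu (x + a) - nu x) l

/-- One difference. -/
def Dl (a : Fin d → ℝ) (g : (Fin d → ℝ) → ℝ) : (Fin d → ℝ) → ℝ := fun x => g (x + a) - g x

theorem D_cons (g : (Fin d → ℝ) → ℝ) (a : Fin d → ℝ) (l : List (Fin d → ℝ)) :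
    D g (a :: l) = D (Dl a g) l := rfl

theorem Dl_comm (a b : Fin d → ℝ) (g : (Fin d → ℝ) → ℝ) : Dl a (Dl b g) = Dl b (Dl a g) := by
  funext x
  simp only [Dl]
  rw [add_right_comm x a b]
  ring

theorem D_Dl (a : Fin d → ℝ) (l : List (Fin d → ℝ)) : ∀ g : (Fin d → ℝ) → ℝ,
    D (Dl a g) l = Dl a (D g l) := by
  induction l with
  | nil => intro g; rfl
  | cons b l ih =>
    intro g
    rw [D_cons, D_cons, Dl_comm b a, ih]

theorem D_insert (g : (Fin d → ℝ) → ℝ) (l1 l2 : List (Fin d → ℝ)) (b : Fin d → ℝ) :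
    D g (l1 ++ b :: l2) = Dl b (D g (l1 ++ l2)) := by
  induction l1 generalizing g with
  | nil =>
    rw [List.nil_append, List.nil_append, D_cons, D_Dl]
  | cons c l1 ih =>
    rw [List.cons_append, List.cons_append, D_cons, D_cons, ih]

theorem D_zero (l : List (Fin d → ℝ)) : D (fun _ => (0 : ℝ)) l = fun _ => 0 := by
  induction l with
  | nil => rfl
  | cons a l ih =>
    rw [D_cons]
    have : Dl a (fun _ : Fin d → ℝ => (0 : ℝ)) = fun _ => 0 := by
      funext x
      simp [Dl]
    rw [this, ih]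

/-- Iterated differences vanish along a period. -/
theorem D_eq_zero_of_invariant (g : (Fin d → ℝ) → ℝ) (w : Fin d → ℝ) (h : ∀ x, g (x + w) = g x)
    (l1 l2 : List (Fin d → ℝ)) (x : Fin d → ℝ) : D g (l1 ++ w :: l2) x = 0 := by
  rw [D_insert, ← D_Dl]
  have : Dl w g = fun _ => 0 := by
    funext y
    simp [Dl, h]
  rw [this, D_zero]

/-- The square of the Euclidean norm. -/
def nsq (v : Fin d → ℝ) : ℝ := ∑ p, v p ^ 2

theorem nsq_smul (t : ℝ) (v : Fin d → ℝ) : nsq (t • v) = t ^ 2 * nsq v := by
  simp only [nsq, Pi.smul_apply, smul_eq_mul, mul_pow, mul_sum]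

theorem nsq_nonneg (v : Fin d → ℝ) : 0 ≤ nsq v := sum_nonneg fun _ _ => sq_nonneg _

theorem nsq_add_le (v w : Fin d → ℝ) : nsq (v + w) ≤ 2 * nsq v + 2 * nsq w := by
  simp only [nsq, Pi.add_apply, mul_sum, ← sum_add_distrib]
  exact sum_le_sum fun p _ => by nlinarith [sq_nonneg (v p - w p)]

section Growth

variable {nu : (Fin d → ℝ) → ℝ} {C : ℝ}

theorem D_growth (hb : ∀ v, |nu v| ≤ C * nsq v) (l : List (Fin d → ℝ)) :
    ∀ x0 : Fin d → ℝ, ∃ A : ℝ, ∀ N : ℕ,
      |D nu (l.map fun a => (N : ℝ) • a) ((N : ℝ) • x0)| ≤ A * (N : ℝ) ^ 2 := by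
  induction l with
  | nil =>
    intro x0
    refine ⟨C * nsq x0, fun N => ?_⟩
    have := hb ((N : ℝ) • x0)
    rw [nsq_smul] at this
    simp only [List.map_nil, D]
    calc |nu ((N : ℝ) • x0)| ≤ C * ((N : ℝ) ^ 2 * nsq x0) := this
      _ = C * nsq x0 * (N : ℝ) ^ 2 := by ring
  | cons a l ih =>
    intro x0
    obtain ⟨A1, h1⟩ := ih (x0 + a)
    obtain ⟨A2, h2⟩ := ih x0
    refine ⟨A1 + A2, fun N => ?_⟩
    have e : D nu ((a :: l).map fun a => (N : ℝ) • a) ((N : ℝ) • x0) =
        D nu (l.map fun a => (N : ℝ) • a) ((N : ℝ) • (x0 + a)) -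
          D nu (l.map fun a => (N : ℝ) • a) ((N : ℝ) • x0) := by
      rw [List.map_cons, D_cons, D_Dl]
      simp only [Dl, smul_add]
    rw [e]
    have := abs_sub (D nu (l.map fun a => (N : ℝ) • a) ((N : ℝ) • (x0 + a)))
      (D nu (l.map fun a => (N : ℝ) • a) ((N : ℝ) • x0))
    have h3 := h1 N
    have h4 := h2 N
    nlinarith

/-- One slot scales when one more difference vanishes. -/
theorem D_scale_slot {m : ℕ}
    (hP : ∀ l : List (Fin d → ℝ), l.length = m + 1 → ∀ x, D nu l x = 0)
    (l1 l2 : List (Fin d → ℝ)) (hlen : l1.length + l2.length + 1 = m) (a : Fin d → ℝ) (N : ℕ)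
    (x : Fin d → ℝ) :
    D nu (l1 ++ ((N : ℝ) • a) :: l2) x = N * D nu (l1 ++ a :: l2) x := by
  -- G is the difference without the slot
  have hconst : ∀ y, Dl a (D nu (l1 ++ l2)) y = Dl a (D nu (l1 ++ l2)) x := by
    have h0 : ∀ c y, Dl a (D nu (l1 ++ l2)) (y + c) - Dl a (D nu (l1 ++ l2)) y = 0 := by
      intro c y
      have h1 := hP (c :: (l1 ++ a :: l2)) (by simp; omega) y
      rw [D_cons, D_Dl, D_insert] at h1
      exact h1
    intro y
    have h1 := h0 (y - x) x
    rw [add_sub_cancel] at h1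
    linarith
  rw [D_insert, D_insert]
  induction N with
  | zero =>
    simp [Dl]
  | succ n ih =>
    have e : (x + ((n + 1 : ℕ) : ℝ) • a) = (x + (n : ℝ) • a) + a := by
      push_cast
      rw [add_smul, one_smul, add_assoc]
    have h1 := hconst (x + (n : ℝ) • a)
    simp only [Dl] at h1 ih ⊢
    rw [e]
    push_cast
    linarith

/-- All slots scale. -/
theorem D_scale_all {m : ℕ}
    (hP : ∀ l : List (Fin d → ℝ), l.length = m + 1 → ∀ x, D nu l x = 0) (N : ℕ)
    (x : Fin d → ℝ) (pre : List (Fin d → ℝ)) : ∀ post : List (Fin d → ℝ),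
      pre.length + post.length = m →
      D nu ((pre.map fun a => (N : ℝ) • a) ++ post) x =
        (N : ℝ) ^ pre.length * D nu (pre ++ post) x := by
  induction pre using List.reverseRecOn with
  | nil => intro post _; simp
  | append_singleton p a ih =>
    intro post hlen
    simp only [List.length_append, List.length_singleton] at hlen
    have e1 : ((p ++ [a]).map fun a => (N : ℝ) • a) ++ post =
        (p.map fun a => (N : ℝ) • a) ++ ((N : ℝ) • a) :: post := by simp
    have e2 : p ++ [a] ++ post = p ++ a :: post := by simp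
    rw [e1, e2, D_scale_slot hP _ _ (by simp; omega) a N x, ih (a :: post) (by simp; omega)]
    simp only [List.length_append, List.length_singleton]
    ring

/-- Elimination: vanishing differences of order `m + 1` force those of order `m`, for `m ≥ 3`. -/
theorem elim {m : ℕ} (hm : 3 ≤ m) (hb : ∀ v, |nu v| ≤ C * nsq v)
    (hP : ∀ l : List (Fin d → ℝ), l.length = m + 1 → ∀ x, D nu l x = 0) :
    ∀ l : List (Fin d → ℝ), l.length = m → ∀ x, D nu l x = 0 := by
  intro l hl x
  -- independence of the base point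
  have hconst : ∀ y, D nu l y = D nu l 0 := by
    have h0 : ∀ c y, D nu l (y + c) - D nu l y = 0 := by
      intro c y
      have h1 := hP (c :: l) (by simp [hl]) y
      rw [D_cons, D_Dl] at h1
      exact h1
    intro y
    have h1 := h0 y 0
    rw [zero_add] at h1
    linarith
  rw [hconst x]
  obtain ⟨A, hA⟩ := D_growth hb l 0
  by_contra hne
  have hpos : 0 < |D nu l 0| := abs_pos.mpr hne
  obtain ⟨N, hN⟩ := exists_nat_gt (max 1 (A / |D nu l 0|))
  have hN1 : (1 : ℝ) < N := lt_of_le_of_lt (le_max_left _ _) hN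
  have hN2 : A < N * |D nu l 0| := by
    have := lt_of_le_of_lt (le_max_right _ _) hN
    rwa [div_lt_iff₀ hpos] at this
  have hsc := D_scale_all hP N 0 l [] (by simp [hl])
  simp only [List.append_nil] at hsc
  have h1 := hA N
  rw [smul_zero, hsc, abs_mul, abs_of_nonneg (by positivity), hl] at h1
  have hpow : (N : ℝ) ^ 3 ≤ (N : ℝ) ^ m := pow_le_pow_right₀ hN1.le hm
  have h2 : (N : ℝ) ^ 3 * |D nu l 0| ≤ A * (N : ℝ) ^ 2 :=
    (mul_le_mul_of_nonneg_right hpow hpos.le).trans h1
  have hN2pos : (0 : ℝ) < (N : ℝ) ^ 2 := by positivity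
  nlinarith

/-- Vanishing of some order gives the vanishing of order three. -/
theorem third_vanish (hb : ∀ v, |nu v| ≤ C * nsq v) (K : ℕ)
    (hF : ∀ l : List (Fin d → ℝ), l.length = K → ∀ x, D nu l x = 0) :
    ∀ l : List (Fin d → ℝ), l.length = 3 → ∀ x, D nu l x = 0 := by
  -- upward closure
  have hup : ∀ j : ℕ, ∀ l : List (Fin d → ℝ), l.length = K + j → ∀ x, D nu l x = 0 := by
    intro j
    induction j with
    | zero => simpa using hF
    | succ j ih =>
      intro l hl x
      cases l with
      | nil => simp at hl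
      | cons a l =>
        rw [D_cons, D_Dl]
        simp only [Dl]
        have hl' : l.length = K + j := by
          simp only [List.length_cons] at hl
          omega
        rw [ih l hl', ih l hl', sub_self]
  -- downward induction
  have hdown : ∀ t : ℕ, ∀ l : List (Fin d → ℝ), l.length = 3 + (K - t) → ∀ x, D nu l x = 0 := by
    intro t
    induction t with
    | zero =>
      intro l hl x
      obtain ⟨j, hj⟩ : ∃ j, l.length = K + j := ⟨3, by omega⟩
      exact hup j l hj x
    | succ t ih =>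
      by_cases ht : K - t = K - (t + 1)
      · rw [← ht]
        exact ih
      · have hk : K - t = (K - (t + 1)) + 1 := by omega
        intro l hl
        refine elim (m := 3 + (K - (t + 1))) (by omega) hb ?_ l hl
        intro l' hl' x
        exact ih l' (by omega) x
  have := hdown K
  simpa using this

end Growth

/-- An additive function bounded near zero is linear. -/
theorem additive_bdd_linear (f : ℝ → ℝ) (hadd : ∀ s t, f (s + t) = f s + f t) (K : ℝ)
    (hb : ∀ t, |t| ≤ 1 → |f t| ≤ K) : ∀ t, f t = t * f 1 := by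
  let F : ℝ →+ ℝ := AddMonoidHom.mk' f hadd
  have hK : 0 ≤ K := (abs_nonneg _).trans (hb 0 (by simp))
  have hnat : ∀ (n : ℕ) (t : ℝ), f (n * t) = n * f t := by
    intro n t
    have := map_nsmul F n t
    simpa [F] using this
  have hcont : Continuous F := by
    refine continuous_of_continuousAt_zero F ?_
    rw [Metric.continuousAt_iff]
    intro ε hε
    obtain ⟨N, hN⟩ := exists_nat_gt (K / ε)
    have hNpos : (0 : ℝ) < N := lt_of_le_of_lt (div_nonneg hK hε.le) hN
    refine ⟨1 / N, by positivity, fun t ht => ?_⟩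
    have hF0 : F 0 = 0 := map_zero F
    rw [hF0, Real.dist_eq, sub_zero]
    rw [Real.dist_eq, sub_zero, lt_div_iff₀ hNpos] at ht
    have h1 : |(N : ℝ) * t| ≤ 1 := by
      rw [abs_mul, abs_of_pos hNpos]
      linarith
    have h2 := hb _ h1
    rw [hnat, abs_mul, abs_of_pos hNpos] at h2
    have hFt : F t = f t := rfl
    rw [hFt]
    rw [div_lt_iff₀ hε] at hN
    nlinarith
  intro t
  have := map_real_smul F hcont t 1
  simpa [F] using this

section Main

variable {nu : (Fin d → ℝ) → ℝ} {C : ℝ}

/-- The polar form. -/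
def Bi (nu : (Fin d → ℝ) → ℝ) (a b : Fin d → ℝ) : ℝ := nu (a + b) - nu a - nu b

theorem Bi_comm (a b : Fin d → ℝ) : Bi nu a b = Bi nu b a := by
  simp only [Bi, add_comm a b]
  ring

/-- Functions with quadratic growth and a vanishing iterated difference are quadratic forms. -/
theorem quadratic_of_frechet (K : ℕ)
    (hF : ∀ l : List (Fin d → ℝ), l.length = K → ∀ x, D nu l x = 0) (C : ℝ)
    (hb : ∀ v, |nu v| ≤ C * ∑ p, v p ^ 2) :
    ∃ B : Matrix (Fin d) (Fin d) ℝ, B.IsSymm ∧ ∀ v, nu v = ∑ p, ∑ q, B p q * v p * v q := by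
  have hb' : ∀ v, |nu v| ≤ C * nsq v := hb
  have h3 := third_vanish hb' K hF
  have hnu0 : nu 0 = 0 := by
    have := hb' 0
    simp only [nsq, Pi.zero_apply, ne_eq, OfNat.ofNat_ne_zero, not_false_eq_true, zero_pow,
      sum_const_zero, mul_zero] at this
    exact abs_nonpos_iff.mp this
  -- additivity in the first slot
  have hadd1 : ∀ a c b, Bi nu (a + c) b = Bi nu a b + Bi nu c b := by
    intro a c b
    have h := h3 [a, b, c] rfl 0
    simp only [D, zero_add] at h
    simp only [Bi]
    rw [hnu0] at h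
    have e1 : c + b + a = a + c + b := by abel
    rw [e1] at h
    have e2 : c + a = a + c := add_comm _ _
    rw [e2] at h
    have e3 : b + a = a + b := add_comm _ _
    rw [e3] at h
    linarith
  have hadd2 : ∀ a b c, Bi nu a (b + c) = Bi nu a b + Bi nu a c := by
    intro a b c
    rw [Bi_comm, hadd1, Bi_comm b, Bi_comm c]
  have hBnat1 : ∀ (n : ℕ) (a b : Fin d → ℝ), Bi nu ((n : ℝ) • a) b = n * Bi nu a b := by
    intro n a b
    induction n with
    | zero =>
      have := hadd1 0 0 b
      simp only [add_zero] at this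
      simp only [Nat.cast_zero, zero_smul, zero_mul]
      linarith
    | succ n ih =>
      push_cast
      rw [add_smul, one_smul, hadd1, ih]
      ring
  have hBnat2 : ∀ (n : ℕ) (a b : Fin d → ℝ), Bi nu a ((n : ℝ) • b) = n * Bi nu a b := by
    intro n a b
    rw [Bi_comm, hBnat1, Bi_comm]
  -- nu(u) = Bi(u,u)/2
  have hl : ∀ u, nu u = Bi nu u u / 2 := by
    intro u
    let l : (Fin d → ℝ) → ℝ := fun w => nu w - Bi nu w w / 2
    have hladd : ∀ v w, l (v + w) = l v + l w := by
      intro v w
      simp only [l]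
      rw [hadd1, hadd2, hadd2, Bi_comm w v]
      simp only [Bi]
      ring
    have hlnat : ∀ (n : ℕ) (w : Fin d → ℝ), l ((n : ℝ) • w) = n * l w := by
      intro n w
      induction n with
      | zero =>
        have h0 := hladd 0 0
        simp only [add_zero] at h0
        simp only [Nat.cast_zero, zero_smul, zero_mul]
        linarith
      | succ n ih =>
        push_cast
        rw [add_smul, one_smul, hladd, ih]
        ring
    by_contra hne
    have hlu : l u ≠ 0 := fun h0 => hne (by simp only [l] at h0; linarith)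
    have hpos : 0 < |l u| := abs_pos.mpr hlu
    have hC : 0 ≤ C * nsq u := (abs_nonneg _).trans (hb' u)
    obtain ⟨N, hN⟩ := exists_nat_gt ((C * nsq u + |Bi nu u u| / 2) / |l u|)
    have hNpos : (0 : ℝ) < N :=
      lt_of_le_of_lt (div_nonneg (by positivity) hpos.le) hN
    rw [div_lt_iff₀ hpos] at hN
    -- evaluate at u / N
    let w : Fin d → ℝ := ((N : ℝ)⁻¹) • u
    have hu : (N : ℝ) • w = u := by
      simp only [w, smul_smul, mul_inv_cancel₀ hNpos.ne', one_smul]
    have h1 : l u = N * l w := by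
      rw [← hlnat, hu]
    have h2 : Bi nu u u = N * (N * Bi nu w w) := by
      conv_lhs => rw [← hu]
      rw [hBnat1, hBnat2]
    have h3' : nsq u = (N : ℝ) ^ 2 * nsq w := by
      conv_lhs => rw [← hu]
      rw [nsq_smul]
    have h4 := hb' w
    have h5 : (N : ℝ) * l u = (N : ℝ) * (N * nu w) - Bi nu u u / 2 := by
      rw [h1, h2]
      simp only [l]
      ring
    have h6 : |(N : ℝ) * (N * nu w)| ≤ C * nsq u := by
      rw [abs_mul, abs_mul, abs_of_pos hNpos, h3']
      have : (N : ℝ) * ((N : ℝ) * |nu w|) = (N : ℝ) ^ 2 * |nu w| := by ring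
      rw [this]
      calc (N : ℝ) ^ 2 * |nu w| ≤ (N : ℝ) ^ 2 * (C * nsq w) :=
            mul_le_mul_of_nonneg_left h4 (by positivity)
        _ = C * ((N : ℝ) ^ 2 * nsq w) := by ring
    have h7 : (N : ℝ) * |l u| ≤ C * nsq u + |Bi nu u u| / 2 := by
      have : |(N : ℝ) * l u| ≤ |(N : ℝ) * (N * nu w)| + |Bi nu u u / 2| := by
        rw [h5]
        exact abs_sub _ _
      rw [abs_mul, abs_of_pos hNpos, abs_div, abs_of_pos (by norm_num : (0 : ℝ) < 2)] at this
      linarith
    linarith
  -- growth of the polar form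
  have hBi : ∀ a b, |Bi nu a b| ≤ |C| * (3 * nsq a + 3 * nsq b) := by
    intro a b
    have h1 := hb' (a + b)
    have h2 := hb' a
    have h3' := hb' b
    have hna := nsq_nonneg a
    have hnb := nsq_nonneg b
    have hnab := nsq_add_le a b
    have hnab0 := nsq_nonneg (a + b)
    have hc1 : C * nsq (a + b) ≤ |C| * (2 * nsq a + 2 * nsq b) :=
      mul_le_mul (le_abs_self C) hnab hnab0 (abs_nonneg C)
    have hc2 : C * nsq a ≤ |C| * nsq a := mul_le_mul_of_nonneg_right (le_abs_self C) hna
    have hc3 : C * nsq b ≤ |C| * nsq b := mul_le_mul_of_nonneg_right (le_abs_self C) hnb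
    have e : |Bi nu a b| ≤ |nu (a + b)| + |nu a| + |nu b| := by
      simp only [Bi]
      refine (abs_sub _ _).trans ?_
      have := abs_sub (nu (a + b)) (nu a)
      linarith
    nlinarith
  -- real homogeneity
  have hreal1 : ∀ (t : ℝ) (a b : Fin d → ℝ), Bi nu (t • a) b = t * Bi nu a b := by
    intro t a b
    have := additive_bdd_linear (fun s => Bi nu (s • a) b)
      (fun s s' => by simp only [add_smul]; exact hadd1 _ _ _)
      (|C| * (3 * nsq a + 3 * nsq b)) (fun s hs => by
        refine (hBi _ _).trans ?_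
        have hna := nsq_nonneg a
        have h1 : nsq (s • a) ≤ nsq a := by
          rw [nsq_smul]
          have : s ^ 2 ≤ 1 := by
            have := abs_le.mp hs
            nlinarith
          nlinarith
        exact mul_le_mul_of_nonneg_left (by linarith) (abs_nonneg C)) t
    simpa using this
  have hreal2 : ∀ (t : ℝ) (a b : Fin d → ℝ), Bi nu a (t • b) = t * Bi nu a b := by
    intro t a b
    rw [Bi_comm, hreal1, Bi_comm]
  have hzero1 : ∀ b, Bi nu 0 b = 0 := by
    intro b
    have := hreal1 0 0 b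
    simpa using this
  -- expansion in the standard basis
  let e : Fin d → (Fin d → ℝ) := fun p => Pi.single p 1
  have hexp : ∀ v : Fin d → ℝ, v = ∑ p, v p • e p := by
    intro v
    funext q
    simp [e, Finset.sum_apply, Pi.single_apply]
  have hsum1 : ∀ (s : Finset (Fin d)) (f : Fin d → Fin d → ℝ) (b : Fin d → ℝ),
      Bi nu (∑ p ∈ s, f p) b = ∑ p ∈ s, Bi nu (f p) b := by
    intro s f b
    induction s using Finset.induction_on with
    | empty => simp [hzero1]
    | insert a s ha ih => rw [sum_insert ha, sum_insert ha, hadd1, ih]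
  refine ⟨Matrix.of fun p q => Bi nu (e p) (e q) / 2, ?_, fun v => ?_⟩
  · ext p q
    simp only [Matrix.transpose_apply, Matrix.of_apply]
    rw [Bi_comm]
  · rw [hl v]
    conv_lhs => rw [hexp v]
    rw [hsum1, Finset.sum_div]
    refine sum_congr rfl fun p _ => ?_
    rw [hreal1, Bi_comm, hsum1]
    have : ∑ q, Bi nu (v q • e q) (e p) = ∑ q, v q * Bi nu (e p) (e q) := by
      refine sum_congr rfl fun q _ => ?_
      rw [hreal1, Bi_comm]
    rw [this, mul_sum, Finset.sum_div]
    refine sum_congr rfl fun q _ => ?_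
    simp only [Matrix.of_apply]
    ring

end Main

end Vale.Agent.Lib.P058S.FH
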