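import Vale.Agent.Lib.P058S.AssemblyCore
import Vale.Agent.Lib.P058S.Certificate
import Vale.Agent.Lib.P058S.Frechet5
import Vale.Agent.Lib.P058S.Mean

/-!
# A signed balanced array gives the affine array condition for every gain
-/

namespace Vale.Agent.Lib.P058S.G42

open Finset

/-- The two iterated differences coincide. -/
theorem D_eq_F5 {d : ℕ} (nu : (Fin d → ℝ) → ℝ) (l : List (Fin d → ℝ)) (x : Fin d → ℝ) :
    Asm.D nu l x = F5.D nu l x := by
  induction l generalizing nu with
  | nil => rfl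
  | cons a l ih =>
    simp only [Asm.D, F5.D]
    exact ih _

/-- **A signed balanced array gives the affine array condition for every positive gain.** -/
theorem affineArray_of_signedArray {k d : ℕ} (x : Fin k → Fin d → ℝ) (hs : SignedArray x) (W : ℝ)
    (hW : 0 < W) : AffineArray x W := by
  obtain ⟨P₀, N₀, s, hs0, hlaw₀, hS⟩ := hs
  obtain ⟨M, m1, m2, m3, m4, m5⟩ := exists_mean
  have hM : Asm.IsMean M := ⟨m1, m2, m3, m4, m5⟩
  have hFrechet : ∀ (nu : (Fin d → ℝ) → ℝ) (K : ℕ),
      (∀ l : List (Fin d → ℝ), l.length = K → ∀ x, Asm.D nu l x = 0) →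
      ∀ C : ℝ, (∀ v, |nu v| ≤ C * ∑ p, v p ^ 2) →
      ∃ B : Fin d → Fin d → ℝ, ∀ v, nu v = ∑ p, ∑ q, B p q * v p * v q := by
    intro nu K hK C hC
    obtain ⟨B, -, hB⟩ := F5.quadratic_of_frechet nu K
      (fun l hl y => by rw [← D_eq_F5]; exact hK l hl y) C hC
    exact ⟨B, hB⟩
  by_contra hno
  obtain ⟨f, g, g', hU, hL, hG, hPr⟩ := certificate_affine x (dsq x) W hno
  obtain ⟨h1, h2⟩ := Asm.no_certificate hM hFrechet x P₀ N₀ s hs0 hlaw₀ hS W hW f g g' hU hL hG
  rcases hPr with h | ⟨P, N, hl, hne⟩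
  · exact h h1
  · apply hne
    have h3 := h2 P N hl
    have key : ∀ (A : Multiset (ℝ × (Fin d → ℝ))) (u : Fin k → Fin k → ℝ),
        ∑ i, ∑ j, u i j * DD (colAff x) A i j
          = (A.map (fun c => ∑ i, ∑ j, u i j * (col c (x i) - col c (x j)) ^ 2)).sum := by
      intro A u
      rw [Asm.multiset_sum_finset]
      apply Finset.sum_congr rfl
      intro i _
      rw [Asm.multiset_sum_finset]
      apply Finset.sum_congr rfl
      intro j _
      rw [Asm.multiset_sum_mul]
      rfl
    rw [key N g, key P g']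
    exact h3

end Vale.Agent.Lib.P058S.G42
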