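import Mathlib
import Vale.Agent.Lib.P058S.AlgDual
import Vale.Agent.Lib.P058S.AlgFrechet
import Vale.Agent.Lib.P058S.Casimir
import Vale.Agent.Lib.P058S.AlgContra

/-!
# Algebraic points on a sphere carry a signed array
-/

namespace Vale.Agent.Lib.P058S.GlueH5

open Vale.Agent.Lib.P058S
open Vale.Agent.Lib.P058S.RatB

theorem signedArray_of_field {K : Type} [Field K] [Algebra ℚ K] [FiniteDimensional ℚ K]
    (i : K →+* ℝ) {k d : ℕ} (x : Fin k → Fin d → K) (hx : Function.Injective x)
    (z : Fin d → K) (R : K)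
    (hs : ∀ a, ∑ p, (x a p) ^ 2 = R + 2 * ∑ p, z p * x a p) :
    SignedArray (fun a p => i (x a p)) := by
  classical
  have : CharZero K := algebraRat.charZero K
  rcases AlgDual.dichotomy i x with h | ⟨g, B, hid, hB1⟩
  · exact h
  exfalso
  let φ : Fin k → (K × (Fin d → K)) →+ K := fun a =>
    AddMonoidHom.mk' (AlgDual.phi x a) (by
      intro c c'
      simp only [AlgDual.phi, Prod.fst_add, Prod.snd_add, Pi.add_apply, add_mul,
        Finset.sum_add_distrib]
      ring)
  let Q : (K × (Fin d → K)) → ℝ := fun c => ∑ p, ∑ q, B p q (c.2 p * c.2 q)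
  have hQ4 : ∀ c, Q (c + c) = 4 * Q c := by
    intro c
    simp only [Q, Prod.snd_add, Pi.add_apply, Finset.mul_sum]
    refine Finset.sum_congr rfl fun p _ => Finset.sum_congr rfl fun q _ => ?_
    have e : (c.2 p + c.2 p) * (c.2 q + c.2 q)
        = c.2 p * c.2 q + c.2 p * c.2 q + (c.2 p * c.2 q + c.2 p * c.2 q) := by ring
    rw [e, map_add, map_add]
    ring
  let sh : K → K × (Fin d → K) := fun h => (h, 0)
  have hsh : ∀ a h, φ a (sh h) = h := by
    intro a h
    simp [φ, sh, AlgDual.phi]
  have hQs : ∀ c h, Q (c + sh h) = Q c := by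
    intro c h
    simp [Q, sh]
  -- separating columns
  have hsep : ∀ a b : Fin k, b ≠ a → ∃ p, x a p ≠ x b p := by
    intro a b hab
    by_contra hcon
    push Not at hcon
    exact hab (hx (funext hcon)).symm
  have hsum : ∀ (w : Fin d → K) (p : Fin d) (t : K),
      ∑ q, (Pi.single p t : Fin d → K) q * w q = t * w p := by
    intro w p t
    simp [Pi.single_apply, ite_mul]
  let e : Fin k → Fin k → K → K × (Fin d → K) := fun a b h =>
    if hab : b ≠ a then
      (-(h / (x a (hsep a b hab).choose - x b (hsep a b hab).choose)) * x b (hsep a b hab).choose,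
        Pi.single (hsep a b hab).choose
          (h / (x a (hsep a b hab).choose - x b (hsep a b hab).choose)))
    else 0
  have he0 : ∀ a b, b ≠ a → ∀ h, φ b (e a b h) = 0 := by
    intro a b hab h
    simp only [e, dif_pos hab]
    change AlgDual.phi x b _ = 0
    simp only [AlgDual.phi, hsum]
    ring
  have he1 : ∀ a b, b ≠ a → ∀ h, φ a (e a b h) = h := by
    intro a b hab h
    simp only [e, dif_pos hab]
    change AlgDual.phi x a _ = h
    simp only [AlgDual.phi, hsum]
    have hne := (hsep a b hab).choose_spec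
    have hne' : x a (hsep a b hab).choose - x b (hsep a b hab).choose ≠ 0 := sub_ne_zero.2 hne
    field_simp
    ring
  have hid' : ∀ c, ∑ a, g a (φ a c) + Q c = 0 := fun c => hid c
  obtain ⟨κ, A, hκ, hA1, hAs, hAid⟩ :=
    AlgF.main φ Q hQ4 sh hsh hQs e he0 he1 g hid'
  obtain ⟨n, om, om', hcas, hC⟩ := Cas.casimir K
  have hA2 : ∀ a s t u, A a s (t + u) = A a s t + A a s u := by
    intro a s t u
    rw [hAs a s (t + u), hA1, hAs a t s, hAs a u s]
  apply hκ
  refine AlgContra.kappa_eq_zero x z R hs A hA1 hA2 κ (fun p q => B p q)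
    (fun p q s t => map_add (B p q) s t) hB1 ?_ om om' (fun A' h1 h2 α => hcas A' h1 h2 α) hC
  intro c0 c0' v v'
  have := hAid (c0, v) (c0', v')
  have hQ : Q ((c0, v) + (c0', v')) - Q (c0, v) - Q (c0', v')
      = ∑ p, ∑ q, B p q (v p * v' q + v' p * v q) := by
    simp only [Q, Prod.mk_add_mk, Pi.add_apply]
    rw [← Finset.sum_sub_distrib, ← Finset.sum_sub_distrib]
    refine Finset.sum_congr rfl fun p _ => ?_
    rw [← Finset.sum_sub_distrib, ← Finset.sum_sub_distrib]
    refine Finset.sum_congr rfl fun q _ => ?_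
    have e1 : (v p + v' p) * (v q + v' q)
        = v p * v q + v' p * v' q + (v p * v' q + v' p * v q) := by ring
    rw [e1, map_add, map_add]
    ring
  rw [hQ] at this
  exact this

/-- Every finite set of points with algebraic coordinates on a real sphere has a signed array. -/
theorem signedArray_of_algebraic {k d : ℕ} (x : Fin k → Fin d → ℝ) (hx : Function.Injective x)
    (halg : ∀ a p, IsAlgebraic ℚ (x a p)) (z : Fin d → ℝ) (R : ℝ)
    (hs : ∀ a, ∑ p, (x a p - z p) ^ 2 = R) : SignedArray x := by
  classical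
  -- the number field generated by the coordinates
  let S : Finset ℝ := Finset.univ.biUnion fun a => Finset.univ.image fun p => x a p
  have hS : ∀ a p, x a p ∈ S := by
    intro a p
    simp only [S, Finset.mem_biUnion, Finset.mem_image, Finset.mem_univ, true_and]
    exact ⟨a, p, rfl⟩
  let F : IntermediateField ℚ ℝ := IntermediateField.adjoin ℚ (S : Set ℝ)
  have hfin : FiniteDimensional ℚ F := by
    refine IntermediateField.finiteDimensional_adjoin ?_
    intro t ht
    have hts : t ∈ S := ht
    simp only [S, Finset.mem_biUnion, Finset.mem_image, Finset.mem_univ, true_and] at hts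
    obtain ⟨a, p, rfl⟩ := hts
    exact (halg a p).isIntegral
  have hmem : ∀ a p, x a p ∈ F := fun a p =>
    IntermediateField.subset_adjoin ℚ (S : Set ℝ) (hS a p)
  let x' : Fin k → Fin d → F := fun a p => ⟨x a p, hmem a p⟩
  let i : F →+* ℝ := algebraMap F ℝ
  have hi : ∀ a p, i (x' a p) = x a p := fun a p => rfl
  have hx' : Function.Injective x' := by
    intro a b hab
    apply hx
    funext p
    have := congrArg (fun w : Fin d → F => i (w p)) hab
    simpa [hi] using this
  -- an `F`-linear retraction of the reals onto `F`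
  let ιL : F →ₗ[F] ℝ := (Algebra.linearMap F ℝ)
  have hιL : Function.Injective ιL := (algebraMap F ℝ).injective
  obtain ⟨π, hπ⟩ := LinearMap.exists_leftInverse_of_injective ιL (LinearMap.ker_eq_bot.2 hιL)
  have hπ1 : ∀ t : F, π (i t) = t := fun t => LinearMap.congr_fun hπ t
  -- the sphere equation in `F`
  let z' : Fin d → F := fun p => π (z p)
  let R' : F := π (R - ∑ p, z p ^ 2)
  have hs' : ∀ a, ∑ p, (x' a p) ^ 2 = R' + 2 * ∑ p, z' p * x' a p := by
    intro a
    have h1 : ∑ p, (x a p) ^ 2 = (R - ∑ p, z p ^ 2) + 2 * ∑ p, z p * x a p := by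
      have h2 := hs a
      have h3 : ∑ p, (x a p - z p) ^ 2
          = ∑ p, (x a p) ^ 2 - 2 * ∑ p, z p * x a p + ∑ p, z p ^ 2 := by
        rw [Finset.mul_sum, ← Finset.sum_sub_distrib, ← Finset.sum_add_distrib]
        refine Finset.sum_congr rfl fun p _ => ?_
        ring
      linarith
    have h4 : (i (∑ p, (x' a p) ^ 2) : ℝ) = ∑ p, (x a p) ^ 2 := by
      simp only [map_sum, map_pow, hi]
    have h5 := congrArg π h1
    rw [← h4, hπ1] at h5
    rw [h5, map_add]
    congr 1
    have h6 : (2 : ℝ) * ∑ p, z p * x a p = ∑ p, (x' a p * (2 : F)) • z p := by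
      rw [Finset.mul_sum]
      refine Finset.sum_congr rfl fun p _ => ?_
      have : ((x' a p * (2 : F)) • z p : ℝ) = i (x' a p * (2 : F)) * z p := by
        rw [Algebra.smul_def]
      rw [this, map_mul, hi, map_ofNat]
      ring
    rw [h6, map_sum, Finset.mul_sum]
    refine Finset.sum_congr rfl fun p _ => ?_
    rw [map_smul, smul_eq_mul]
    simp only [z']
    ring
  have := signedArray_of_field i x' hx' z' R' hs'
  exact this

end Vale.Agent.Lib.P058S.GlueH5
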