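import Mathlib
import Vale.Agent.Lib.P058S.Assembly
import Vale.Agent.Lib.P058S.Converse
import Vale.Agent.Lib.P058C.Necessity

/-!
# A finite family of points is Ramsey if and only if it has a signed balanced array
-/

namespace Vale.Agent.Lib.P058S.IffS

open Vale.Agent.Lib.P058 Vale.Agent.Lib.P058C

/-- Squared distances in Euclidean coordinates. -/
theorem dist_sq_eq_dsq {k d : ℕ} (x : Fin k → EuclideanSpace ℝ (Fin d)) (i j : Fin k) :
    dist (x i) (x j) ^ 2 = dsq (fun a p => x a p) i j := by
  rw [EuclideanSpace.dist_eq, Real.sq_sqrt (Finset.sum_nonneg fun _ _ => sq_nonneg _)]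
  simp only [dsq, Real.dist_eq, sq_abs]

/-- The points span `ℝ^d` affinely. -/
def AffSpans {k d : ℕ} (x : Fin k → EuclideanSpace ℝ (Fin d)) : Prop :=
  ∀ v : Fin d → ℝ, (∀ i j, ∑ p, v p * (x i p - x j p) = 0) → v = 0

/-- For an affinely spanning family: Ramsey if and only if a signed balanced array exists. -/
theorem isRamseyFamily_iff_signedArray {k d : ℕ} (x : Fin k → EuclideanSpace ℝ (Fin d))
    (hspan : AffSpans x) : IsRamseyFamily x ↔ SignedArray (fun a p => x a p) := by
  constructor
  · intro h
    have h2 := arrayCond_of_isRamseyFamily x h 2 le_rfl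
    have e : (fun i j => dist (x i) (x j) ^ 2) = dsq (fun a p => x a p) := by
      funext i j
      exact dist_sq_eq_dsq x i j
    rw [e] at h2
    exact Conv.signedArray_of_arrayCond (fun a p => x a p) hspan 2 (by norm_num) (by exact_mod_cast h2)
  · exact isRamseyFamily_of_signedArray x

end Vale.Agent.Lib.P058S.IffS
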