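import Mathlib

/-!
# A truncated logarithm
-/

set_option linter.unusedVariables false

namespace Vale.Agent.Lib.P058S.Rat

open Polynomial

/-- The truncated logarithm at one. -/
noncomputable def tlog (N : ℕ) : ℚ[X] :=
  ∑ j ∈ Finset.range N, C ((-1 : ℚ) ^ j / ((j : ℚ) + 1)) * (X - 1) ^ (j + 1)

theorem tlog_deriv (N : ℕ) : derivative (tlog N) = ∑ j ∈ Finset.range N, (1 - X) ^ j := by
  simp only [tlog, derivative_sum]
  refine Finset.sum_congr rfl fun j _ => ?_
  have hj : ((j : ℚ) + 1) ≠ 0 := by positivity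
  have e1 : (1 - X : ℚ[X]) = C (-1) * (X - 1) := by
    simp only [map_neg, map_one]
    ring
  rw [derivative_C_mul, derivative_pow, e1, mul_pow, ← C_pow]
  simp only [Nat.add_sub_cancel, derivative_sub, derivative_X, derivative_one, sub_zero, mul_one]
  rw [← mul_assoc]
  congr 1
  rw [← C_mul]
  congr 1
  push_cast
  field_simp

theorem X_mul_tlog_deriv (N : ℕ) : X * derivative (tlog N) = 1 - (1 - X) ^ N := by
  rw [tlog_deriv]
  have h := geom_sum_mul (1 - X : ℚ[X]) N
  linear_combination -h

theorem tlog_eval_one (N : ℕ) : (tlog N).eval 1 = 0 := by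
  simp [tlog, eval_finsetSum]

theorem tlog_deriv_eval_one {N : ℕ} (hN : 1 ≤ N) : (derivative (tlog N)).eval 1 = 1 := by
  have h := congrArg (eval 1) (X_mul_tlog_deriv N)
  have h0 : N ≠ 0 := by omega
  simpa [h0] using h

/-- Divisibility from the derivative. -/
theorem dvd_of_deriv {p : ℚ[X]} {N : ℕ} (h1 : p.eval 1 = 0)
    (h2 : (X - 1 : ℚ[X]) ^ N ∣ derivative p) : (X - 1 : ℚ[X]) ^ (N + 1) ∣ p := by
  by_cases hp : p = 0
  · rw [hp]
    exact dvd_zero _
  have hroot : p.IsRoot 1 := h1
  have hd : derivative p ≠ 0 := by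
    intro hd
    have hn := Polynomial.derivative_eq_zero.mp hd
    rw [eq_C_of_natDegree_eq_zero hn] at h1 hp
    simp only [eval_C] at h1
    rw [h1] at hp
    simp at hp
  have e1 : (X - C (1 : ℚ)) = (X - 1 : ℚ[X]) := by simp
  have h3 := derivative_rootMultiplicity_of_root hroot
  have h4 : N ≤ (derivative p).rootMultiplicity 1 :=
    (le_rootMultiplicity_iff hd).mpr (by rw [e1]; exact h2)
  have h5 : 0 < p.rootMultiplicity 1 := (rootMultiplicity_pos hp).mpr hroot
  have h6 : N + 1 ≤ p.rootMultiplicity 1 := by omega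
  have := (le_rootMultiplicity_iff hp).mp h6
  rwa [e1] at this

/-- The additivity of the truncated logarithm. -/
theorem tlog_comp_pow (N m : ℕ) :
    (X - 1 : ℚ[X]) ^ (N + 1) ∣ (tlog N).comp (X ^ m) - C (m : ℚ) * tlog N := by
  rcases Nat.eq_zero_or_pos m with rfl | hm
  · simp [tlog_eval_one]
  apply dvd_of_deriv
  · simp [eval_comp, tlog_eval_one]
  · -- multiply by `X`
    have hco : IsCoprime ((X - 1 : ℚ[X]) ^ N) X := by
      apply IsCoprime.pow_left
      exact ⟨-1, 1, by ring⟩
    apply hco.dvd_of_dvd_mul_left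
    have hder : derivative ((tlog N).comp (X ^ m)) =
        derivative (X ^ m : ℚ[X]) * (derivative (tlog N)).comp (X ^ m) := by
      rw [derivative_comp]
    have hder2 : X * derivative (X ^ m : ℚ[X]) = C (m : ℚ) * X ^ m := by
      rw [derivative_X_pow]
      obtain ⟨m', rfl⟩ : ∃ m', m = m' + 1 := ⟨m - 1, by omega⟩
      simp only [Nat.add_sub_cancel]
      ring
    have hcomp : X ^ m * (derivative (tlog N)).comp (X ^ m) = 1 - (1 - X ^ m) ^ N := by
      have := congrArg (fun q : ℚ[X] => q.comp (X ^ m)) (X_mul_tlog_deriv N)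
      simpa using this
    have e : X * derivative ((tlog N).comp (X ^ m) - C (m : ℚ) * tlog N) =
        C (m : ℚ) * ((1 - X) ^ N - (1 - X ^ m) ^ N) := by
      rw [derivative_sub, hder, derivative_C_mul, mul_sub]
      have h1 := X_mul_tlog_deriv N
      calc X * (derivative (X ^ m : ℚ[X]) * (derivative (tlog N)).comp (X ^ m)) -
            X * (C (m : ℚ) * derivative (tlog N))
          = (X * derivative (X ^ m : ℚ[X])) * (derivative (tlog N)).comp (X ^ m) -
            C (m : ℚ) * (X * derivative (tlog N)) := by ring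
        _ = C (m : ℚ) * (X ^ m * (derivative (tlog N)).comp (X ^ m)) -
            C (m : ℚ) * (X * derivative (tlog N)) := by rw [hder2]; ring
        _ = _ := by rw [hcomp, h1]; ring
    rw [e]
    apply Dvd.dvd.mul_left
    apply dvd_sub
    · apply pow_dvd_pow_of_dvd
      exact ⟨-1, by ring⟩
    · apply pow_dvd_pow_of_dvd
      have := sub_dvd_pow_sub_pow (X : ℚ[X]) 1 m
      simp only [one_pow] at this
      obtain ⟨c, hc⟩ := this
      exact ⟨-c, by linear_combination -hc⟩

end Vale.Agent.Lib.P058S.Rat
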