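import Mathlib

/-!
# A polynomial killed by all the row maps with scalar moment matrix

Rows of exponents `e a`, all at the same squared distance from `(s, ..., s)`: a polynomial `G` in the
variables `X_0, X_1, ..., X_d` which vanishes under each row map `X_0 ↦ Y`, `X_i ↦ Y ^ e a i`, and
whose moment matrix is a positive multiple of the identity.
-/

namespace Vale.Agent.Lib.P058S.RatF2

open Finset

variable {d : ℕ}

/-- The polynomial ring in `X_0, X_1, ..., X_d`. -/
abbrev AA (d : ℕ) := MvPolynomial (Option (Fin d)) ℚ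

/-- The row map. -/
noncomputable def piA (e : Fin d → ℕ) : AA d →ₐ[ℚ] Polynomial ℚ :=
  MvPolynomial.aeval (fun o => o.elim Polynomial.X (fun i => Polynomial.X ^ e i))

/-- The moments by coefficients. -/
noncomputable def Mom (G : AA d) (p q : Fin d) : ℚ :=
  ∑ c ∈ G.support, MvPolynomial.coeff c G * ((c (some p) : ℚ) * (c (some q) : ℚ))

/-- The Euler derivation in the direction `q`. -/
noncomputable def DD (q : Fin d) (G : AA d) : AA d :=
  MvPolynomial.X (some q) * MvPolynomial.pderiv (some q) G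

theorem DD_add (q : Fin d) (G H : AA d) : DD q (G + H) = DD q G + DD q H := by
  simp [DD, mul_add]

theorem DD_sub (q : Fin d) (G H : AA d) : DD q (G - H) = DD q G - DD q H := by
  simp [DD, mul_sub]

theorem DD_sum {ι : Type*} (s : Finset ι) (q : Fin d) (G : ι → AA d) :
    DD q (∑ i ∈ s, G i) = ∑ i ∈ s, DD q (G i) := by
  simp [DD, Finset.mul_sum, map_sum]

theorem DD_mul (q : Fin d) (G H : AA d) : DD q (G * H) = G * DD q H + H * DD q G := by
  simp only [DD, Derivation.leibniz, smul_eq_mul]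
  ring

/-- Evaluation at all ones. -/
noncomputable def eps : AA d →ₐ[ℚ] ℚ := MvPolynomial.aeval (fun _ => (1 : ℚ))

/-- The moments by derivations. -/
noncomputable def MomD (p q : Fin d) (G : AA d) : ℚ := eps (DD p (DD q G))

/-- The section. -/
noncomputable def lft (h : Polynomial ℚ) : AA d := Polynomial.aeval (MvPolynomial.X none : AA d) h

/-- One variable. -/
noncomputable def var (i : Fin d) (Q : Polynomial ℚ) : AA d :=
  Polynomial.aeval (MvPolynomial.X (some i) : AA d) Q

theorem DD_lft (q : Fin d) (h : Polynomial ℚ) : DD q (lft h : AA d) = 0 := by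
  simp only [DD, lft, Derivation.map_aeval]
  rw [MvPolynomial.pderiv_X_of_ne (by simp)]
  simp

theorem DD_var_self (q : Fin d) (Q : Polynomial ℚ) :
    DD q (var q Q : AA d) = var q (Polynomial.X * Polynomial.derivative Q) := by
  simp only [DD, var, Derivation.map_aeval, map_mul, Polynomial.aeval_X]
  rw [MvPolynomial.pderiv_X_self]
  simp

theorem DD_var_ne {i q : Fin d} (h : i ≠ q) (Q : Polynomial ℚ) : DD q (var i Q : AA d) = 0 := by
  simp only [DD, var, Derivation.map_aeval]
  rw [MvPolynomial.pderiv_X_of_ne (by simpa using h)]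
  simp

theorem eps_lft (h : Polynomial ℚ) : eps (lft h : AA d) = h.eval 1 := by
  simp only [lft, ← Polynomial.aeval_algHom_apply, eps, MvPolynomial.aeval_X]
  simp [Polynomial.coe_aeval_eq_eval]

theorem eps_var (i : Fin d) (h : Polynomial ℚ) : eps (var i h : AA d) = h.eval 1 := by
  simp only [var, ← Polynomial.aeval_algHom_apply, eps, MvPolynomial.aeval_X]
  simp [Polynomial.coe_aeval_eq_eval]

theorem MomD_add (p q : Fin d) (G H : AA d) : MomD p q (G + H) = MomD p q G + MomD p q H := by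
  simp [MomD, DD_add]

theorem MomD_sub (p q : Fin d) (G H : AA d) : MomD p q (G - H) = MomD p q G - MomD p q H := by
  simp [MomD, DD_sub]

theorem MomD_sum {ι : Type*} (s : Finset ι) (p q : Fin d) (G : ι → AA d) :
    MomD p q (∑ i ∈ s, G i) = ∑ i ∈ s, MomD p q (G i) := by
  simp [MomD, DD_sum]

theorem MomD_mul_lft (p q : Fin d) (G : AA d) (h : Polynomial ℚ) :
    MomD p q (G * lft h) = MomD p q G * h.eval 1 := by
  simp only [MomD, DD_mul, DD_lft, mul_zero, zero_add, add_zero]
  rw [map_mul, eps_lft]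
  ring

theorem MomD_one (p q : Fin d) : MomD p q (1 : AA d) = 0 := by
  have h : DD q (1 : AA d) = 0 := by simp [DD]
  have h0 : DD p (0 : AA d) = 0 := by simp [DD]
  simp [MomD, h, h0]

theorem MomD_lft (p q : Fin d) (h : Polynomial ℚ) : MomD p q (lft h : AA d) = 0 := by
  have := MomD_mul_lft p q (1 : AA d) h
  rw [one_mul, MomD_one, zero_mul] at this
  exact this

theorem MomD_var (p q i : Fin d) (Q : Polynomial ℚ) :
    MomD p q (var i Q : AA d) = if i = p ∧ i = q then
      (Polynomial.X * Polynomial.derivative (Polynomial.X * Polynomial.derivative Q)).eval 1 else 0 := by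
  by_cases hq : i = q
  · subst hq
    by_cases hp : i = p
    · subst hp
      simp only [MomD, DD_var_self, eps_var, and_self, if_true]
    · have : ¬ (i = p ∧ i = i) := fun h => hp h.1
      rw [if_neg this]
      simp only [MomD, DD_var_self]
      rw [DD_var_ne hp]
      simp
  · have : ¬ (i = p ∧ i = q) := fun h => hq h.2
    rw [if_neg this]
    simp only [MomD]
    rw [DD_var_ne hq]
    have h0 : DD p (0 : AA d) = 0 := by simp [DD]
    simp [h0]

/-- The two forms of the moments agree. -/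
theorem MomD_eq_Mom (p q : Fin d) (G : AA d) : MomD p q G = Mom G p q := by
  have hmono : ∀ (c : Option (Fin d) →₀ ℕ) (a : ℚ) (r : Fin d),
      DD r (MvPolynomial.monomial c a : AA d) = MvPolynomial.monomial c ((c (some r) : ℚ) * a) := by
    intro c a r
    simp only [DD]
    rw [MvPolynomial.X_mul_pderiv_monomial, ← Nat.cast_smul_eq_nsmul ℚ,
      MvPolynomial.smul_monomial, smul_eq_mul]
  have heps : ∀ (c : Option (Fin d) →₀ ℕ) (a : ℚ), eps (MvPolynomial.monomial c a : AA d) = a := by
    intro c a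
    simp [eps, MvPolynomial.aeval_monomial, Finsupp.prod]
  conv_lhs => rw [G.as_sum]
  simp only [MomD, DD_sum, map_sum, hmono, heps, Mom]
  apply Finset.sum_congr rfl
  intro c _
  ring

theorem piA_lft (e : Fin d → ℕ) (h : Polynomial ℚ) : piA e (lft h : AA d) = h := by
  simp only [lft, ← Polynomial.aeval_algHom_apply, piA, MvPolynomial.aeval_X]
  simp

theorem piA_var (e : Fin d → ℕ) (i : Fin d) (Q : Polynomial ℚ) :
    piA e (var i Q : AA d) = Polynomial.aeval (Polynomial.X ^ e i) Q := by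
  simp only [var, ← Polynomial.aeval_algHom_apply, piA, MvPolynomial.aeval_X]
  rfl

/-- `Y ^ m - Y ^ n` has a simple zero at `1`. -/
theorem exists_v {m n : ℕ} (h : m ≠ n) : ∃ v : Polynomial ℚ,
    (Polynomial.X ^ m - Polynomial.X ^ n : Polynomial ℚ) = (Polynomial.X - 1) * v ∧
      v.eval 1 ≠ 0 := by
  have hroot : (Polynomial.X ^ m - Polynomial.X ^ n : Polynomial ℚ).IsRoot 1 := by
    simp [Polynomial.IsRoot]
  obtain ⟨v, hv⟩ := Polynomial.dvd_iff_isRoot.mpr hroot
  have hC : (Polynomial.X - Polynomial.C (1 : ℚ)) = Polynomial.X - 1 := by simp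
  rw [hC] at hv
  refine ⟨v, hv, ?_⟩
  have hd := congrArg (fun P => (Polynomial.derivative P).eval (1 : ℚ)) hv
  simp [Polynomial.derivative_mul, Polynomial.derivative_X_pow] at hd
  rw [← hd]
  intro h0
  apply h
  have : (m : ℚ) = n := by linarith
  exact_mod_cast this

/-- The quadratic polynomial `F` and its properties. -/
noncomputable def FF (L : Polynomial ℚ) (s : ℕ) (R : ℚ) : AA d :=
  MvPolynomial.C (-R) * lft (L ^ 2) +
    ∑ i, (var i (L ^ 2) - MvPolynomial.C (2 * (s : ℚ)) * (var i L * lft L)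
      + MvPolynomial.C ((s : ℚ) ^ 2) * lft (L ^ 2))

theorem C_mul_lft (a : ℚ) (h : Polynomial ℚ) :
    (MvPolynomial.C a * lft h : AA d) = lft (Polynomial.C a * h) := by
  simp [lft, map_mul]

theorem C_mul_mul_lft (a : ℚ) (G : AA d) (h : Polynomial ℚ) :
    (MvPolynomial.C a * (G * lft h) : AA d) = G * lft (Polynomial.C a * h) := by
  rw [← C_mul_lft]; ring

theorem MomD_FF (L : Polynomial ℚ) (s : ℕ) (R : ℚ) (hL1 : L.eval 1 = 0)
    (hL2 : (Polynomial.derivative L).eval 1 = 1) (p q : Fin d) :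
    MomD p q (FF L s R : AA d) = if p = q then 2 else 0 := by
  have h2 : (Polynomial.X * Polynomial.derivative
      (Polynomial.X * Polynomial.derivative (L ^ 2))).eval (1 : ℚ) = 2 := by
    simp [Polynomial.derivative_mul, Polynomial.derivative_pow, hL1, hL2]
  simp only [FF]
  rw [MomD_add, C_mul_lft, MomD_lft, zero_add, MomD_sum]
  have hterm : ∀ i, MomD p q (var i (L ^ 2) - MvPolynomial.C (2 * (s : ℚ)) * (var i L * lft L)
      + MvPolynomial.C ((s : ℚ) ^ 2) * lft (L ^ 2) : AA d)
      = if i = p ∧ i = q then 2 else 0 := by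
    intro i
    rw [MomD_add, MomD_sub, C_mul_mul_lft, MomD_mul_lft, C_mul_lft, MomD_lft, MomD_var]
    simp only [h2, Polynomial.eval_mul, Polynomial.eval_C, hL1]
    simp
  rw [Finset.sum_congr rfl fun i _ => hterm i]
  by_cases h : p = q
  · subst h
    simp
  · rw [if_neg h]
    apply Finset.sum_eq_zero
    intro i _
    rw [if_neg]
    rintro ⟨rfl, rfl⟩
    exact h rfl

theorem piA_FF_dvd (L : Polynomial ℚ) (N : ℕ)
    (hL3 : ∀ m : ℕ, (Polynomial.X - 1) ^ (N + 1) ∣
      Polynomial.aeval (Polynomial.X ^ m : Polynomial ℚ) L - Polynomial.C (m : ℚ) * L)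
    (s : ℕ) (R : ℚ) (e : Fin d → ℕ) (hR : ∑ i, ((e i : ℚ) - s) ^ 2 = R) :
    (Polynomial.X - 1) ^ (N + 1) ∣ piA e (FF L s R : AA d) := by
  have hterm : ∀ i, piA e (var i (L ^ 2) - MvPolynomial.C (2 * (s : ℚ)) * (var i L * lft L)
      + MvPolynomial.C ((s : ℚ) ^ 2) * lft (L ^ 2) : AA d)
      = (Polynomial.aeval (Polynomial.X ^ e i : Polynomial ℚ) L - Polynomial.C (s : ℚ) * L) ^ 2 := by
    intro i
    rw [C_mul_mul_lft, C_mul_lft]
    simp only [map_add, map_sub, map_mul, piA_lft, piA_var, map_pow]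
    have e1 : Polynomial.C (2 : ℚ) = 2 := map_ofNat Polynomial.C 2
    rw [e1]
    ring
  have hdiv : ∀ i, (Polynomial.X - 1) ^ (N + 1) ∣
      (Polynomial.aeval (Polynomial.X ^ e i : Polynomial ℚ) L - Polynomial.C (s : ℚ) * L) ^ 2
        - Polynomial.C (((e i : ℚ) - s) ^ 2) * L ^ 2 := by
    intro i
    have h1 := hL3 (e i)
    have h2 : (Polynomial.aeval (Polynomial.X ^ e i : Polynomial ℚ) L - Polynomial.C (s : ℚ) * L)
        - Polynomial.C ((e i : ℚ) - s) * L
        = Polynomial.aeval (Polynomial.X ^ e i : Polynomial ℚ) L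
          - Polynomial.C (e i : ℚ) * L := by
      simp only [Polynomial.C_sub]
      ring
    have h3 : (Polynomial.aeval (Polynomial.X ^ e i : Polynomial ℚ) L - Polynomial.C (s : ℚ) * L) ^ 2
        - Polynomial.C (((e i : ℚ) - s) ^ 2) * L ^ 2
        = (Polynomial.aeval (Polynomial.X ^ e i : Polynomial ℚ) L - Polynomial.C (e i : ℚ) * L) *
          ((Polynomial.aeval (Polynomial.X ^ e i : Polynomial ℚ) L - Polynomial.C (s : ℚ) * L)
            + Polynomial.C ((e i : ℚ) - s) * L) := by
      rw [← h2, Polynomial.C_pow]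
      ring
    rw [h3]
    exact Dvd.dvd.mul_right h1 _
  have hsum : piA e (FF L s R : AA d) = ∑ i, ((Polynomial.aeval (Polynomial.X ^ e i : Polynomial ℚ) L
      - Polynomial.C (s : ℚ) * L) ^ 2 - Polynomial.C (((e i : ℚ) - s) ^ 2) * L ^ 2) := by
    simp only [FF]
    rw [C_mul_lft, map_add, piA_lft, map_sum, Finset.sum_congr rfl fun i _ => hterm i,
      Finset.sum_sub_distrib, ← Finset.sum_mul, ← map_sum, hR]
    simp only [Polynomial.C_neg]
    ring
  rw [hsum]
  exact Finset.dvd_sum fun i _ => hdiv i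

/-- **The polynomial `G`.** -/
theorem exists_G {k : ℕ} (L : Polynomial ℚ) (N : ℕ) (hL1 : L.eval 1 = 0)
    (hL2 : (Polynomial.derivative L).eval 1 = 1)
    (hL3 : ∀ m : ℕ, (Polynomial.X - 1) ^ (N + 1) ∣
      Polynomial.aeval (Polynomial.X ^ m : Polynomial ℚ) L - Polynomial.C (m : ℚ) * L)
    (e : Fin k → Fin d → ℕ) (s : ℕ) (R : ℚ) (hR : ∀ a, ∑ i, ((e a i : ℚ) - s) ^ 2 = R)
    (hinj : ∀ a b, a ≠ b → ∃ i, e a i ≠ e b i) (hN : k ≤ N) :
    ∃ G : AA d, (∀ a, piA (e a) G = 0) ∧ ∃ t : ℚ, 0 < t ∧ ∀ p q, Mom G p q = if p = q then t else 0 := by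
  classical
  have key : ∀ a b : Fin k, ∃ (z : AA d) (v : Polynomial ℚ), a ≠ b →
      piA (e b) z = 0 ∧ piA (e a) z = (Polynomial.X - 1) * v ∧ v.eval 1 ≠ 0 := by
    intro a b
    by_cases hab : a = b
    · exact ⟨0, 0, fun h => absurd hab h⟩
    · obtain ⟨i, hi⟩ := hinj a b hab
      obtain ⟨v, hv, hv1⟩ := exists_v hi
      refine ⟨MvPolynomial.X (some i) - MvPolynomial.X none ^ e b i, v, fun _ => ⟨?_, ?_, hv1⟩⟩
      · simp [piA]
      · simp [piA, hv]
  choose z v hzv using key
  let w : Fin k → AA d := fun a => ∏ b ∈ univ.erase a, z a b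
  let v' : Fin k → Polynomial ℚ := fun a => ∏ b ∈ univ.erase a, v a b
  let T : Fin k → ℕ := fun a => (univ.erase a).card
  have hT : ∀ a, T a ≤ N := by
    intro a
    have : T a = k - 1 := by simp [T, Finset.card_erase_of_mem]
    omega
  have hwa : ∀ a, piA (e a) (w a) = (Polynomial.X - 1) ^ T a * v' a := by
    intro a
    simp only [w, v', T, map_prod]
    rw [Finset.prod_congr rfl fun b hb => (hzv a b (Ne.symm (Finset.ne_of_mem_erase hb))).2.1,
      Finset.prod_mul_distrib, Finset.prod_const]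
  have hwb : ∀ a b, a ≠ b → piA (e b) (w a) = 0 := by
    intro a b hab
    simp only [w, map_prod]
    exact Finset.prod_eq_zero (Finset.mem_erase.mpr ⟨Ne.symm hab, Finset.mem_univ b⟩)
      (hzv a b hab).1
  have hv'1 : ∀ a, (v' a).eval 1 ≠ 0 := by
    intro a
    simp only [v', Polynomial.eval_prod]
    exact Finset.prod_ne_zero_iff.mpr fun b hb =>
      (hzv a b (Ne.symm (Finset.ne_of_mem_erase hb))).2.2
  let f0 : Polynomial ℚ := ∏ a, v' a
  let f : Polynomial ℚ := f0 ^ 2
  have hf1 : 0 < f.eval 1 := by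
    have : f0.eval 1 ≠ 0 := by
      simp only [f0, Polynomial.eval_prod]
      exact Finset.prod_ne_zero_iff.mpr fun a _ => hv'1 a
    simp only [f, Polynomial.eval_pow]
    positivity
  have hfd : ∀ a, ∃ t, f = v' a * t := by
    intro a
    have h1 : v' a ∣ f0 := Finset.dvd_prod_of_mem _ (Finset.mem_univ a)
    have h2 : v' a ∣ f := Dvd.dvd.trans h1 (Dvd.intro_left (f0 ^ 1) (by ring))
    exact h2
  choose t ht using hfd
  have hg : ∀ a, (Polynomial.X - 1) ^ (N + 1) ∣ piA (e a) (FF L s R : AA d) :=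
    fun a => piA_FF_dvd L N hL3 s R (e a) (hR a)
  choose r hr using hg
  let h : Fin k → Polynomial ℚ := fun a => (Polynomial.X - 1) ^ (N + 1 - T a) * (r a * t a)
  have hh1 : ∀ a, (h a).eval 1 = 0 := by
    intro a
    have : N + 1 - T a ≠ 0 := by have := hT a; omega
    simp [h, this]
  have hkey : ∀ a, piA (e a) (w a) * h a = piA (e a) (FF L s R : AA d) * f := by
    intro a
    rw [hwa, hr a]
    simp only [h]
    have hexp : (Polynomial.X - 1 : Polynomial ℚ) ^ (N + 1)
        = (Polynomial.X - 1) ^ T a * (Polynomial.X - 1) ^ (N + 1 - T a) := by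
      rw [← pow_add]
      congr 1
      have := hT a
      omega
    rw [hexp, ht a]
    ring
  let G : AA d := FF L s R * lft f - ∑ a, w a * lft (h a)
  refine ⟨G, fun b => ?_, 2 * f.eval 1, by positivity, fun p q => ?_⟩
  · simp only [G, map_sub, map_mul, piA_lft, map_sum]
    rw [Finset.sum_eq_single b]
    · rw [hkey b]
      ring
    · intro a _ hab
      rw [hwb a b hab, zero_mul]
    · intro hb
      exact absurd (Finset.mem_univ b) hb
  · rw [← MomD_eq_Mom]
    simp only [G]
    rw [MomD_sub, MomD_mul_lft, MomD_FF L s R hL1 hL2, MomD_sum]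
    have h0 : ∑ a, MomD p q (w a * lft (h a)) = 0 := by
      apply Finset.sum_eq_zero
      intro a _
      rw [MomD_mul_lft, hh1, mul_zero]
    rw [h0, sub_zero]
    by_cases hpq : p = q
    · simp [hpq]
    · simp [hpq]

end Vale.Agent.Lib.P058S.RatF2
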