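import Mathlib

namespace Vale.Agent.Lib.P058S.Rat

open Polynomial

noncomputable section

/-- Truncated logarithm at `1`. -/
def logT (N : ℕ) : ℚ[X] :=
  ∑ j ∈ Finset.range N, C ((-1 : ℚ) ^ j / ((j : ℚ) + 1)) * (X - 1) ^ (j + 1)

theorem logT_eval_one (N : ℕ) : (logT N).eval 1 = 0 := by
  simp [logT, eval_finsetSum]

theorem derivative_logT (N : ℕ) :
    derivative (logT N) = ∑ j ∈ Finset.range N, (1 - X : ℚ[X]) ^ j := by
  unfold logT
  rw [derivative_sum]
  refine Finset.sum_congr rfl fun j _ => ?_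
  have h1 : (1 - X : ℚ[X]) = -1 * (X - 1) := by ring
  have h2 : (C ((-1 : ℚ) ^ j / ((j : ℚ) + 1)) : ℚ[X]) * (((j : ℚ[X]) + 1)) = (-1) ^ j := by
    have h3 : ((j : ℚ[X]) + 1) = C ((j : ℚ) + 1) := by simp
    have h4 : ((j : ℚ) + 1) ≠ 0 := by positivity
    rw [h3, ← C_mul, div_mul_cancel₀ _ h4]
    simp
  rw [derivative_C_mul, derivative_pow, h1, mul_pow, ← h2]
  simp only [Nat.add_sub_cancel]
  simp
  ring

theorem X_mul_derivative_logT (N : ℕ) :
    X * derivative (logT N) = 1 - (1 - X : ℚ[X]) ^ N := by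
  rw [derivative_logT]
  have h := geom_sum_mul (1 - X : ℚ[X]) N
  linear_combination (-1 : ℚ[X]) * h

/-- Divisibility from the derivative. -/
theorem dvd_of_derivative_dvd (G : ℚ[X]) (N : ℕ) (h1 : G.eval 1 = 0)
    (h2 : (X - 1 : ℚ[X]) ^ N ∣ derivative G) : (X - 1 : ℚ[X]) ^ (N + 1) ∣ G := by
  by_cases hG : G = 0
  · simp [hG]
  have hroot : G.IsRoot 1 := h1
  by_cases hd : derivative G = 0
  · exfalso
    have hdeg := derivative_eq_zero.1 hd
    rw [eq_C_of_natDegree_eq_zero hdeg] at h1 hG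
    simp at h1
    simp [h1] at hG
  have hm := derivative_rootMultiplicity_of_root hroot
  have hpos : 0 < rootMultiplicity 1 G := (rootMultiplicity_pos hG).2 hroot
  have h3 : N ≤ rootMultiplicity 1 (derivative G) :=
    (le_rootMultiplicity_iff hd).2 (by simpa using h2)
  have h4 : N + 1 ≤ rootMultiplicity 1 G := by omega
  have h5 := (le_rootMultiplicity_iff hG).1 h4
  simpa using h5

/-- **The functional equation of the truncated logarithm.** -/
theorem dvd_logT_comp (N m : ℕ) :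
    (X - 1 : ℚ[X]) ^ (N + 1) ∣ (logT N).comp (X ^ m) - C (m : ℚ) * logT N := by
  rcases Nat.eq_zero_or_pos m with rfl | hm
  · simp [logT_eval_one]
  apply dvd_of_derivative_dvd
  · simp [eval_comp, logT_eval_one]
  · have hcop : IsCoprime ((X - 1 : ℚ[X]) ^ N) X := by
      apply IsCoprime.pow_left
      exact ⟨-1, 1, by ring⟩
    apply hcop.dvd_of_dvd_mul_left
    set L := logT N with hL
    have hU : X * derivative L = 1 - (1 - X : ℚ[X]) ^ N := X_mul_derivative_logT N
    have hcomp : (X ^ m : ℚ[X]) * (derivative L).comp (X ^ m) = 1 - (1 - X ^ m : ℚ[X]) ^ N := by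
      have := congrArg (fun p : ℚ[X] => p.comp (X ^ m)) hU
      simpa using this
    have hXm : (X : ℚ[X]) * X ^ (m - 1) = X ^ m := by
      rw [← pow_succ']
      congr 1
      omega
    have hgeom : (1 - X ^ m : ℚ[X]) = (1 - X) * ∑ i ∈ Finset.range m, (X : ℚ[X]) ^ i := by
      have := geom_sum_mul (X : ℚ[X]) m
      linear_combination this
    have hexp : X * derivative (L.comp (X ^ m) - C (m : ℚ) * L) =
        C (m : ℚ) * ((1 - X ^ m * 0 - (1 - X ^ m : ℚ[X]) ^ N) - (1 - (1 - X : ℚ[X]) ^ N)) := by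
      rw [derivative_sub, derivative_comp, derivative_C_mul, derivative_X_pow]
      have h1 : X * (C (m : ℚ) * X ^ (m - 1) * (derivative L).comp (X ^ m) - C (m : ℚ) * derivative L)
          = C (m : ℚ) * ((X * X ^ (m - 1)) * (derivative L).comp (X ^ m) - X * derivative L) := by ring
      rw [h1, hXm, hcomp, hU]
      ring
    rw [hexp, hgeom, mul_pow]
    have h1 : (1 - X : ℚ[X]) ^ N = (-1) ^ N * (X - 1) ^ N := by
      rw [← mul_pow]; congr 1; ring
    refine ⟨C (m : ℚ) * ((-1) ^ N * (1 - (∑ i ∈ Finset.range m, (X : ℚ[X]) ^ i) ^ N)), ?_⟩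
    rw [h1]
    ring

end

end Vale.Agent.Lib.P058S.Rat
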