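import Mathlib
import Vale.Agent.Lib.P058S.RatLog
import Vale.Agent.Lib.P058S.RatBridge

/-!
# P058: the polynomial vanishing on the exponential curves through rational points of a sphere
-/

set_option linter.unusedVariables false
set_option linter.unusedSectionVars false

namespace Vale.Agent.Lib.P058S.RatM

open Vale.Agent.Lib.P058S.Rat Vale.Agent.Lib.P058S.RatB

noncomputable section

/-- The ring of polynomials in `X_0, ..., X_d`. -/
abbrev AA (d : ℕ) := MvPolynomial (Option (Fin d)) ℚ

/-- The section `Y ↦ X_0` of all the curve evaluations. -/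
def liftA (d : ℕ) : Polynomial ℚ →ₐ[ℚ] AA d := Polynomial.aeval (MvPolynomial.X none)

variable {d : ℕ}

theorem piA_X_none (e : Fin d → ℕ) : piA e (MvPolynomial.X none) = Polynomial.X := by
  simp [piA]

theorem piA_X_some (e : Fin d → ℕ) (i : Fin d) :
    piA e (MvPolynomial.X (some i)) = Polynomial.X ^ e i := by
  simp [piA]

theorem pi_lift (e : Fin d → ℕ) (h : Polynomial ℚ) : piA e (liftA d h) = h := by
  unfold liftA
  rw [← Polynomial.aeval_algHom_apply, piA_X_none, Polynomial.aeval_X_left_apply]

theorem pi_aeval (e : Fin d → ℕ) (i : Fin d) (L : Polynomial ℚ) :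
    piA e (Polynomial.aeval (MvPolynomial.X (some i)) L) = L.comp (Polynomial.X ^ e i) := by
  rw [← Polynomial.aeval_algHom_apply, piA_X_some]
  rfl

/-- The second moment functional. -/
def momL (p q : Fin d) : AA d →ₗ[ℚ] ℚ :=
  (MvPolynomial.basisMonomials (Option (Fin d)) ℚ).constr ℚ
    (fun c => (c (some p) : ℚ) * (c (some q) : ℚ))

theorem momL_monomial (p q : Fin d) (c : Option (Fin d) →₀ ℕ) (r : ℚ) :
    momL p q (MvPolynomial.monomial c r) = r * ((c (some p) : ℚ) * (c (some q) : ℚ)) := by
  have h : (MvPolynomial.monomial c r : AA d) =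
      r • (MvPolynomial.basisMonomials (Option (Fin d)) ℚ) c := by
    simp [MvPolynomial.smul_monomial]
  rw [h, map_smul, momL, Module.Basis.constr_basis]
  rfl

theorem momL_eq_sum (p q : Fin d) (G : AA d) :
    momL p q G = ∑ c ∈ G.support, G.coeff c * ((c (some p) : ℚ) * (c (some q) : ℚ)) := by
  conv_lhs => rw [G.as_sum]
  rw [map_sum]
  exact Finset.sum_congr rfl fun c _ => momL_monomial p q c _

theorem liftA_monomial (j : ℕ) (t : ℚ) :
    liftA d (Polynomial.monomial j t) = MvPolynomial.monomial (j • Finsupp.single none 1) t := by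
  unfold liftA
  rw [Polynomial.aeval_monomial, MvPolynomial.X_pow_eq_monomial]
  simp [MvPolynomial.algebraMap_eq, MvPolynomial.C_mul_monomial]

theorem momL_mul_lift (p q : Fin d) (G : AA d) (h : Polynomial ℚ) :
    momL p q (G * liftA d h) = momL p q G * h.eval 1 := by
  induction G using MvPolynomial.induction_on' with
  | add G1 G2 h1 h2 => rw [add_mul, map_add, map_add, h1, h2, add_mul]
  | monomial c r =>
    induction h using Polynomial.induction_on' with
    | add h1 h2 i1 i2 => rw [map_add, mul_add, map_add, i1, i2, Polynomial.eval_add, mul_add]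
    | monomial j t =>
      rw [liftA_monomial, MvPolynomial.monomial_mul, momL_monomial, momL_monomial,
        Polynomial.eval_monomial]
      simp [Finsupp.single_apply]
      ring

/-- The operator `Y d/dY`. -/
def DD (Q : Polynomial ℚ) : Polynomial ℚ := Polynomial.X * Polynomial.derivative Q

theorem DD_monomial (j : ℕ) (t : ℚ) :
    DD (Polynomial.monomial j t) = Polynomial.monomial j (t * j) := by
  unfold DD
  rw [Polynomial.derivative_monomial]
  rcases j with _ | j
  · simp
  · rw [Polynomial.X_mul_monomial]
    simp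

theorem momL_aeval_X (p q i : Fin d) (Q : Polynomial ℚ) :
    momL p q (Polynomial.aeval (MvPolynomial.X (some i) : AA d) Q) =
      if i = p ∧ i = q then (DD (DD Q)).eval 1 else 0 := by
  have hDDadd : ∀ Q1 Q2 : Polynomial ℚ, DD (Q1 + Q2) = DD Q1 + DD Q2 := by
    intro Q1 Q2
    simp [DD, mul_add]
  induction Q using Polynomial.induction_on' with
  | add Q1 Q2 h1 h2 =>
    rw [map_add, map_add, h1, h2, hDDadd, hDDadd, Polynomial.eval_add]
    split_ifs <;> simp
  | monomial j t =>
    rw [DD_monomial, DD_monomial, Polynomial.eval_monomial, Polynomial.aeval_monomial,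
      MvPolynomial.X_pow_eq_monomial, MvPolynomial.algebraMap_eq, MvPolynomial.C_mul_monomial,
      momL_monomial]
    by_cases hp : i = p
    · by_cases hq : i = q
      · subst hp; subst hq; simp; ring
      · simp [Finsupp.single_apply, hq]
    · simp [Finsupp.single_apply, hp]

theorem DD_DD_sq (L : Polynomial ℚ) (h1 : L.eval 1 = 0) (h2 : (DD L).eval 1 = 1) :
    (DD (DD (L ^ 2))).eval 1 = 2 := by
  have h3 : DD (L ^ 2) = 2 * L * DD L := by
    unfold DD
    rw [sq, Polynomial.derivative_mul]
    ring
  have h4 : DD (2 * L * DD L) = 2 * (DD L * DD L) + 2 * L * DD (DD L) := by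
    unfold DD
    have h5 : (2 : Polynomial ℚ) = Polynomial.C 2 := (map_ofNat Polynomial.C 2).symm
    rw [Polynomial.derivative_mul, Polynomial.derivative_mul, h5]
    simp only [Polynomial.derivative_C]
    ring
  rw [h3, h4]
  simp [Polynomial.eval_add, Polynomial.eval_mul, h1, h2]

/-- Elements vanishing on all the curves but one. -/
theorem exists_w {k : ℕ} (e : Fin k → Fin d → ℕ) (hinj : ∀ a b, a ≠ b → ∃ i, e a i ≠ e b i)
    (a : Fin k) (B : Finset (Fin k)) (ha : a ∉ B) :
    ∃ (w : AA d) (t : Polynomial ℚ), (∀ b ∈ B, piA (e b) w = 0) ∧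
      piA (e a) w = (Polynomial.X - 1) ^ B.card * t ∧ t.eval 1 ≠ 0 := by
  classical
  induction B using Finset.induction_on with
  | empty => exact ⟨1, 1, by simp, by simp, by simp⟩
  | insert b B hb ih =>
    have hab : a ≠ b := fun h => ha (by rw [h]; exact Finset.mem_insert_self _ _)
    have ha' : a ∉ B := fun h => ha (Finset.mem_insert_of_mem h)
    obtain ⟨w, t, h1, h2, h3⟩ := ih ha'
    obtain ⟨i, hi⟩ := hinj a b hab
    set z : AA d := MvPolynomial.X (some i) - MvPolynomial.X none ^ e b i with hz
    set τ : Polynomial ℚ := ∑ j ∈ Finset.range (e a i), Polynomial.X ^ j -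
      ∑ j ∈ Finset.range (e b i), Polynomial.X ^ j with hτ
    have hzb : piA (e b) z = 0 := by
      rw [hz, map_sub, map_pow, piA_X_none, piA_X_some, sub_self]
    have hza : piA (e a) z = (Polynomial.X - 1) * τ := by
      rw [hz, map_sub, map_pow, piA_X_none, piA_X_some, hτ]
      have g1 := geom_sum_mul (Polynomial.X : Polynomial ℚ) (e a i)
      have g2 := geom_sum_mul (Polynomial.X : Polynomial ℚ) (e b i)
      linear_combination -g1 + g2
    have hτ1 : τ.eval 1 ≠ 0 := by
      rw [hτ]
      simp [Polynomial.eval_finsetSum]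
      intro h
      apply hi
      have : (e a i : ℚ) = e b i := by linarith
      exact_mod_cast this
    refine ⟨w * z, t * τ, fun c hc => ?_, ?_, ?_⟩
    · rcases Finset.mem_insert.1 hc with rfl | hc
      · rw [map_mul, hzb, mul_zero]
      · rw [map_mul, h1 c hc, zero_mul]
    · rw [map_mul, h2, hza, Finset.card_insert_of_notMem hb, pow_succ]
      ring
    · rw [Polynomial.eval_mul]
      exact mul_ne_zero h3 hτ1

/-- **The polynomial.** For distinct curves through rational points of a sphere centred at the origin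
there is a polynomial vanishing on all curves, with second moments a positive multiple of `I`. -/
theorem exists_G {k : ℕ} (e : Fin k → Fin d → ℕ) (s : ℕ) (R : ℚ)
    (hR : ∀ a, ∑ i, ((e a i : ℚ) - s) ^ 2 = R)
    (hinj : ∀ a b, a ≠ b → ∃ i, e a i ≠ e b i) :
    ∃ G : AA d, (∀ a, piA (e a) G = 0) ∧ ∃ t : ℚ, 0 < t ∧ ∀ p q,
      ∑ c ∈ G.support, G.coeff c * ((c (some p) : ℚ) * (c (some q) : ℚ)) =
        if p = q then t else 0 := by
  classical
  set N := k + 1 with hN
  set L := logT N with hL
  have hL1 : L.eval 1 = 0 := logT_eval_one N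
  have hL2 : (DD L).eval 1 = 1 := by
    have h := X_mul_derivative_logT N
    unfold DD
    rw [← hL] at h
    rw [h]
    simp [hN]
  set u : Polynomial ℚ := Polynomial.C (s : ℚ) * L with hu
  set v : Polynomial ℚ := Polynomial.C R * L ^ 2 with hv
  set A : Fin d → AA d := fun i => Polynomial.aeval (MvPolynomial.X (some i)) L with hA
  set F : AA d := ∑ i, (A i - liftA d u) ^ 2 - liftA d v with hF
  -- divisibility
  have hdiv : ∀ a, (Polynomial.X - 1 : Polynomial ℚ) ^ (N + 1) ∣ piA (e a) F := by
    intro a
    set x : Fin d → Polynomial ℚ := fun i => L.comp (Polynomial.X ^ e a i) - u with hx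
    set y : Fin d → Polynomial ℚ := fun i => Polynomial.C ((e a i : ℚ) - s) * L with hy
    have h1 : piA (e a) F = ∑ i, (x i - y i) * (x i + y i) := by
      have hsum : ∑ i, y i ^ 2 = v := by
        simp only [hy, hv, mul_pow]
        rw [← Finset.sum_mul]
        congr 1
        simp only [← Polynomial.C_pow]
        rw [← map_sum, hR a]
      rw [hF, map_sub, map_sum, pi_lift, ← hsum, ← Finset.sum_sub_distrib]
      refine Finset.sum_congr rfl fun i _ => ?_
      rw [map_pow, map_sub, pi_lift, hA]
      simp only [pi_aeval]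
      simp only [hx]
      ring
    rw [h1]
    refine Finset.dvd_sum fun i _ => ?_
    refine Dvd.dvd.mul_right ?_ _
    have h2 : x i - y i = L.comp (Polynomial.X ^ e a i) - Polynomial.C (e a i : ℚ) * L := by
      simp only [hx, hy, hu, Polynomial.C_sub]
      ring
    rw [h2]
    exact dvd_logT_comp N (e a i)
  choose r hr using hdiv
  choose w τ h1 h2 h3 using fun a => exists_w e hinj a (Finset.univ.erase a) (by simp)
  set f : Polynomial ℚ := ∏ a, τ a with hf
  have hf1 : f.eval 1 ≠ 0 := by
    rw [hf, Polynomial.eval_prod]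
    exact Finset.prod_ne_zero_iff.2 fun a _ => h3 a
  set fa : Fin k → Polynomial ℚ := fun a => ∏ c ∈ Finset.univ.erase a, τ c with hfa
  have hfa' : ∀ a, τ a * fa a = f := fun a => Finset.mul_prod_erase _ _ (Finset.mem_univ a)
  set h : Fin k → Polynomial ℚ := fun a => (Polynomial.X - 1) ^ 3 * r a * fa a with hh
  have hh1 : ∀ a, (h a).eval 1 = 0 := by
    intro a
    simp [hh, Polynomial.eval_mul]
  set G₀ : AA d := F * liftA d f - ∑ a, w a * liftA d (h a) with hG₀
  set f1 : ℚ := f.eval 1 with hf1def
  refine ⟨G₀ * liftA d (Polynomial.C f1), fun c => ?_, 2 * f1 ^ 2, by positivity, fun p q => ?_⟩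
  · rw [map_mul, hG₀, map_sub, map_mul, pi_lift, map_sum]
    have hs : ∑ a, piA (e c) (w a * liftA d (h a)) = piA (e c) (w c) * h c := by
      rw [Finset.sum_eq_single c]
      · rw [map_mul, pi_lift]
      · intro a _ hac
        rw [map_mul, h1 a c (by simp [Ne.symm hac]), zero_mul]
      · simp
    rw [hs, hr c, h2 c]
    have hcard : (Finset.univ.erase c).card + 3 = N + 1 := by
      rw [Finset.card_erase_of_mem (Finset.mem_univ c), Finset.card_univ, Fintype.card_fin, hN]
      have := c.isLt
      omega
    rw [← hcard, pow_add, ← hfa' c]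
    simp only [hh]
    ring
  · rw [← momL_eq_sum, momL_mul_lift, Polynomial.eval_C, hG₀, map_sub, momL_mul_lift, map_sum]
    have hzero : ∑ a, momL p q (w a * liftA d (h a)) = 0 := by
      refine Finset.sum_eq_zero fun a _ => ?_
      rw [momL_mul_lift, hh1, mul_zero]
    rw [hzero, sub_zero]
    have hu1 : u.eval 1 = 0 := by simp [hu, Polynomial.eval_mul, hL1]
    have hv1 : v.eval 1 = 0 := by simp [hv, Polynomial.eval_mul, hL1]
    have hterm : ∀ i, momL p q ((A i - liftA d u) ^ 2) =
        if i = p ∧ i = q then 2 else 0 := by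
      intro i
      have hexp : (A i - liftA d u) ^ 2 =
          Polynomial.aeval (MvPolynomial.X (some i) : AA d) (L ^ 2) -
            (A i * liftA d u + A i * liftA d u) + 1 * liftA d (u ^ 2) := by
        rw [map_pow, map_pow]
        simp only [hA]
        ring
      rw [hexp, map_add, map_sub, map_add, momL_mul_lift, momL_mul_lift, hu1, momL_aeval_X]
      have h5 : (u ^ 2).eval 1 = 0 := by simp [Polynomial.eval_pow, hu1]
      rw [h5, DD_DD_sq L hL1 hL2]
      simp
    have hFm : momL p q F = if p = q then 2 else 0 := by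
      have hv2 : momL p q (liftA d v) = 0 := by
        have := momL_mul_lift p q 1 v
        rw [one_mul, hv1, mul_zero] at this
        exact this
      rw [hF, map_sub, map_sum, hv2, sub_zero]
      simp only [hterm]
      by_cases hpq : p = q
      · subst hpq
        simp
      · rw [if_neg hpq]
        refine Finset.sum_eq_zero fun i _ => ?_
        rw [if_neg]
        rintro ⟨rfl, rfl⟩
        exact hpq rfl
    rw [hFm]
    by_cases hpq : p = q
    · simp [hpq]; ring
    · simp [hpq]

end

end Vale.Agent.Lib.P058S.RatM
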