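import Mathlib
import Vale.Agent.Lib.P058S.RatMid
import Vale.Agent.Lib.P058S.Assembly

/-!
# P058: every finite set of rational points on a sphere with rational centre is Ramsey
-/

set_option linter.unusedVariables false
set_option linter.unusedSectionVars false

namespace Vale.Agent.Lib.P058S.RatFinal

open Vale.Agent.Lib.P058S.RatB Vale.Agent.Lib.P058S.RatM

/-- **Signed arrays for rational points of a sphere.** A translate of a finite set of distinct rational
points on a sphere centred at the origin has a signed balanced array. -/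
theorem signedArray_of_rational {k d : ℕ} (x : Fin k → Fin d → ℝ) (z₀ : Fin d → ℝ)
    (q : Fin k → Fin d → ℚ) (hx : ∀ a i, x a i = z₀ i + (q a i : ℝ)) (R : ℚ)
    (hR : ∀ a, ∑ i, (q a i) ^ 2 = R) (hinj : ∀ a b, a ≠ b → ∃ i, q a i ≠ q b i) :
    SignedArray x := by
  classical
  obtain ⟨M, hM, z, hz⟩ := exists_den (Finset.univ : Finset (Fin k × Fin d)) (fun ai => q ai.1 ai.2)
  set s : ℕ := ∑ ai : Fin k × Fin d, (z ai).natAbs with hs
  have hzs : ∀ ai, 0 ≤ z ai + s := by
    intro ai
    have h1 : (z ai).natAbs ≤ s :=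
      Finset.single_le_sum (f := fun ai : Fin k × Fin d => (z ai).natAbs)
        (fun _ _ => Nat.zero_le _) (Finset.mem_univ ai)
    have h2 : -(((z ai).natAbs : ℤ)) ≤ z ai := by
      have := abs_nonneg (z ai)
      rw [Int.natCast_natAbs]
      exact neg_abs_le _
    have h3 : ((z ai).natAbs : ℤ) ≤ s := by exact_mod_cast h1
    linarith
  set e : Fin k → Fin d → ℕ := fun a i => (z (a, i) + s).toNat with he
  have heZ : ∀ a i, ((e a i : ℕ) : ℤ) = z (a, i) + s := fun a i => Int.toNat_of_nonneg (hzs _)
  have hMQ : (M : ℚ) ≠ 0 := by positivity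
  have heQ : ∀ a i, (e a i : ℚ) - s = q a i * M := by
    intro a i
    have h1 : ((e a i : ℤ) : ℚ) = ((z (a, i) + s : ℤ) : ℚ) := by rw [heZ]
    have h2 := hz (a, i) (Finset.mem_univ _)
    push_cast at h1
    rw [h1, h2]
    ring
  have hG := exists_G e s ((M : ℚ) ^ 2 * R) (fun a => ?_) (fun a b hab => ?_)
  · obtain ⟨G, hπ, t, ht, hMom⟩ := hG
    refine signedArray_of_poly x z₀ e s M hM (fun a i => ?_) G hπ t ht hMom
    rw [hx]
    have h1 := heQ a i
    have h2 : ((e a i : ℝ) - s) = (q a i : ℝ) * M := by exact_mod_cast h1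
    rw [h2]
    have hMR : (M : ℝ) ≠ 0 := by positivity
    field_simp
  · simp only [heQ, mul_pow]
    rw [← Finset.sum_mul, hR a]
    ring
  · obtain ⟨i, hi⟩ := hinj a b hab
    refine ⟨i, fun h => hi ?_⟩
    have h1 := heQ a i
    have h2 := heQ b i
    rw [h] at h1
    have h3 : q a i * M = q b i * M := by rw [← h1, ← h2]
    exact mul_right_cancel₀ hMQ h3

/-- **Every finite set of distinct rational points on a sphere with rational centre is Ramsey**
(more generally every translate of such a set, by an arbitrary real vector). -/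
theorem isRamseyFamily_of_rational {k d : ℕ} (x : Fin k → EuclideanSpace ℝ (Fin d))
    (hinj : Function.Injective x) (z₀ : Fin d → ℝ) (q : Fin k → Fin d → ℚ)
    (hx : ∀ a i, x a i = z₀ i + (q a i : ℝ)) (R : ℚ) (hR : ∀ a, ∑ i, (q a i) ^ 2 = R) :
    Vale.Agent.Lib.P058.IsRamseyFamily x := by
  refine isRamseyFamily_of_signedArray x
    (signedArray_of_rational (fun a p => x a p) z₀ q hx R hR fun a b hab => ?_)
  by_contra hne
  push Not at hne
  apply hab
  apply hinj
  ext i
  rw [hx, hx, hne i]

end Vale.Agent.Lib.P058S.RatFinal
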