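import Mathlib
import Vale.Agent.Lib.P058S.Defs
import Vale.Agent.Lib.P058S.FarkasMultiset

/-!
# Finite spherical sets with rational coordinates have a signed balanced array

The proof is dual: a linear functional killing all columns is a family of ridge functions whose
sum is a quadratic form in the linear part; difference operators force the ridge functions to be
polynomials on a sublattice, and comparing quadratic coefficients gives that the trace vanishes.
-/

set_option linter.unusedVariables false
set_option linter.unusedSectionVars false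

namespace Vale.Agent.Lib.P058S.RatDual

open Polynomial Finset

/-- Every rational polynomial has an antidifference. -/
theorem exists_antidiff (Q : ℚ[X]) : ∃ A : ℚ[X], ∀ x : ℚ, A.eval (x + 1) - A.eval x = Q.eval x := by
  induction Q using Polynomial.induction_on' with
  | add p q hp hq =>
    obtain ⟨A, hA⟩ := hp
    obtain ⟨B, hB⟩ := hq
    refine ⟨A + B, fun x => ?_⟩
    simp only [eval_add]
    linarith [hA x, hB x]
  | monomial n a =>
    refine ⟨C (a / (n + 1)) * Polynomial.bernoulli (n + 1), fun x => ?_⟩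
    have h := Polynomial.bernoulli_eval_one_add (n + 1) x
    simp only [eval_mul, eval_C, eval_monomial]
    rw [add_comm x 1, h]
    have hn : ((n : ℚ) + 1) ≠ 0 := by positivity
    simp only [Nat.add_sub_cancel]
    push_cast
    field_simp
    ring

/-- Forward difference with step `M` of a function on the integers. -/
def dl (M : ℤ) (f : ℤ → ℚ) : ℤ → ℚ := fun t => f (t + M) - f t

/-- A function on the integers with a vanishing iterated difference is a polynomial. -/
theorem poly_of_iter (K : ℕ) : ∀ f : ℤ → ℚ, (dl 1)^[K] f = 0 →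
    ∃ P : ℚ[X], ∀ t : ℤ, f t = P.eval (t : ℚ) := by
  induction K with
  | zero =>
    intro f hf
    refine ⟨0, fun t => ?_⟩
    have : f = 0 := hf
    simp [this]
  | succ K ih =>
    intro f hf
    rw [Function.iterate_succ_apply] at hf
    obtain ⟨P₁, hP₁⟩ := ih _ hf
    obtain ⟨A, hA⟩ := exists_antidiff P₁
    refine ⟨A + C (f 0 - A.eval 0), ?_⟩
    have hstep : ∀ t : ℤ, f (t + 1) - f t = A.eval ((t : ℚ) + 1) - A.eval (t : ℚ) := by
      intro t
      rw [hA]
      exact hP₁ t
    intro t
    simp only [eval_add, eval_C]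
    induction t using Int.induction_on with
    | zero => simp
    | succ i hi =>
      have := hstep (i : ℤ)
      push_cast at this ⊢
      push_cast at hi
      linarith
    | pred i hi =>
      have := hstep (-(i : ℤ) - 1)
      have e : -(i : ℤ) - 1 + 1 = -(i : ℤ) := by ring
      rw [e] at this
      push_cast at this ⊢
      push_cast at hi
      have e2 : (-(i : ℚ) - 1 + 1) = -(i : ℚ) := by ring
      rw [e2] at this
      linarith

/-- The elimination step. -/
theorem elim {Λ : Type*} [AddCommGroup Λ] {k : ℕ} (φ : Fin k → Λ → ℤ)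
    (hφ : ∀ a c e, φ a (c + e) = φ a c + φ a e) (M : ℤ) (a : Fin k)
    (he : ∀ b, b ≠ a → ∃ e, φ b e = 0 ∧ φ a e = M) (hsurj : ∀ t, ∃ c, φ a c = t)
    (S : Finset (Fin k)) : a ∉ S → ∀ h : Fin k → ℤ → ℚ,
      (∀ c, h a (φ a c) + ∑ b ∈ S, h b (φ b c) = 0) → (dl M)^[S.card] (h a) = 0 := by
  classical
  induction S using Finset.induction_on with
  | empty =>
    intro _ h hE
    funext t
    obtain ⟨c, rfl⟩ := hsurj t
    simpa using hE c
  | insert b S' hb ih =>
    intro haS h hE
    have hab : b ≠ a := by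
      rintro rfl
      exact haS (Finset.mem_insert_self _ _)
    have haS' : a ∉ S' := fun h' => haS (Finset.mem_insert_of_mem h')
    obtain ⟨e, he0, heM⟩ := he b hab
    have key := ih haS' (fun i t => h i (t + φ i e) - h i t) (by
      intro c
      have h1 := hE (c + e)
      have h2 := hE c
      rw [Finset.sum_insert hb] at h1 h2
      simp only [hφ, he0, add_zero] at h1
      have h3 : ∑ i ∈ S', (h i (φ i c + φ i e) - h i (φ i c))
          = ∑ i ∈ S', h i (φ i c + φ i e) - ∑ i ∈ S', h i (φ i c) := Finset.sum_sub_distrib _ _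
      rw [h3]
      linarith)
    rw [Finset.card_insert_of_notMem hb, Function.iterate_succ_apply]
    have e1 : (fun t => h a (t + φ a e) - h a t) = dl M (h a) := by
      funext t
      simp [dl, heM]
    rw [e1] at key
    exact key

/-- Iterated differences with step `1` of a dilated function. -/
theorem iter_dilate (M : ℤ) (K : ℕ) : ∀ f : ℤ → ℚ,
    (dl 1)^[K] (fun t => f (M * t)) = fun t => ((dl M)^[K] f) (M * t) := by
  induction K with
  | zero => intro f; rfl
  | succ K ih =>
    intro f
    rw [Function.iterate_succ_apply, Function.iterate_succ_apply, ← ih]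
    congr 1
    funext t
    simp [dl, mul_add]

/-- The coefficient comparison along a line. -/
theorem coeff_line {k : ℕ} (P : Fin k → ℚ[X]) (u : Fin k → ℤ) (b : ℚ)
    (h : ∀ s : ℤ, ∑ a, (P a).eval ((s : ℚ) * (u a : ℚ)) + b * (s : ℚ) ^ 2 = 0) :
    ∑ a, (P a).coeff 2 * (u a : ℚ) ^ 2 + b = 0 := by
  classical
  let W : ℚ[X] := ∑ a, (P a).comp (C (u a : ℚ) * X) + C b * X ^ 2
  have hroot : ∀ s : ℤ, W.IsRoot (s : ℚ) := by
    intro s
    have := h s
    simp only [IsRoot, W, eval_add, eval_finsetSum, eval_comp, eval_mul, eval_C, eval_X, eval_pow]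
    rw [← this]
    congr 1
    apply Finset.sum_congr rfl
    intro a _
    rw [mul_comm]
  have hW : W = 0 := by
    apply Polynomial.eq_zero_of_infinite_isRoot
    apply Set.Infinite.mono (s := Set.range (fun s : ℤ => (s : ℚ)))
    · rintro _ ⟨s, rfl⟩
      exact hroot s
    · exact Set.infinite_range_of_injective Int.cast_injective
  have h2 := congrArg (fun p => Polynomial.coeff p 2) hW
  simp only [W, coeff_add, finsetSum_coeff, Polynomial.comp_C_mul_X_coeff, coeff_zero,
    coeff_C_mul, coeff_X_pow] at h2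
  simpa using h2


/-- The column form. -/
def phi {k d : ℕ} (n : Fin k → Fin d → ℤ) (a : Fin k) (c : ℤ × (Fin d → ℤ)) : ℤ :=
  c.1 + ∑ p, c.2 p * n a p

theorem phi_add {k d : ℕ} (n : Fin k → Fin d → ℤ) (a : Fin k) (c e : ℤ × (Fin d → ℤ)) :
    phi n a (c + e) = phi n a c + phi n a e := by
  simp only [phi, Prod.fst_add, Prod.snd_add, Pi.add_apply, add_mul, Finset.sum_add_distrib]
  ring

/-- A common multiple of the coordinate differences. -/
theorem exists_M {k d : ℕ} (n : Fin k → Fin d → ℤ) (hn : Function.Injective n) :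
    ∃ M : ℤ, M ≠ 0 ∧ ∀ a b, a ≠ b → ∃ e : ℤ × (Fin d → ℤ), phi n b e = 0 ∧ phi n a e = M := by
  classical
  have hm : ∀ a b, a ≠ b → ∃ p, n a p ≠ n b p := by
    intro a b hab
    by_contra h
    push Not at h
    exact hab (hn (funext h))
  let m : Fin k → Fin k → ℤ := fun a b =>
    if h : a ≠ b then n a (Classical.choose (hm a b h)) - n b (Classical.choose (hm a b h)) else 1
  have hm0 : ∀ a b, m a b ≠ 0 := by
    intro a b
    by_cases h : a ≠ b
    · simp only [m, dif_pos h]
      exact sub_ne_zero.mpr (Classical.choose_spec (hm a b h))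
    · simp only [m, dif_neg h]
      exact one_ne_zero
  refine ⟨∏ a, ∏ b, m a b, Finset.prod_ne_zero_iff.mpr fun a _ =>
    Finset.prod_ne_zero_iff.mpr fun b _ => hm0 a b, ?_⟩
  intro a b hab
  have hdvd : m a b ∣ ∏ a, ∏ b, m a b :=
    (Finset.dvd_prod_of_mem _ (Finset.mem_univ b)).trans
      (Finset.dvd_prod_of_mem (fun a => ∏ b, m a b) (Finset.mem_univ a))
  obtain ⟨l, hl⟩ := hdvd
  set p := Classical.choose (hm a b hab) with hp
  have hmab : m a b = n a p - n b p := by
    simp only [m, dif_pos hab, hp]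
  refine ⟨(-l * n b p, Pi.single p l), ?_, ?_⟩
  · simp only [phi]
    have : ∑ q, (Pi.single p l : Fin d → ℤ) q * n b q = l * n b p := by
      rw [Finset.sum_eq_single p]
      · simp
      · intro q _ hq
        simp [Pi.single_eq_of_ne hq]
      · simp
    rw [this]
    ring
  · simp only [phi]
    have : ∑ q, (Pi.single p l : Fin d → ℤ) q * n a q = l * n a p := by
      rw [Finset.sum_eq_single p]
      · simp
      · intro q _ hq
        simp [Pi.single_eq_of_ne hq]
      · simp
    rw [this, hl, hmab]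
    ring

/-- **Key lemma.** Ridge functions summing to a quadratic form in the linear part force the form to
have trace zero, for integer points on a sphere. -/
theorem key {k d : ℕ} (n : Fin k → Fin d → ℤ) (hn : Function.Injective n)
    (z : Fin d → ℝ) (R : ℝ) (hs : ∀ a, ∑ p, ((n a p : ℝ) - z p) ^ 2 = R)
    (g : Fin k → ℤ → ℚ) (B : Fin d → Fin d → ℚ)
    (hE : ∀ c : ℤ × (Fin d → ℤ), ∑ a, g a (phi n a c) +
      ∑ p, ∑ q, ((c.2 p * c.2 q : ℤ) : ℚ) * B p q = 0) :
    ∑ p, B p p = 0 := by
  classical
  obtain ⟨M, hM0, he⟩ := exists_M n hn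
  -- Step 1: iterated differences vanish
  have hstep1 : ∀ a, ∃ K, (dl M)^[K] (g a) = 0 := by
    intro a
    refine ⟨(Finset.univ.erase a).card + 1, ?_⟩
    rw [Function.iterate_succ_apply]
    have := elim (phi n) (phi_add n) M a (fun b hb => he a b hb.symm)
      (fun t => ⟨(t, 0), by simp [phi]⟩) (Finset.univ.erase a) (by simp)
      (fun b => dl M (g b)) (by
        intro c
        rw [Finset.add_sum_erase _ (fun b => dl M (g b) (phi n b c)) (Finset.mem_univ a)]
        have h1 := hE (c + (M, 0))
        have h2 := hE c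
        have h3 : ∀ b, phi n b (c + (M, 0)) = phi n b c + M := by
          intro b
          rw [phi_add]
          simp [phi]
        have h4 : (c + (M, (0 : Fin d → ℤ))).2 = c.2 := by simp
        simp only [h3, h4] at h1
        simp only [dl, Finset.sum_sub_distrib]
        linarith)
    exact this
  -- Step 2: polynomials
  have hstep2 : ∀ a, ∃ P : ℚ[X], ∀ t : ℤ, g a (M * t) = P.eval (t : ℚ) := by
    intro a
    obtain ⟨K, hK⟩ := hstep1 a
    obtain ⟨P, hP⟩ := poly_of_iter K (fun t => g a (M * t)) (by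
      rw [iter_dilate, hK]
      rfl)
    exact ⟨P, hP⟩
  choose P hP using hstep2
  -- Step 3: the quadratic coefficients
  have hline : ∀ (τ : ℤ) (v : Fin d → ℤ), ∑ a, (P a).coeff 2 * ((phi n a (τ, v) : ℤ) : ℚ) ^ 2 +
      (M : ℚ) ^ 2 * ∑ p, ∑ q, ((v p * v q : ℤ) : ℚ) * B p q = 0 := by
    intro τ v
    apply coeff_line P (fun a => phi n a (τ, v))
    intro s
    have h1 := hE (M * s * τ, fun p => M * s * v p)
    have h2 : ∀ a, phi n a (M * s * τ, fun p => M * s * v p) = M * (s * phi n a (τ, v)) := by
      intro a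
      simp only [phi, mul_add, Finset.mul_sum]
      congr 1
      · ring
      · apply Finset.sum_congr rfl
        intro p _
        ring
    simp only [h2, hP] at h1
    push_cast at h1 ⊢
    rw [← h1]
    congr 1
    rw [Finset.mul_sum, Finset.sum_mul]
    apply Finset.sum_congr rfl
    intro p _
    rw [Finset.mul_sum, Finset.sum_mul]
    apply Finset.sum_congr rfl
    intro q _
    ring
  set γ : Fin k → ℚ := fun a => (P a).coeff 2 with hγ
  have hsingle : ∀ (p : Fin d) (a : Fin k), ∑ q, (Pi.single p 1 : Fin d → ℤ) q * n a q = n a p := by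
    intro p a
    rw [Finset.sum_eq_single p]
    · simp
    · intro q _ hq
      simp [Pi.single_eq_of_ne hq]
    · simp
  have hquad : ∀ (p : Fin d), ∑ r, ∑ q, (((Pi.single p 1 : Fin d → ℤ) r * (Pi.single p 1 : Fin d → ℤ) q : ℤ) : ℚ) * B r q
      = B p p := by
    intro p
    rw [Finset.sum_eq_single p]
    · rw [Finset.sum_eq_single p]
      · simp
      · intro q _ hq
        simp [Pi.single_eq_of_ne hq]
      · simp
    · intro r _ hr
      apply Finset.sum_eq_zero
      intro q _
      simp [Pi.single_eq_of_ne hr]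
    · simp
  -- the three evaluations
  have h0 : ∑ a, γ a = 0 := by
    have := hline 1 0
    simpa [phi] using this
  have h1 : ∀ p, ∑ a, γ a * (n a p : ℚ) ^ 2 + (M : ℚ) ^ 2 * B p p = 0 := by
    intro p
    have := hline 0 (Pi.single p 1)
    rw [hquad] at this
    simpa [phi, hsingle] using this
  have h2 : ∀ p, ∑ a, γ a * (1 + (n a p : ℚ)) ^ 2 + (M : ℚ) ^ 2 * B p p = 0 := by
    intro p
    have := hline 1 (Pi.single p 1)
    rw [hquad] at this
    simpa [phi, hsingle] using this
  have h3 : ∀ p, ∑ a, γ a * (n a p : ℚ) = 0 := by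
    intro p
    have e : ∑ a, γ a * (1 + (n a p : ℚ)) ^ 2 = ∑ a, γ a + 2 * ∑ a, γ a * (n a p : ℚ)
        + ∑ a, γ a * (n a p : ℚ) ^ 2 := by
      rw [Finset.mul_sum, ← Finset.sum_add_distrib, ← Finset.sum_add_distrib]
      apply Finset.sum_congr rfl
      intro a _
      ring
    have h5 := h1 p
    have h6 := h2 p
    rw [e, h0] at h6
    linarith
  -- the sphere
  have hsum : (∑ a, ∑ p, (γ a : ℝ) * (n a p : ℝ) ^ 2) = 0 := by
    have e : ∀ a, ∑ p, (γ a : ℝ) * (n a p : ℝ) ^ 2 = (γ a : ℝ) * (R - ∑ p, z p ^ 2)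
        + 2 * ∑ p, z p * ((γ a : ℝ) * (n a p : ℝ)) := by
      intro a
      have e1 : R - ∑ p, z p ^ 2 = ∑ p, ((n a p : ℝ) ^ 2 - 2 * (z p * (n a p : ℝ))) := by
        rw [← hs a, ← Finset.sum_sub_distrib]
        apply Finset.sum_congr rfl
        intro p _
        ring
      rw [e1, Finset.mul_sum, Finset.mul_sum, ← Finset.sum_add_distrib]
      apply Finset.sum_congr rfl
      intro p _
      ring
    have e2 : ∑ a, (γ a : ℝ) = 0 := by exact_mod_cast h0
    have e3 : ∀ p, ∑ a, (γ a : ℝ) * (n a p : ℝ) = 0 := by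
      intro p
      exact_mod_cast h3 p
    simp only [e]
    rw [Finset.sum_add_distrib, ← Finset.sum_mul, e2, zero_mul, zero_add, ← Finset.mul_sum,
      Finset.sum_comm]
    have : ∀ p, ∑ a, z p * ((γ a : ℝ) * (n a p : ℝ)) = 0 := by
      intro p
      rw [← Finset.mul_sum, e3 p, mul_zero]
    simp [this]
  have hsum' : (∑ p, ∑ a, γ a * (n a p : ℚ) ^ 2) = 0 := by
    rw [Finset.sum_comm]
    have : ((∑ a, ∑ p, γ a * (n a p : ℚ) ^ 2 : ℚ) : ℝ) = 0 := by
      push_cast
      exact hsum
    exact_mod_cast this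
  have hfin : (M : ℚ) ^ 2 * ∑ p, B p p = 0 := by
    rw [Finset.mul_sum]
    have : ∀ p, (M : ℚ) ^ 2 * B p p = - ∑ a, γ a * (n a p : ℚ) ^ 2 := fun p => by
      linarith [h1 p]
    simp only [this, Finset.sum_neg_distrib, hsum', neg_zero]
  have hM : (M : ℚ) ^ 2 ≠ 0 := pow_ne_zero _ (by exact_mod_cast hM0)
  exact (mul_eq_zero.mp hfin).resolve_left hM


/-- Representation by multisets of the elements of a rational span. -/
theorem exists_rep {Col V : Type*} [AddCommGroup V] [Module ℚ V] (L : Col → V) (v : V)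
    (hv : v ∈ Submodule.span ℚ (Set.range L)) :
    ∃ (P N : Multiset Col) (K : ℕ), 0 < K ∧ (P.map L).sum - (N.map L).sum = K • v := by
  have hex : (repVals L (fun _ => 0) (fun _ => 0) v).Nonempty := by
    induction hv using Submodule.span_induction with
    | mem v hv =>
      obtain ⟨c, rfl⟩ := hv
      exact ⟨_, {c}, 0, 1, one_pos, by simp, rfl⟩
    | zero => exact ⟨_, 0, 0, 1, one_pos, by simp, rfl⟩
    | add v v' _ _ hv hv' =>
      obtain ⟨t, ht⟩ := hv
      obtain ⟨t', ht'⟩ := hv'
      exact ⟨_, rep_add_vals ht ht'⟩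
    | smul q v _ hv =>
      obtain ⟨t, ht⟩ := hv
      rcases lt_trichotomy q 0 with hq | rfl | hq
      · have hswap : ∀ t ∈ repVals L (fun _ => 0) (fun _ => 0) v,
            ∃ t', t' ∈ repVals L (fun _ => 0) (fun _ => 0) (-v) := by
          rintro _ ⟨P, N, K, hK, h1, rfl⟩
          refine ⟨_, N, P, K, hK, ?_, rfl⟩
          rw [smul_neg, ← h1]
          abel
        obtain ⟨t', ht'⟩ := hswap t ht
        have h2 := rep_smul_vals ht' (-q) (by linarith)
        have h3 : (-q) • (-v) = q • v := by simp
        rw [h3] at h2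
        exact ⟨_, h2⟩
      · exact ⟨_, 0, 0, 1, one_pos, by simp, rfl⟩
      · exact ⟨_, rep_smul_vals ht q hq⟩
  obtain ⟨t, P, N, K, hK, h, -⟩ := hex
  exact ⟨P, N, K, hK, h⟩

/-- Coordinates of the target space. -/
abbrev Idx (k d : ℕ) := (Fin k × ℤ) ⊕ (Fin d × Fin d)

/-- The image of a column. -/
noncomputable def LL {k d : ℕ} (n : Fin k → Fin d → ℤ) (c : ℤ × (Fin d → ℤ)) : Idx k d →₀ ℚ :=
  ∑ a, Finsupp.single (Sum.inl (a, phi n a c)) 1 +
    ∑ p, ∑ q, Finsupp.single (Sum.inr (p, q)) ((c.2 p * c.2 q : ℤ) : ℚ)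

/-- The target vector. -/
noncomputable def ww (k d : ℕ) : Idx k d →₀ ℚ := ∑ p, Finsupp.single (Sum.inr (p, p)) 1

/-- The integer signed array exists, in the span form. -/
theorem ww_mem {k d : ℕ} (n : Fin k → Fin d → ℤ) (hn : Function.Injective n)
    (z : Fin d → ℝ) (R : ℝ) (hs : ∀ a, ∑ p, ((n a p : ℝ) - z p) ^ 2 = R) :
    ww k d ∈ Submodule.span ℚ (Set.range (LL n)) := by
  classical
  by_contra hno
  obtain ⟨ψ, hψw, hψ⟩ := Submodule.exists_le_ker_of_notMem hno
  have hL : ∀ c, ψ (LL n c) = 0 := fun c =>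
    hψ (Submodule.subset_span ⟨c, rfl⟩)
  have hsingle : ∀ (i : Idx k d) (r : ℚ), ψ (Finsupp.single i r) = r * ψ (Finsupp.single i 1) := by
    intro i r
    rw [← smul_eq_mul, ← map_smul, Finsupp.smul_single_one]
  apply hψw
  have hk := key n hn z R hs (fun a t => ψ (Finsupp.single (Sum.inl (a, t)) 1))
    (fun p q => ψ (Finsupp.single (Sum.inr (p, q)) 1)) (by
      intro c
      have := hL c
      simp only [LL, map_add, map_sum] at this
      rw [← this]
      congr 1
      apply Finset.sum_congr rfl
      intro p _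
      apply Finset.sum_congr rfl
      intro q _
      exact (hsingle _ _).symm)
  simp only [ww, map_sum]
  exact hk

/-- Coordinates of a sum of images. -/
theorem sum_LL_inl {k d : ℕ} (n : Fin k → Fin d → ℤ) (P : Multiset (ℤ × (Fin d → ℤ))) (a : Fin k)
    (t : ℤ) : (P.map (LL n)).sum (Sum.inl (a, t)) = ((P.map (phi n a)).count t : ℚ) := by
  classical
  induction P using Multiset.induction_on with
  | empty => simp
  | cons c P ih =>
    simp only [Multiset.map_cons, Multiset.sum_cons, Finsupp.add_apply, ih, Multiset.count_cons]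
    have h1 : LL n c (Sum.inl (a, t)) = if phi n a c = t then 1 else 0 := by
      simp only [LL, Finsupp.add_apply, Finsupp.finsetSum_apply, Finsupp.single_apply]
      have h2 : ∀ (p q : Fin d), (if (Sum.inr (p, q) : Idx k d) = Sum.inl (a, t) then
          (((c.2 p * c.2 q : ℤ)) : ℚ) else 0) = 0 := by
        intro p q
        simp
      simp only [h2, Finset.sum_const_zero, add_zero]
      rw [Finset.sum_eq_single a]
      · by_cases h : phi n a c = t
        · simp [h]
        · simp [h]
      · intro b _ hb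
        have : ¬ ((Sum.inl (b, phi n b c) : Idx k d) = Sum.inl (a, t)) := by
          simp [hb]
        simp [this]
      · simp
    rw [h1]
    by_cases h : phi n a c = t
    · simp [h]
      ring
    · have h' : ¬ t = phi n a c := fun e => h e.symm
      simp [h, h']

theorem sum_LL_inr {k d : ℕ} (n : Fin k → Fin d → ℤ) (P : Multiset (ℤ × (Fin d → ℤ))) (p q : Fin d) :
    (P.map (LL n)).sum (Sum.inr (p, q)) =
      ((P.map (fun c => c.2 p * c.2 q)).sum : ℤ) := by
  classical
  induction P using Multiset.induction_on with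
  | empty => simp
  | cons c P ih =>
    simp only [Multiset.map_cons, Multiset.sum_cons, Finsupp.add_apply, ih]
    have h1 : LL n c (Sum.inr (p, q)) = ((c.2 p * c.2 q : ℤ) : ℚ) := by
      simp only [LL, Finsupp.add_apply, Finsupp.finsetSum_apply, Finsupp.single_apply]
      have h2 : ∀ (a : Fin k), (if (Sum.inl (a, phi n a c) : Idx k d) = Sum.inr (p, q) then
          (1 : ℚ) else 0) = 0 := by
        intro a
        simp
      simp only [h2, Finset.sum_const_zero, zero_add]
      rw [Finset.sum_eq_single p]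
      · rw [Finset.sum_eq_single q]
        · simp
        · intro q' _ hq'
          have : ¬ ((Sum.inr (p, q') : Idx k d) = Sum.inr (p, q)) := by
            simp [hq']
          simp [this]
        · simp
      · intro p' _ hp'
        apply Finset.sum_eq_zero
        intro q' _
        have : ¬ ((Sum.inr (p', q') : Idx k d) = Sum.inr (p, q)) := by
          simp [hp']
        simp [this]
      · simp
    rw [h1]
    push_cast
    ring

theorem ww_inl {k d : ℕ} (a : Fin k) (t : ℤ) : ww k d (Sum.inl (a, t)) = 0 := by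
  classical
  simp [ww, Finsupp.finsetSum_apply, Finsupp.single_apply]

theorem ww_inr {k d : ℕ} (p q : Fin d) : ww k d (Sum.inr (p, q)) = if p = q then 1 else 0 := by
  classical
  simp only [ww, Finsupp.finsetSum_apply, Finsupp.single_apply]
  simp only [Sum.inr.injEq, Prod.mk.injEq]
  rw [Finset.sum_eq_single p]
  · by_cases h : p = q
    · simp [h]
    · simp [h]
  · intro b _ hb
    simp [hb]
  · simp

/-- Integer form of the signed array. -/
theorem exists_integer_array {k d : ℕ} (n : Fin k → Fin d → ℤ) (hn : Function.Injective n)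
    (z : Fin d → ℝ) (R : ℝ) (hs : ∀ a, ∑ p, ((n a p : ℝ) - z p) ^ 2 = R) :
    ∃ (P N : Multiset (ℤ × (Fin d → ℤ))) (K : ℕ), 0 < K ∧
      (∀ a, P.map (phi n a) = N.map (phi n a)) ∧
      (∀ p q, (P.map (fun c => c.2 p * c.2 q)).sum - (N.map (fun c => c.2 p * c.2 q)).sum =
        if p = q then (K : ℤ) else 0) := by
  classical
  obtain ⟨P, N, K, hK, h⟩ := exists_rep (LL n) (ww k d) (ww_mem n hn z R hs)
  refine ⟨P, N, K, hK, ?_, ?_⟩
  · intro a
    ext t
    have h1 := DFunLike.congr_fun h (Sum.inl (a, t))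
    simp only [Finsupp.sub_apply, sum_LL_inl, Finsupp.smul_apply, ww_inl, smul_zero] at h1
    have h2 : ((P.map (phi n a)).count t : ℚ) = ((N.map (phi n a)).count t : ℚ) := sub_eq_zero.mp h1
    exact_mod_cast h2
  · intro p q
    have h1 := DFunLike.congr_fun h (Sum.inr (p, q))
    simp only [Finsupp.sub_apply, sum_LL_inr, Finsupp.smul_apply, ww_inr] at h1
    have h2 : (((P.map (fun c => c.2 p * c.2 q)).sum - (N.map (fun c => c.2 p * c.2 q)).sum : ℤ) : ℚ)
        = ((if p = q then (K : ℤ) else 0 : ℤ) : ℚ) := by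
      rw [Int.cast_sub, h1]
      by_cases hpq : p = q
      · simp [hpq]
      · simp [hpq]
    exact_mod_cast h2


/-- **Every finite spherical family with rational coordinates has a signed balanced array.**
The centre `z` and the radius may be arbitrary real numbers. -/
theorem signedArray_of_rational {k d : ℕ} (x : Fin k → Fin d → ℝ) (hx : Function.Injective x)
    (hrat : ∀ a p, ∃ q : ℚ, x a p = q) (z : Fin d → ℝ) (R : ℝ)
    (hs : ∀ a, ∑ p, (x a p - z p) ^ 2 = R) : SignedArray x := by
  classical
  choose q hq using hrat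
  -- common denominator
  let D : ℕ := ∏ a, ∏ p, (q a p).den
  have hD : 0 < D := Finset.prod_pos fun a _ => Finset.prod_pos fun p _ => (q a p).den_pos
  have hDR : (D : ℝ) ≠ 0 := by exact_mod_cast hD.ne'
  have hn : ∀ a p, ∃ m : ℤ, x a p = (m : ℝ) / D := by
    intro a p
    have hdvd : (q a p).den ∣ D :=
      (Finset.dvd_prod_of_mem _ (Finset.mem_univ p)).trans
        (Finset.dvd_prod_of_mem (fun a => ∏ p, (q a p).den) (Finset.mem_univ a))
    obtain ⟨l, hl⟩ := hdvd
    refine ⟨(q a p).num * l, ?_⟩
    rw [hq, hl]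
    have hden : ((q a p).den : ℝ) ≠ 0 := by exact_mod_cast (q a p).den_pos.ne'
    have hl0 : (l : ℝ) ≠ 0 := by
      intro h0
      apply hDR
      rw [hl]
      push_cast
      rw [h0, mul_zero]
    have e : ((q a p : ℚ) : ℝ) = ((q a p).num : ℝ) / ((q a p).den : ℝ) := by
      exact_mod_cast (Rat.num_div_den (q a p)).symm
    rw [e]
    push_cast
    field_simp
  choose n hn' using hn
  have hinj : Function.Injective n := by
    intro a b hab
    apply hx
    funext p
    rw [hn', hn', hab]
  have hsph : ∀ a, ∑ p, ((n a p : ℝ) - (D : ℝ) * z p) ^ 2 = (D : ℝ) ^ 2 * R := by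
    intro a
    rw [← hs a, Finset.mul_sum]
    apply Finset.sum_congr rfl
    intro p _
    rw [hn']
    field_simp
  obtain ⟨P, N, K, hK, hlaw, hmom⟩ := exists_integer_array n hinj _ _ hsph
  let ι : ℤ × (Fin d → ℤ) → ℝ × (Fin d → ℝ) := fun c => ((c.1 : ℝ) / D, fun p => (c.2 p : ℝ))
  have hcol : ∀ (a : Fin k) (c : ℤ × (Fin d → ℤ)),
      col (ι c) (x a) = ((phi n a c : ℤ) : ℝ) / D := by
    intro a c
    simp only [col, ι, phi]
    push_cast
    rw [add_div, Finset.sum_div]
    congr 1
    apply Finset.sum_congr rfl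
    intro p _
    rw [hn']
    ring
  have hmomR : ∀ (A : Multiset (ℤ × (Fin d → ℤ))) (p r : Fin d),
      ((A.map ι).map (fun c => c.2 p * c.2 r)).sum = (((A.map (fun c => c.2 p * c.2 r)).sum : ℤ) : ℝ) := by
    intro A p r
    induction A using Multiset.induction_on with
    | empty => simp
    | cons c A ih =>
      simp only [Multiset.map_cons, Multiset.sum_cons, ih]
      push_cast
      simp [ι]
  refine ⟨P.map ι, N.map ι, K, by exact_mod_cast hK, ?_, ?_⟩
  · intro a
    simp only [Multiset.map_map, Function.comp_def, hcol]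
    have h := congrArg (Multiset.map (fun t : ℤ => (t : ℝ) / D)) (hlaw a)
    simpa only [Multiset.map_map, Function.comp_def] using h
  · intro p r
    rw [hmomR, hmomR]
    have h := hmom p r
    have h2 : (((P.map (fun c => c.2 p * c.2 r)).sum - (N.map (fun c => c.2 p * c.2 r)).sum : ℤ) : ℝ)
        = ((if p = r then (K : ℤ) else 0 : ℤ) : ℝ) := by rw [h]
    rw [Int.cast_sub] at h2
    rw [h2]
    by_cases hpr : p = r
    · simp [hpr]
    · simp [hpr]

end Vale.Agent.Lib.P058S.RatDual
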