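import Mathlib
import Vale.Agent.Lib.P058S.Defs
import Vale.Agent.Lib.P058C.Defs

/-!
# The array condition gives a signed balanced array
-/

namespace Vale.Agent.Lib.P058S.Nec

open Finset Vale.Agent.Lib.P058C

variable {k d : ℕ}

/-- Polarisation for sums over a multiset. -/
theorem msum_gram {α : Type} (A : Multiset α) (F f g h : α → ℝ)
    (H : ∀ t, F t = (f t + g t - h t) / 2) :
    (A.map F).sum = ((A.map f).sum + (A.map g).sum - (A.map h).sum) / 2 := by
  induction A using Multiset.induction_on with
  | empty => simp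
  | cons a A ih =>
    simp only [Multiset.map_cons, Multiset.sum_cons, ih, H a]
    ring

/-- Expansion of a sum of squares of linear combinations. -/
theorem msum_double {α : Type} (A : Multiset α) (b : Fin k → ℝ) (s : Fin k → α → ℝ) :
    (A.map (fun t => (∑ i, b i * s i t) ^ 2)).sum =
      ∑ i, ∑ j, b i * b j * (A.map (fun t => s i t * s j t)).sum := by
  induction A using Multiset.induction_on with
  | empty => simp
  | cons a A ih =>
    simp only [Multiset.map_cons, Multiset.sum_cons, ih, mul_add, Finset.sum_add_distrib]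
    congr 1
    rw [sq, Finset.sum_mul_sum]
    refine sum_congr rfl fun i _ => sum_congr rfl fun j _ => ?_
    ring

theorem inner_eq_sum (a b : EuclideanSpace ℝ (Fin d)) : inner ℝ a b = ∑ p, a p * b p := by
  simp [PiLp.inner_apply, mul_comm]

/-- The Gram identity for the columns. -/
theorem gram (x : Fin k → EuclideanSpace ℝ (Fin d)) (i0 : Fin k) (A : Multiset (Fin k → ℝ)) (g : ℝ)
    (hA : ∀ i j, (A.map (fun t : Fin k → ℝ => (t i - t j) ^ 2)).sum = g * dist (x i) (x j) ^ 2)
    (i j : Fin k) :
    (A.map (fun t : Fin k → ℝ => (t i - t i0) * (t j - t i0))).sum =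
      g * inner ℝ (x i - x i0) (x j - x i0) := by
  rw [msum_gram A _ (fun t => (t i - t i0) ^ 2) (fun t => (t j - t i0) ^ 2)
    (fun t => (t i - t j) ^ 2) (fun t => by ring), hA, hA, hA]
  rw [real_inner_eq_norm_mul_self_add_norm_mul_self_sub_norm_sub_mul_self_div_two]
  rw [dist_eq_norm, dist_eq_norm, dist_eq_norm]
  have : x i - x i0 - (x j - x i0) = x i - x j := by abel
  rw [this]
  ring

/-- Sum of squares of a combination of the entries of the columns. -/
theorem msum_combo (x : Fin k → EuclideanSpace ℝ (Fin d)) (i0 : Fin k) (A : Multiset (Fin k → ℝ))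
    (g : ℝ)
    (hA : ∀ i j, (A.map (fun t : Fin k → ℝ => (t i - t j) ^ 2)).sum = g * dist (x i) (x j) ^ 2)
    (b : Fin k → ℝ) :
    (A.map (fun t : Fin k → ℝ => (∑ i, b i * (t i - t i0)) ^ 2)).sum =
      g * ‖∑ i, b i • (x i - x i0)‖ ^ 2 := by
  rw [msum_double A b (fun i t => t i - t i0)]
  simp only [gram x i0 A g hA]
  rw [← real_inner_self_eq_norm_sq, sum_inner, mul_sum]
  refine sum_congr rfl fun i _ => ?_
  rw [inner_sum, mul_sum]
  refine sum_congr rfl fun j _ => ?_
  rw [inner_smul_left, inner_smul_right]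
  simp only [conj_trivial]
  ring

/-- Every column is an affine function of the points. -/
theorem exists_affine (x : Fin k → EuclideanSpace ℝ (Fin d)) (i0 : Fin k) (A : Multiset (Fin k → ℝ))
    (g : ℝ)
    (hA : ∀ i j, (A.map (fun t : Fin k → ℝ => (t i - t j) ^ 2)).sum = g * dist (x i) (x j) ^ 2)
    {t : Fin k → ℝ} (ht : t ∈ A) :
    ∃ v : EuclideanSpace ℝ (Fin d), ∀ i, inner ℝ v (x i - x i0) = t i - t i0 := by
  classical
  let L : EuclideanSpace ℝ (Fin d) →ₗ[ℝ] EuclideanSpace ℝ (Fin k) :=
    { toFun := fun v => WithLp.toLp 2 (fun i => inner ℝ v (x i - x i0))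
      map_add' := fun u w => by
        ext i
        simp [inner_add_left]
      map_smul' := fun c u => by
        ext i
        simp [inner_smul_left] }
  let s : EuclideanSpace ℝ (Fin k) := WithLp.toLp 2 (fun i => t i - t i0)
  have hs : s ∈ LinearMap.range L := by
    rw [← Submodule.orthogonal_orthogonal (LinearMap.range L), Submodule.mem_orthogonal]
    intro b hb
    let w : EuclideanSpace ℝ (Fin d) := ∑ i, b i • (x i - x i0)
    have h1 : inner ℝ b (L w) = 0 := (Submodule.mem_orthogonal' _ _).mp hb (L w) ⟨w, rfl⟩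
    have h2 : inner ℝ b (L w) = ‖w‖ ^ 2 := by
      rw [inner_eq_sum]
      have h3 : ∀ i, b i * (L w) i = inner ℝ w (b i • (x i - x i0)) := by
        intro i
        rw [inner_smul_right]
        rfl
      simp only [h3]
      rw [← inner_sum]
      exact real_inner_self_eq_norm_sq w
    have hw : ‖w‖ ^ 2 = 0 := by rw [← h2]; exact h1
    have hsum := msum_combo x i0 A g hA b
    have hsum' : (A.map (fun t : Fin k → ℝ => (∑ i, b i * (t i - t i0)) ^ 2)).sum = 0 := by
      rw [hsum]
      show g * ‖w‖ ^ 2 = 0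
      rw [hw, mul_zero]
    have hle : (∑ i, b i * (t i - t i0)) ^ 2 ≤
        (A.map (fun t : Fin k → ℝ => (∑ i, b i * (t i - t i0)) ^ 2)).sum :=
      Multiset.single_le_sum (by
        intro z hz
        obtain ⟨t', -, rfl⟩ := Multiset.mem_map.mp hz
        positivity) _ (Multiset.mem_map_of_mem (fun t : Fin k → ℝ => (∑ i, b i * (t i - t i0)) ^ 2) ht)
    rw [hsum'] at hle
    have hz : ∑ i, b i * (t i - t i0) = 0 := by
      have h5 := sq_nonneg (∑ i, b i * (t i - t i0))
      exact pow_eq_zero_iff (two_ne_zero) |>.mp (le_antisymm hle h5)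
    rw [inner_eq_sum]
    exact hz
  obtain ⟨v, hv⟩ := hs
  refine ⟨v, fun i => ?_⟩
  have := congrArg (fun z : EuclideanSpace ℝ (Fin k) => z i) hv
  simpa [L, s] using this

/-- The coordinates of the standard basis. -/
noncomputable def eb (p : Fin d) : EuclideanSpace ℝ (Fin d) := EuclideanSpace.single p 1

theorem eb_apply (p a : Fin d) : (eb p) a = if a = p then 1 else 0 := by
  simp [eb]

theorem inner_eb (v : EuclideanSpace ℝ (Fin d)) (p : Fin d) : inner ℝ v (eb p) = v p := by
  rw [inner_eq_sum]
  simp [eb_apply]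

theorem inner_eb_eb (p q : Fin d) : inner ℝ (eb p) (eb q) = if p = q then (1 : ℝ) else 0 := by
  rw [inner_eb, eb_apply]
  by_cases h : p = q
  · simp [h]
  · simp [h, Ne.symm h]

section Main

variable (x : Fin k → EuclideanSpace ℝ (Fin d)) (i0 : Fin k)

/-- The span of the differences. -/
noncomputable def U : Submodule ℝ (EuclideanSpace ℝ (Fin d)) :=
  Submodule.span ℝ (Set.range fun i => x i - x i0)

/-- The projected linear part attached to a column. -/
noncomputable def vhat (t : Fin k → ℝ) : EuclideanSpace ℝ (Fin d) := by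
  classical
  exact (U x i0).starProjection
    (if h : ∃ v : EuclideanSpace ℝ (Fin d), ∀ i, inner ℝ v (x i - x i0) = t i - t i0
      then h.choose else 0)

/-- The affine column attached to a column. -/
noncomputable def cv (t : Fin k → ℝ) : ℝ × (Fin d → ℝ) :=
  (t i0 - inner ℝ (vhat x i0 t) (x i0), fun p => vhat x i0 t p)

theorem y_mem (i : Fin k) : x i - x i0 ∈ U x i0 := Submodule.subset_span ⟨i, rfl⟩

theorem vhat_mem (t : Fin k → ℝ) : vhat x i0 t ∈ U x i0 := by
  classical
  unfold vhat
  exact Submodule.starProjection_apply_mem _ _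

theorem inner_vhat_proj (t : Fin k → ℝ) (a : EuclideanSpace ℝ (Fin d)) :
    inner ℝ (vhat x i0 t) ((U x i0).starProjection a) = inner ℝ (vhat x i0 t) a := by
  rw [← Submodule.inner_starProjection_left_eq_right,
    Submodule.starProjection_eq_self_iff.mpr (vhat_mem x i0 t)]

theorem inner_vhat_y {t : Fin k → ℝ}
    (h : ∃ v : EuclideanSpace ℝ (Fin d), ∀ i, inner ℝ v (x i - x i0) = t i - t i0) (i : Fin k) :
    inner ℝ (vhat x i0 t) (x i - x i0) = t i - t i0 := by
  classical
  unfold vhat
  rw [dif_pos h, Submodule.inner_starProjection_left_eq_right,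
    Submodule.starProjection_eq_self_iff.mpr (y_mem x i0 i)]
  exact h.choose_spec i

theorem col_cv {t : Fin k → ℝ}
    (h : ∃ v : EuclideanSpace ℝ (Fin d), ∀ i, inner ℝ v (x i - x i0) = t i - t i0) (i : Fin k) :
    col (cv x i0 t) (fun p => x i p) = t i := by
  have h1 := inner_vhat_y x i0 h i
  rw [inner_sub_right] at h1
  unfold col cv
  simp only
  rw [← inner_eq_sum]
  linarith

/-- The quadratic form of the linear parts on the span. -/
theorem qform (A : Multiset (Fin k → ℝ)) (g : ℝ)
    (hA : ∀ i j, (A.map (fun t : Fin k → ℝ => (t i - t j) ^ 2)).sum = g * dist (x i) (x j) ^ 2)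
    {a : EuclideanSpace ℝ (Fin d)} (ha : a ∈ U x i0) :
    (A.map (fun t => inner ℝ (vhat x i0 t) a ^ 2)).sum = g * ‖a‖ ^ 2 := by
  obtain ⟨c, rfl⟩ := (Submodule.mem_span_range_iff_exists_fun ℝ).mp ha
  rw [← msum_combo x i0 A g hA c]
  congr 1
  refine Multiset.map_congr rfl fun t ht => ?_
  rw [inner_sum]
  congr 1
  refine sum_congr rfl fun i _ => ?_
  rw [inner_smul_right, inner_vhat_y x i0 (exists_affine x i0 A g hA ht) i]

/-- The second moments of the linear parts. -/
theorem moment (A : Multiset (Fin k → ℝ)) (g : ℝ)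
    (hA : ∀ i j, (A.map (fun t : Fin k → ℝ => (t i - t j) ^ 2)).sum = g * dist (x i) (x j) ^ 2)
    (p q : Fin d) :
    (A.map (fun t => vhat x i0 t p * vhat x i0 t q)).sum =
      g * inner ℝ ((U x i0).starProjection (eb p)) ((U x i0).starProjection (eb q)) := by
  set a := (U x i0).starProjection (eb p) with ha
  set b := (U x i0).starProjection (eb q) with hb
  have hamem : a ∈ U x i0 := Submodule.starProjection_apply_mem _ _
  have hbmem : b ∈ U x i0 := Submodule.starProjection_apply_mem _ _
  have hu : ∀ t, vhat x i0 t p = inner ℝ (vhat x i0 t) a := fun t => by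
    rw [ha, inner_vhat_proj, inner_eb]
  have hw : ∀ t, vhat x i0 t q = inner ℝ (vhat x i0 t) b := fun t => by
    rw [hb, inner_vhat_proj, inner_eb]
  rw [msum_gram A _ (fun t => inner ℝ (vhat x i0 t) a ^ 2) (fun t => inner ℝ (vhat x i0 t) b ^ 2)
    (fun t => inner ℝ (vhat x i0 t) (a - b) ^ 2) (fun t => by
      rw [hu, hw, inner_sub_right]
      ring)]
  rw [qform x i0 A g hA hamem, qform x i0 A g hA hbmem,
    qform x i0 A g hA (Submodule.sub_mem _ hamem hbmem)]
  rw [real_inner_eq_norm_mul_self_add_norm_mul_self_sub_norm_sub_mul_self_div_two]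
  ring

end Main

/-- The array condition with gain two gives a signed balanced array. -/
theorem signedArray_of_arrayCond (x : Fin k → EuclideanSpace ℝ (Fin d))
    (h : ArrayCond (fun i j => dist (x i) (x j) ^ 2) 2) :
    SignedArray (fun a p => x a p) := by
  classical
  rcases k with _ | k'
  · refine ⟨univ.val.map (fun r : Fin d => ((0 : ℝ), fun a => (eb r) a)), 0, 1, one_pos,
      fun i => i.elim0, fun p q => ?_⟩
    simp only [Multiset.map_map, Multiset.map_zero, Multiset.sum_zero, sub_zero]
    have h1 : ∀ r a : Fin d, (eb r) a = (eb a) r := fun r a => by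
      rw [eb_apply, eb_apply]
      by_cases h : a = r
      · simp [h]
      · simp [h, Ne.symm h]
    have h2 := inner_eb_eb p q
    rw [inner_eq_sum] at h2
    have h3 : (univ.val.map ((fun c : ℝ × (Fin d → ℝ) => c.2 p * c.2 q) ∘
        fun r : Fin d => ((0 : ℝ), fun a => (eb r) a))).sum = ∑ r, (eb p) r * (eb q) r := by
      show ∑ r, (eb r) p * (eb r) q = _
      exact sum_congr rfl fun r _ => by rw [h1 r p, h1 r q]
    rw [h3, h2]
  · obtain ⟨P, N, g, hg, hlaw, hN, hP⟩ := h
    let i0 : Fin (k' + 1) := 0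
    have hAN : ∀ i j, (N.map (fun t : Fin (k' + 1) → ℝ => (t i - t j) ^ 2)).sum =
        g * dist (x i) (x j) ^ 2 := fun i j => hN i j
    have hAP : ∀ i j, (P.map (fun t : Fin (k' + 1) → ℝ => (t i - t j) ^ 2)).sum =
        (2 * g) * dist (x i) (x j) ^ 2 := fun i j => hP i j
    let pr := (U x i0).starProjection
    let qv : Fin d → EuclideanSpace ℝ (Fin d) := fun r => eb r - pr (eb r)
    have hqperp : ∀ (r : Fin d) (u : EuclideanSpace ℝ (Fin d)), u ∈ U x i0 → inner ℝ u (qv r) = 0 :=
      fun r u hu => (Submodule.mem_orthogonal _ _).mp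
        (Submodule.sub_starProjection_mem_orthogonal (eb r)) u hu
    have hqx : ∀ (r : Fin d) (i : Fin (k' + 1)), inner ℝ (qv r) (x i) = inner ℝ (qv r) (x i0) := by
      intro r i
      have h1 := hqperp r _ (y_mem x i0 i)
      rw [real_inner_comm, inner_sub_right] at h1
      linarith
    have hsymm : ∀ r a : Fin d, (qv r) a = (qv a) r := by
      intro r a
      rw [← inner_eb (qv r) a, ← inner_eb (qv a) r]
      simp only [qv, inner_sub_left]
      have e1 : inner ℝ (pr (eb r)) (eb a) = inner ℝ (eb r) (pr (eb a)) :=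
        Submodule.inner_starProjection_left_eq_right _ _ _
      have e3 : inner ℝ (eb r) (eb a) = inner ℝ (eb a) (eb r) := real_inner_comm _ _
      have e4 : inner ℝ (eb r) (pr (eb a)) = inner ℝ (pr (eb a)) (eb r) := real_inner_comm _ _
      rw [e3, e1, e4]
    let sg : ℝ := Real.sqrt g
    have hsg : sg * sg = g := Real.mul_self_sqrt hg.le
    refine ⟨P.map (cv x i0) + univ.val.map (fun r : Fin d => ((0 : ℝ), fun a => sg * (qv r) a)),
      N.map (cv x i0) + univ.val.map (fun r : Fin d => (sg * inner ℝ (qv r) (x i0), fun _ => (0 : ℝ))),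
      g, hg, fun i => ?_, fun p q => ?_⟩
    · rw [Multiset.map_add, Multiset.map_add, Multiset.map_map, Multiset.map_map, Multiset.map_map,
        Multiset.map_map]
      congr 1
      · have h1 : P.map ((fun c => col c (fun p => x i p)) ∘ cv x i0) = P.map (fun t => t i) :=
          Multiset.map_congr rfl fun t ht => col_cv x i0 (exists_affine x i0 P _ hAP ht) i
        have h2 : N.map ((fun c => col c (fun p => x i p)) ∘ cv x i0) = N.map (fun t => t i) :=
          Multiset.map_congr rfl fun t ht => col_cv x i0 (exists_affine x i0 N _ hAN ht) i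
        rw [h1, h2]
        exact hlaw i
      · refine Multiset.map_congr rfl fun r _ => ?_
        simp only [Function.comp, col]
        rw [← hqx r i, inner_eq_sum, mul_sum]
        simp only [zero_mul, sum_const_zero, add_zero, zero_add]
        exact sum_congr rfl fun a _ => mul_assoc _ _ _
    · rw [Multiset.map_add, Multiset.map_add, Multiset.sum_add, Multiset.sum_add, Multiset.map_map,
        Multiset.map_map, Multiset.map_map, Multiset.map_map]
      have h1 : (P.map ((fun c : ℝ × (Fin d → ℝ) => c.2 p * c.2 q) ∘ cv x i0)).sum =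
          2 * g * inner ℝ (pr (eb p)) (pr (eb q)) := moment x i0 P _ hAP p q
      have h2 : (N.map ((fun c : ℝ × (Fin d → ℝ) => c.2 p * c.2 q) ∘ cv x i0)).sum =
          g * inner ℝ (pr (eb p)) (pr (eb q)) := moment x i0 N _ hAN p q
      have h3 : (univ.val.map ((fun c : ℝ × (Fin d → ℝ) => c.2 p * c.2 q) ∘
          fun r : Fin d => ((0 : ℝ), fun a => sg * (qv r) a))).sum =
          g * inner ℝ (qv p) (qv q) := by
        show ∑ r, (sg * (qv r) p) * (sg * (qv r) q) = _
        rw [inner_eq_sum, mul_sum]
        refine sum_congr rfl fun r _ => ?_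
        rw [hsymm r p, hsymm r q, ← hsg]
        ring
      have h4 : (univ.val.map ((fun c : ℝ × (Fin d → ℝ) => c.2 p * c.2 q) ∘
          fun r : Fin d => (sg * inner ℝ (qv r) (x i0), fun _ => (0 : ℝ)))).sum = 0 := by
        show ∑ _r : Fin d, ((0 : ℝ) * 0) = 0
        simp
      rw [h1, h2, h3, h4]
      -- the Pythagoras identity
      have hp : eb p = pr (eb p) + qv p := by simp [qv]
      have hq : eb q = pr (eb q) + qv q := by simp [qv]
      have h5 := inner_eb_eb p q
      rw [hp, hq, inner_add_left, inner_add_right, inner_add_right] at h5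
      have h6 : inner ℝ (pr (eb p)) (qv q) = 0 :=
        hqperp q _ (Submodule.starProjection_apply_mem _ _)
      have h7 : inner ℝ (qv p) (pr (eb q)) = 0 := by
        rw [real_inner_comm]
        exact hqperp p _ (Submodule.starProjection_apply_mem _ _)
      rw [h6, h7] at h5
      by_cases hpq : p = q
      · rw [if_pos hpq] at h5 ⊢
        nlinarith
      · rw [if_neg hpq] at h5 ⊢
        nlinarith

end Vale.Agent.Lib.P058S.Nec
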