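import Vale.Agent.Lib.P058S.Defs

/-!
# From a rational symmetric tensor to a signed balanced array

If a rational tensor `H = ∑ r_l c_l ⊗ c'_l` of affine columns is killed at each point by `π_a ⊗ π_a`
(tested against all biadditive forms) and the real multiplication of its linear part is a nonzero
multiple of the identity, then the family has a signed balanced array.
-/

namespace Vale.Agent.Lib.P058S.Ten

open Finset

section Diff

variable {V : Type} [AddCommGroup V]

/-- Iterated differences with rational values. -/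
def Dl : (V → ℚ) → List V → V → ℚ
  | f, [] => f
  | f, a :: l => Dl (fun y => f (y + a) - f y) l

lemma Dl_add (f h : V → ℚ) (l : List V) (y : V) :
    Dl (fun z => f z + h z) l y = Dl f l y + Dl h l y := by
  induction l generalizing f h with
  | nil => rfl
  | cons a l ih =>
    simp only [Dl]
    rw [← ih]
    congr 1
    funext z
    ring

lemma Dl_smul (r : ℚ) (f : V → ℚ) (l : List V) (y : V) :
    Dl (fun z => r * f z) l y = r * Dl f l y := by
  induction l generalizing f with
  | nil => rfl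
  | cons a l ih =>
    simp only [Dl]
    rw [← ih]
    congr 1
    funext z
    ring

lemma Dl_zero_fun (l : List V) (y : V) : Dl (fun _ => (0 : ℚ)) l y = 0 := by
  induction l with
  | nil => rfl
  | cons a l ih =>
    simp only [Dl, sub_self]
    exact ih

lemma Dl_sub (f h : V → ℚ) (l : List V) (y : V) :
    Dl (fun z => f z - h z) l y = Dl f l y - Dl h l y := by
  have h1 : (fun z => f z - h z) = fun z => f z + (-1 : ℚ) * h z := by
    funext z; ring
  rw [h1, Dl_add, Dl_smul]
  ring

lemma Dl_sum {ι : Type} (s : Finset ι) (F : ι → V → ℚ) (l : List V) (y : V) :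
    Dl (fun z => ∑ i ∈ s, F i z) l y = ∑ i ∈ s, Dl (F i) l y := by
  classical
  induction s using Finset.induction_on with
  | empty => simpa using Dl_zero_fun l y
  | insert a s ha ih =>
    simp only [Finset.sum_insert ha]
    rw [Dl_add, ih]

lemma Dl_append (f : V → ℚ) (l₁ l₂ : List V) (y : V) :
    Dl f (l₁ ++ l₂) y = Dl (Dl f l₁) l₂ y := by
  induction l₁ generalizing f with
  | nil => rfl
  | cons a l ih =>
    simp only [List.cons_append, Dl]
    exact ih _

lemma Dl_mem_zero (f : V → ℚ) (l : List V) (h0 : (0 : V) ∈ l) (y : V) : Dl f l y = 0 := by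
  induction l generalizing f with
  | nil => simp at h0
  | cons a l ih =>
    rcases List.mem_cons.1 h0 with h | h
    · subst h
      simp only [Dl, add_zero, sub_self]
      exact Dl_zero_fun _ _
    · simp only [Dl]
      exact ih _ h

lemma Dl_comp {W : Type} [AddCommGroup W] (π : V →+ W) (g : W → ℚ) (l : List V) (y : V) :
    Dl (fun z => g (π z)) l y = Dl g (l.map π) (π y) := by
  induction l generalizing g with
  | nil => rfl
  | cons a l ih =>
    simp only [Dl, List.map_cons]
    have h : (fun y => g (π (y + a)) - g (π y)) = fun y => (fun w => g (w + π a) - g w) (π y) := by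
      funext z
      simp [map_add]
    rw [h]
    exact ih (fun w => g (w + π a) - g w)

/-- All `K`-fold differences vanish. -/
def PK (K : ℕ) (f : V → ℚ) : Prop := ∀ l : List V, l.length = K → ∀ z, Dl f l z = 0

/-- The doubling lemma. -/
lemma Dl_dbl (n : ℕ) : ∀ f : V → ℚ, PK (n + 1) f → ∀ l : List V, l.length = n → ∀ z,
    Dl f (l.map fun a => a + a) z = 2 ^ n * Dl f l z := by
  induction n with
  | zero =>
    intro f _ l hl z
    have : l = [] := by simpa using hl
    subst this
    simp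
  | succ n ih =>
    intro f hf l hl z
    cases l with
    | nil => simp at hl
    | cons a l' =>
      have hl' : l'.length = n := by simpa using hl
      simp only [List.map_cons, Dl]
      have hf' : PK (n + 1) (fun y => f (y + (a + a)) - f y) := by
        intro m hm w
        have := hf ((a + a) :: m) (by simp [hm]) w
        simpa only [Dl] using this
      rw [ih _ hf' l' hl' z]
      have hsplit : (fun y => f (y + (a + a)) - f y) =
          fun y => 2 * (f (y + a) - f y) + ((f (y + a + a) - f (y + a)) - (f (y + a) - f y)) := by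
        funext y
        rw [← add_assoc]
        ring
      rw [hsplit, Dl_add, Dl_smul]
      have h0 : Dl (fun y => (f (y + a + a) - f (y + a)) - (f (y + a) - f y)) l' z = 0 := by
        have := hf (a :: a :: l') (by simp [hl']) z
        simpa only [Dl] using this
      rw [h0, pow_succ]
      ring

/-- The additive map `y ↦ y + y`. -/
def dblHom : V →+ V where
  toFun y := y + y
  map_zero' := by simp
  map_add' a b := by abel

/-- The operator `S - μ`. -/
def Op (μ : ℚ) (f : V → ℚ) : V → ℚ := fun y => f (y + y) - μ * f y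

lemma Op_PK (μ : ℚ) {K : ℕ} {f : V → ℚ} (hf : PK K f) : PK K (Op μ f) := by
  intro l hl z
  have h1 : Op μ f = fun y => f (dblHom y) - μ * f y := rfl
  rw [h1, Dl_sub, Dl_smul, Dl_comp dblHom, hf (l.map dblHom) (by simpa using hl), hf l hl]
  ring

/-- The step lowering the degree. -/
lemma Op_step {K : ℕ} {f : V → ℚ} (hf : PK (K + 1) f) : PK K (Op (2 ^ K) f) := by
  intro l hl z
  have h1 : Op (2 ^ K) f = fun y => f (dblHom y) - (2 ^ K : ℚ) * f y := rfl
  rw [h1, Dl_sub, Dl_smul, Dl_comp dblHom]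
  have h2 : l.map dblHom = l.map fun a => a + a := rfl
  rw [h2, Dl_dbl K f hf l hl]
  have h3 : Dl f l (dblHom z) = Dl f l z := by
    have := hf (l ++ [z]) (by simp [hl]) z
    rw [Dl_append] at this
    simp only [Dl] at this
    have e : dblHom z = z + z := rfl
    rw [e]
    linarith
  rw [h3]
  ring

end Diff

section Main

variable {k d : ℕ} (x : Fin k → Fin d → ℝ)

/-- Affine columns. -/
abbrev Gam (d : ℕ) := ℝ × (Fin d → ℝ)

/-- The evaluation at the point `x a`, as an additive map. -/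
def piH (a : Fin k) : Gam d →+ ℝ where
  toFun c := col c (x a)
  map_zero' := by simp [col]
  map_add' c c' := by
    simp only [col, Prod.fst_add, Prod.snd_add, Pi.add_apply, add_mul, Finset.sum_add_distrib]
    ring

lemma piH_apply (a : Fin k) (c : Gam d) : piH x a c = col c (x a) := rfl

/-- The rank one matrix of a column. -/
def MM (c : Gam d) : Fin d → Fin d → ℝ := fun p q => c.2 p * c.2 q

/-- The symmetric product of two columns. -/
def NN (c c' : Gam d) : Fin d → Fin d → ℝ := fun p q => c.2 p * c'.2 q + c'.2 p * c.2 q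

/-- The abstract certificate equation. -/
def Eqn (β : (Fin d → Fin d → ℝ) →+ ℚ) (g : Fin k → ℝ → ℚ) (κ : ℚ) : Prop :=
  ∀ c : Gam d, ∑ a, g a (piH x a c) + κ * β (MM c) = 0

lemma MM_dbl (β : (Fin d → Fin d → ℝ) →+ ℚ) (c : Gam d) : β (MM (c + c)) = 4 * β (MM c) := by
  have h : MM (c + c) = (4 : ℕ) • MM c := by
    funext p q
    simp only [MM, Prod.snd_add, Pi.add_apply, Pi.smul_apply, nsmul_eq_mul]
    push_cast
    ring
  rw [h, map_nsmul]
  simp

lemma Eqn.op {β : (Fin d → Fin d → ℝ) →+ ℚ} {g : Fin k → ℝ → ℚ} {κ : ℚ} (h : Eqn x β g κ) (μ : ℚ) :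
    Eqn x β (fun a => Op μ (g a)) ((4 - μ) * κ) := by
  intro c
  have h1 := h (c + c)
  have h2 := h c
  rw [MM_dbl] at h1
  simp only [map_add] at h1
  simp only [Op]
  rw [Finset.sum_sub_distrib, ← Finset.mul_sum]
  linear_combination h1 - μ * h2

/-- Reduction to quadratic data. -/
lemma reduce (K : ℕ) : ∀ (g : Fin k → ℝ → ℚ) (κ : ℚ), κ ≠ 0 → ∀ β : (Fin d → Fin d → ℝ) →+ ℚ,
    Eqn x β g κ → (∀ a, PK (K + 3) (g a)) →
    ∃ (g' : Fin k → ℝ → ℚ) (κ' : ℚ), κ' ≠ 0 ∧ Eqn x β g' κ' ∧ ∀ a, PK 3 (g' a) := by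
  induction K with
  | zero => exact fun g κ hκ β h hP => ⟨g, κ, hκ, h, by simpa using hP⟩
  | succ K ih =>
    intro g κ hκ β h hP
    refine ih (fun a => Op (2 ^ (K + 3)) (g a)) ((4 - 2 ^ (K + 3)) * κ) ?_ β (h.op x _) ?_
    · apply mul_ne_zero _ hκ
      have : (8 : ℚ) ≤ 2 ^ (K + 3) := by
        rw [pow_add]
        have : (1 : ℚ) ≤ 2 ^ K := one_le_pow₀ (by norm_num)
        norm_num
        linarith
      intro h0
      linarith
    · intro a
      exact Op_step (K := K + 3) (hP a)

/-- Final normal form. -/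
lemma normal_form {g : Fin k → ℝ → ℚ} {κ : ℚ} (hκ : κ ≠ 0) {β : (Fin d → Fin d → ℝ) →+ ℚ}
    (h : Eqn x β g κ) (hP : ∀ a, PK 3 (g a)) :
    ∃ (g' : Fin k → ℝ → ℚ) (κ' : ℚ), κ' ≠ 0 ∧ Eqn x β g' κ' ∧ (∀ a, PK 3 (g' a)) ∧
      ∀ a y, g' a (y + y) = 4 * g' a y := by
  refine ⟨fun a => Op 1 (Op 2 (g a)), (4 - 1) * ((4 - 2) * κ), ?_, (h.op x 2).op x 1,
    fun a => Op_PK _ (Op_PK _ (hP a)), ?_⟩
  · apply mul_ne_zero (by norm_num)
    exact mul_ne_zero (by norm_num) hκ
  · intro a y
    have h2 : PK 2 (Op (2 ^ 2) (g a)) := Op_step (K := 2) (hP a)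
    have h1 : PK 1 (Op (2 ^ 1) (Op (2 ^ 2) (g a))) := Op_step (K := 1) h2
    have h0 : PK 0 (Op (2 ^ 0) (Op (2 ^ 1) (Op (2 ^ 2) (g a)))) := Op_step (K := 0) h1
    have := h0 [] rfl y
    simp only [Dl, Op] at this ⊢
    norm_num at this
    linear_combination this

/-- The polar form. -/
def Pol (f : ℝ → ℚ) (u w : ℝ) : ℚ := f (u + w) - f u - f w

lemma Pol_add_left {f : ℝ → ℚ} (h0 : f 0 = 0) (hP : PK 3 f) (u u' w : ℝ) :
    Pol f (u + u') w = Pol f u w + Pol f u' w := by
  have := hP [u, u', w] rfl 0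
  simp only [Dl, zero_add] at this
  simp only [Pol]
  have e1 : w + u' + u = u + u' + w := by ring
  have e2 : w + u' = u' + w := by ring
  have e3 : w + u = u + w := by ring
  have e4 : u' + u = u + u' := by ring
  rw [e1, e2, e3, e4, h0] at this
  linarith

lemma Pol_comm (f : ℝ → ℚ) (u w : ℝ) : Pol f u w = Pol f w u := by
  simp only [Pol, add_comm u w]
  ring

lemma Pol_add_right {f : ℝ → ℚ} (h0 : f 0 = 0) (hP : PK 3 f) (u w w' : ℝ) :
    Pol f u (w + w') = Pol f u w + Pol f u w' := by
  rw [Pol_comm f u (w + w'), Pol_add_left h0 hP, Pol_comm f w u, Pol_comm f w' u]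

/-- **The contradiction from a tensor.** -/
theorem no_eqn {ι : Type} [Fintype ι] (r : ι → ℚ) (c c' : ι → Gam d)
    (hA : ∀ (a : Fin k) (B : ℝ → ℝ → ℚ), (∀ u u' w, B (u + u') w = B u w + B u' w) →
      (∀ u w w', B u (w + w') = B u w + B u w') →
      ∑ l, r l * B (piH x a (c l)) (piH x a (c' l)) = 0)
    {β : (Fin d → Fin d → ℝ) →+ ℚ} {g : Fin k → ℝ → ℚ} {κ : ℚ} (hκ : κ ≠ 0)
    (h : Eqn x β g κ) (hP : ∀ a, PK 3 (g a)) (hD : ∀ a y, g a (y + y) = 4 * g a y) :
    ∑ l, r l * β (NN (c l) (c' l)) = 0 := by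
  have h00 : ∀ a, g a 0 = 0 := by
    intro a
    have := hD a 0
    rw [add_zero] at this
    linarith
  have hpol : ∀ c₁ c₂ : Gam d, ∑ a, Pol (g a) (piH x a c₁) (piH x a c₂) + κ * β (NN c₁ c₂) = 0 := by
    intro c₁ c₂
    have e1 := h (c₁ + c₂)
    have e2 := h c₁
    have e3 := h c₂
    have hM : MM (c₁ + c₂) = MM c₁ + MM c₂ + NN c₁ c₂ := by
      funext p q
      simp only [MM, NN, Prod.snd_add, Pi.add_apply]
      ring
    rw [hM, map_add, map_add] at e1
    simp only [map_add] at e1
    simp only [Pol]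
    rw [Finset.sum_sub_distrib, Finset.sum_sub_distrib]
    linear_combination e1 - e2 - e3
  have hsum : ∑ l, r l * (∑ a, Pol (g a) (piH x a (c l)) (piH x a (c' l)) +
      κ * β (NN (c l) (c' l))) = 0 := by
    apply Finset.sum_eq_zero
    intro l _
    rw [hpol, mul_zero]
  have hzero : ∑ a, ∑ l, r l * Pol (g a) (piH x a (c l)) (piH x a (c' l)) = 0 := by
    apply Finset.sum_eq_zero
    intro a _
    exact hA a (Pol (g a)) (Pol_add_left (h00 a) (hP a)) (Pol_add_right (h00 a) (hP a))
  have hexp : ∑ l, r l * (∑ a, Pol (g a) (piH x a (c l)) (piH x a (c' l)) +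
      κ * β (NN (c l) (c' l))) =
      ∑ a, ∑ l, r l * Pol (g a) (piH x a (c l)) (piH x a (c' l)) +
        κ * ∑ l, r l * β (NN (c l) (c' l)) := by
    rw [Finset.sum_comm, Finset.mul_sum, ← Finset.sum_add_distrib]
    apply Finset.sum_congr rfl
    intro l _
    rw [mul_add, Finset.mul_sum]
    ring
  rw [hexp, hzero, zero_add] at hsum
  exact (mul_eq_zero.1 hsum).resolve_left hκ

/-- Differences of the quadratic part. -/
lemma quad_P3 (β : (Fin d → Fin d → ℝ) →+ ℚ) (a b e : Gam d) (l : List (Gam d)) (y : Gam d) :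
    Dl (fun c => β (MM c)) (a :: b :: e :: l) y = 0 := by
  simp only [Dl]
  have h : (fun y : Gam d =>
      β (MM (y + e + b + a)) - β (MM (y + e + b)) - (β (MM (y + e + a)) - β (MM (y + e))) -
        (β (MM (y + b + a)) - β (MM (y + b)) - (β (MM (y + a)) - β (MM y)))) = fun _ => 0 := by
    funext y
    have hT : MM (y + e + b + a) + MM (y + b) + MM (y + a) + MM (y + e) =
        MM (y + e + b) + MM (y + e + a) + MM (y + b + a) + MM y := by
      funext p q
      simp only [MM, Prod.snd_add, Pi.add_apply]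
      ring
    have := congrArg β hT
    simp only [map_add] at this
    linarith
  rw [h]
  exact Dl_zero_fun _ _

/-- Shifting by any amount with a chosen point fixed. -/
lemma exists_step (hinj : Function.Injective x) {a₀ b : Fin k} (h : a₀ ≠ b) (t : ℝ) :
    ∃ c : Gam d, piH x a₀ c = t ∧ piH x b c = 0 := by
  have hD : (∑ p, (x a₀ p - x b p) ^ 2) ≠ 0 := by
    intro h0
    apply h
    apply hinj
    funext p
    have h1 := (Finset.sum_eq_zero_iff_of_nonneg (fun _ _ => sq_nonneg _)).1 h0 p (Finset.mem_univ _)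
    have h2 : x a₀ p - x b p = 0 := by simpa using h1
    linarith
  obtain ⟨S, hS⟩ : ∃ S : ℝ, S = ∑ p, (x a₀ p - x b p) ^ 2 := ⟨_, rfl⟩
  rw [← hS] at hD
  obtain ⟨v, hv⟩ : ∃ v : Fin d → ℝ, ∀ p, v p = t / S * (x a₀ p - x b p) := ⟨_, fun _ => rfl⟩
  refine ⟨(-∑ p, v p * x b p, v), ?_, ?_⟩
  · simp only [piH_apply, col]
    have h3 : ∑ p, v p * x a₀ p - ∑ p, v p * x b p = t := by
      rw [← Finset.sum_sub_distrib]
      have h4 : ∀ p, v p * x a₀ p - v p * x b p = t / S * (x a₀ p - x b p) ^ 2 := by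
        intro p; rw [hv]; ring
      simp only [h4]
      rw [← Finset.mul_sum, ← hS]
      field_simp
    linarith
  · simp only [piH_apply, col]
    ring

/-- Lifting a list of shifts. -/
lemma lift_list (hinj : Function.Injective x) (a₀ : Fin k) :
    ∀ S : Finset (Fin k), a₀ ∉ S → ∀ l : List ℝ, l.length = S.card →
      ∃ ls : List (Gam d), ls.map (piH x a₀) = l ∧ ∀ b ∈ S, (0 : ℝ) ∈ ls.map (piH x b) := by
  classical
  intro S
  induction S using Finset.induction_on with
  | empty =>
    intro _ l hl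
    have : l = [] := by simpa using hl
    subst this
    exact ⟨[], rfl, by simp⟩
  | insert b S hb ih =>
    intro ha l hl
    rw [Finset.card_insert_of_notMem hb] at hl
    cases l with
    | nil => simp at hl
    | cons t l' =>
      have hl' : l'.length = S.card := by simpa using hl
      have hab : a₀ ≠ b := fun h => ha (by simp [h])
      have ha' : a₀ ∉ S := fun h => ha (Finset.mem_insert_of_mem h)
      obtain ⟨ls, h1, h2⟩ := ih ha' l' hl'
      obtain ⟨c, hc1, hc2⟩ := exists_step x hinj hab t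
      refine ⟨c :: ls, by simp [hc1, h1], ?_⟩
      intro b' hb'
      rcases Finset.mem_insert.1 hb' with rfl | h3
      · simp [hc2]
      · simp only [List.map_cons, List.mem_cons]
        right
        exact h2 b' h3

/-- The differences of the certificate functions vanish. -/
lemma eqn_PK (hinj : Function.Injective x) {β : (Fin d → Fin d → ℝ) →+ ℚ} {g : Fin k → ℝ → ℚ}
    (h : Eqn x β g 1) (a₀ : Fin k) : PK ((k - 1) + 3) (g a₀) := by
  classical
  intro l hl z
  have hcard : (Finset.univ.erase a₀).card = k - 1 := by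
    rw [Finset.card_erase_of_mem (Finset.mem_univ _), Finset.card_univ, Fintype.card_fin]
  obtain ⟨t₁, t₂, t₃, l', rfl, hl'⟩ : ∃ t₁ t₂ t₃ l', l = t₁ :: t₂ :: t₃ :: l' ∧ l'.length = k - 1 := by
    match l, hl with
    | t₁ :: t₂ :: t₃ :: l', hl => exact ⟨t₁, t₂, t₃, l', rfl, by simpa using hl⟩
  obtain ⟨ls', h1, h2⟩ := lift_list x hinj a₀ (Finset.univ.erase a₀) (by simp) l' (by rw [hcard, hl'])
  have hτ : ∀ (t : ℝ) (a : Fin k), piH x a ((t, 0) : Gam d) = t := by
    intro t a
    simp [piH_apply, col]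
  obtain ⟨ls, hls⟩ : ∃ ls : List (Gam d), ls = (t₁, 0) :: (t₂, 0) :: (t₃, 0) :: ls' := ⟨_, rfl⟩
  have hfun : (fun c : Gam d => (∑ a, g a (piH x a c)) + (1 : ℚ) * β (MM c)) = fun _ => 0 := by
    funext c
    exact h c
  have hE : Dl (fun c : Gam d => (∑ a, g a (piH x a c)) + (1 : ℚ) * β (MM c)) ls ((z, 0) : Gam d) = 0 := by
    rw [hfun]
    exact Dl_zero_fun _ _
  rw [Dl_add, Dl_smul, Dl_sum] at hE
  have hq : Dl (fun c : Gam d => β (MM c)) ls ((z, 0) : Gam d) = 0 := by
    rw [hls]
    exact quad_P3 β _ _ _ _ _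
  rw [hq, mul_zero, add_zero] at hE
  rw [Finset.sum_eq_single a₀] at hE
  · rw [Dl_comp (piH x a₀) (g a₀), hτ] at hE
    have hm : ls.map (piH x a₀) = t₁ :: t₂ :: t₃ :: l' := by
      rw [hls]
      simp [hτ, h1]
    rwa [hm] at hE
  · intro b _ hb
    rw [Dl_comp (piH x b) (g b)]
    apply Dl_mem_zero
    rw [hls]
    simp only [List.map_cons, List.mem_cons]
    right; right; right
    exact h2 b (Finset.mem_erase.2 ⟨hb, Finset.mem_univ _⟩)
  · intro h0
    exact absurd (Finset.mem_univ _) h0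

/-- Weighted multisets. -/
noncomputable def wm (T : Finset (Gam d)) (a : Gam d → ℕ) : Multiset (Gam d) :=
  ∑ t ∈ T, Multiset.replicate (a t) t

lemma wm_count {β' : Type} [DecidableEq β'] (T : Finset (Gam d)) (a : Gam d → ℕ) (f : Gam d → β') (b : β') :
    ((wm T a).map f).count b = ∑ t ∈ T, if f t = b then a t else 0 := by
  classical
  unfold wm
  induction T using Finset.induction_on with
  | empty => simp
  | insert x' s hx ih =>
    rw [Finset.sum_insert hx, Finset.sum_insert hx, Multiset.map_add, Multiset.count_add, ih,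
      Multiset.map_replicate, Multiset.count_replicate]

lemma wm_sum (T : Finset (Gam d)) (a : Gam d → ℕ) (f : Gam d → ℝ) :
    ((wm T a).map f).sum = ∑ t ∈ T, (a t : ℝ) * f t := by
  classical
  unfold wm
  induction T using Finset.induction_on with
  | empty => simp
  | insert x' s hx ih =>
    rw [Finset.sum_insert hx, Finset.sum_insert hx, Multiset.map_add, Multiset.sum_add, ih,
      Multiset.map_replicate, Multiset.sum_replicate]
    simp

/-- Rational weights give a signed array. -/
lemma signedArray_of_weights (T : Finset (Gam d)) (n : Gam d → ℚ) {s : ℝ} (hs : s ≠ 0)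
    (hlaw : ∀ (a : Fin k) (t : ℝ), ∑ c ∈ T, (if col c (x a) = t then n c else 0) = 0)
    (hmom : ∀ p q, ∑ c ∈ T, (n c : ℝ) * (c.2 p * c.2 q) = if p = q then s else 0) :
    SignedArray x := by
  classical
  obtain ⟨D, hD⟩ : ∃ D : ℕ, D = T.prod fun c => (n c).den := ⟨_, rfl⟩
  have hD0 : 0 < D := by
    rw [hD]
    exact Finset.prod_pos fun c _ => (n c).den_pos
  obtain ⟨m, hm⟩ : ∃ m : Gam d → ℤ, ∀ c ∈ T, (m c : ℚ) = D * n c := by
    refine ⟨fun c => ((D / (n c).den : ℕ) : ℤ) * (n c).num, ?_⟩
    intro c hc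
    have hdvd : (n c).den ∣ D := by
      rw [hD]
      exact Finset.dvd_prod_of_mem _ hc
    obtain ⟨e, he⟩ := hdvd
    have h1 : D / (n c).den = e := by
      rw [he]
      exact Nat.mul_div_cancel_left _ (n c).den_pos
    dsimp only
    rw [h1, he]
    push_cast
    have h2 : ((n c).num : ℚ) = n c * (n c).den := (Rat.mul_den_eq_num (n c)).symm
    rw [h2]
    ring
  have hP : ∀ c, (((m c).toNat : ℤ) - ((-m c).toNat : ℤ)) = m c := fun c => Int.toNat_sub_toNat_neg _
  have hlaws : ∀ a, (wm T fun c => (m c).toNat).map (fun c => col c (x a)) =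
      (wm T fun c => (-m c).toNat).map (fun c => col c (x a)) := by
    intro a
    ext t
    rw [wm_count, wm_count]
    have h3 : ∑ c ∈ T, (if col c (x a) = t then (m c : ℚ) else 0) = 0 := by
      have h4 : ∀ c ∈ T, (if col c (x a) = t then (m c : ℚ) else 0) =
          D * (if col c (x a) = t then n c else 0) := by
        intro c hc
        by_cases h : col c (x a) = t
        · simp [h, hm c hc]
        · simp [h]
      rw [Finset.sum_congr rfl h4, ← Finset.mul_sum, hlaw, mul_zero]
    have h5 : ((∑ c ∈ T, if col c (x a) = t then (m c).toNat else 0 : ℕ) : ℚ) =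
        ((∑ c ∈ T, if col c (x a) = t then (-m c).toNat else 0 : ℕ) : ℚ) := by
      push_cast
      rw [← sub_eq_zero, ← Finset.sum_sub_distrib, ← h3]
      apply Finset.sum_congr rfl
      intro c _
      by_cases h : col c (x a) = t
      · simp only [h, if_true]
        have h6 : ((m c).toNat : ℚ) - ((-m c).toNat : ℚ) = (m c : ℚ) := by
          exact_mod_cast hP c
        exact h6
      · simp [h]
    exact_mod_cast h5
  have hmoms : ∀ p q, ((wm T fun c => (m c).toNat).map (fun c => c.2 p * c.2 q)).sum -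
      ((wm T fun c => (-m c).toNat).map (fun c => c.2 p * c.2 q)).sum =
        (D : ℝ) * (if p = q then s else 0) := by
    intro p q
    rw [wm_sum, wm_sum, ← Finset.sum_sub_distrib, ← hmom, Finset.mul_sum]
    apply Finset.sum_congr rfl
    intro c hc
    have h7 : ((m c).toNat : ℝ) - ((-m c).toNat : ℝ) = (m c : ℝ) := by
      exact_mod_cast hP c
    have h8 : (m c : ℝ) = (D : ℝ) * (n c : ℝ) := by
      have := hm c hc
      exact_mod_cast this
    have h9 : ((m c).toNat : ℝ) - ((-m c).toNat : ℝ) = (D : ℝ) * (n c : ℝ) := by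
      rw [← h8, h7]
    calc ((m c).toNat : ℝ) * (c.2 p * c.2 q) - ((-m c).toNat : ℝ) * (c.2 p * c.2 q)
        = (((m c).toNat : ℝ) - ((-m c).toNat : ℝ)) * (c.2 p * c.2 q) := by ring
      _ = _ := by rw [h9]; ring
  have hDr : (0 : ℝ) < D := by exact_mod_cast hD0
  rcases lt_or_gt_of_ne hs with hneg | hpos
  · refine ⟨_, _, (D : ℝ) * (-s), mul_pos hDr (by linarith), fun i => (hlaws i).symm, ?_⟩
    intro p q
    have := hmoms p q
    by_cases hpq : p = q
    · simp only [hpq, if_true] at this ⊢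
      linarith
    · simp only [hpq, if_false] at this ⊢
      linarith
  · refine ⟨_, _, (D : ℝ) * s, mul_pos hDr hpos, hlaws, ?_⟩
    intro p q
    have := hmoms p q
    by_cases hpq : p = q
    · simp only [hpq, if_true] at this ⊢
      linarith
    · simp only [hpq, if_false] at this ⊢
      linarith

/-- **The tensor criterion.** If the symmetric rational tensor `∑ r_l c_l ⊗ c'_l` of affine columns is
killed at each point and the real multiplication of its linear part is a nonzero multiple of the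
identity, the family has a signed balanced array. -/
theorem signedArray_of_tensor (hinj : Function.Injective x) {ι : Type} [Fintype ι] (r : ι → ℚ)
    (c c' : ι → Gam d)
    (hA : ∀ (a : Fin k) (B : ℝ → ℝ → ℚ), (∀ u u' w, B (u + u') w = B u w + B u' w) →
      (∀ u w w', B u (w + w') = B u w + B u w') →
      ∑ l, r l * B (piH x a (c l)) (piH x a (c' l)) = 0)
    {s : ℝ} (hs : s ≠ 0)
    (hB : ∀ p q, ∑ l, (r l : ℝ) * NN (c l) (c' l) p q = if p = q then s else 0) :
    SignedArray x := by
  classical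
  let L : Gam d → (Fin k → ℝ →₀ ℚ) × (Fin d → Fin d → ℝ) :=
    fun e => (fun a => Finsupp.single (col e (x a)) (1 : ℚ), MM e)
  let tgt : (Fin k → ℝ →₀ ℚ) × (Fin d → Fin d → ℝ) := (0, fun p q => if p = q then s else 0)
  by_cases hmem : tgt ∈ Submodule.span ℚ (Set.range L)
  · obtain ⟨n, hn⟩ := (Finsupp.mem_span_range_iff_exists_finsupp).1 hmem
    refine signedArray_of_weights x n.support n hs ?_ ?_
    · intro a t
      have h1 := congrArg (fun v : (Fin k → ℝ →₀ ℚ) × (Fin d → Fin d → ℝ) => (v.1 a) t) hn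
      simp only [Finsupp.sum, Prod.fst_sum, Finset.sum_apply, Finsupp.finsetSum_apply, tgt, L,
        Prod.smul_fst, Pi.smul_apply, Finsupp.smul_apply, Finsupp.single_apply, smul_eq_mul,
        Pi.zero_apply, Finsupp.coe_zero, mul_ite, mul_one, mul_zero] at h1
      exact h1
    · intro p q
      have h2 := congrArg (fun v : (Fin k → ℝ →₀ ℚ) × (Fin d → Fin d → ℝ) => v.2 p q) hn
      simp only [Finsupp.sum, Prod.snd_sum, Finset.sum_apply, tgt, L, Prod.smul_snd, Pi.smul_apply,
        MM, Rat.smul_def] at h2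
      exact h2
  · exfalso
    obtain ⟨φ, hφ1, hφ2⟩ := Submodule.exists_le_ker_of_notMem hmem
    have hkill : ∀ e, φ (L e) = 0 := fun e =>
      LinearMap.mem_ker.1 (hφ2 (Submodule.subset_span ⟨e, rfl⟩))
    let βL : (Fin d → Fin d → ℝ) →ₗ[ℚ] ℚ := φ.comp (LinearMap.inr ℚ _ _)
    let g : Fin k → ℝ → ℚ := fun a t => φ (Pi.single a (Finsupp.single t 1), 0)
    have hEq : Eqn x βL.toAddMonoidHom g 1 := by
      intro e
      have h1 : L e = ∑ a, ((Pi.single a (Finsupp.single (col e (x a)) (1 : ℚ)) : Fin k → ℝ →₀ ℚ), (0 : Fin d → Fin d → ℝ)) +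
          ((0 : Fin k → ℝ →₀ ℚ), MM e) := by
        ext a t
        · simp [L, Prod.fst_sum, Finset.sum_apply, Pi.single_apply]
        · simp [L, Prod.snd_sum]
      have h2 := hkill e
      rw [h1, map_add, map_sum] at h2
      simpa [g, βL, piH_apply] using h2
    have hP : ∀ a, PK ((k - 1) + 3) (g a) := fun a => eqn_PK x hinj hEq a
    obtain ⟨g₁, κ₁, hκ₁, hE₁, hP₁⟩ := reduce x (k - 1) g 1 one_ne_zero _ hEq hP
    obtain ⟨g₂, κ₂, hκ₂, hE₂, hP₂, hD₂⟩ := normal_form x hκ₁ hE₁ hP₁
    have hz := no_eqn x r c c' hA hκ₂ hE₂ hP₂ hD₂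
    apply hφ1
    have htgt : tgt = ((0 : Fin k → ℝ →₀ ℚ), ∑ l, r l • NN (c l) (c' l)) := by
      simp only [tgt]
      congr 1
      funext p q
      rw [← hB p q]
      simp [Finset.sum_apply, Rat.smul_def]
    rw [htgt]
    have h3 : φ ((0 : Fin k → ℝ →₀ ℚ), ∑ l, r l • NN (c l) (c' l)) = βL (∑ l, r l • NN (c l) (c' l)) := rfl
    rw [h3, map_sum]
    simpa [βL] using hz

end Main

end Vale.Agent.Lib.P058S.Ten
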