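import Mathlib
import Vale.Agent.Lib.P058S.Frechet
import Vale.Agent.Lib.P058S.Defs

/-!
# A tensor criterion for signed balanced arrays

Let `x` be an injective family.  If rational weights `s` and affine columns `c` satisfy
`∑ s • (c(x a) ⊗ c(x a)) = 0` in `ℝ ⊗_ℚ ℝ` for every `a`, and `∑ s v vᵀ = κ I` with `κ ≠ 0`, there is a
signed balanced array.  Otherwise linear algebra over `ℚ` gives functions `g a` and a `ℚ`-linear
functional `B` with `∑ g a (c(x a)) + B (v vᵀ) = 0` for all columns; the iterated differences of `g a`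
vanish; scaling operators reduce `g a` to functions with vanishing third differences, whose second
difference at `0` is biadditive, and the tensor hypothesis then gives `B (κ I) = 0`.
-/

set_option linter.unusedVariables false
set_option linter.unusedSectionVars false

namespace Vale.Agent.Lib.P058S.TC

open Finset
open scoped TensorProduct
open Vale.Agent.Lib.P058S

variable {k d : ℕ}

/-- Columns. -/
abbrev Col (d : ℕ) := ℝ × (Fin d → ℝ)

theorem col_add (c w : Col d) (y : Fin d → ℝ) : col (c + w) y = col c y + col w y := by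
  simp only [col, Prod.fst_add, Prod.snd_add, Pi.add_apply, add_mul, sum_add_distrib]
  ring

/-! ## Iterated differences -/

theorem D_smul_const {V : Type*} [AddCommGroup V] (t : ℝ) (ν : V → ℝ) (l : List V) (x : V) :
    D (fun y => t * ν y) l x = t * D ν l x := by
  induction l generalizing ν with
  | nil => rfl
  | cons a l ih =>
    have : Dl a (fun y => t * ν y) = fun y => t * Dl a ν y := by
      funext y
      simp only [Dl]
      ring
    rw [D_cons, D_cons, this]
    exact ih _

theorem D_Dl {V : Type*} [AddCommGroup V] (a : V) (ν : V → ℝ) (l : List V) (x : V) :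
    D (Dl a ν) l x = D ν l (x + a) - D ν l x := by
  have h : Dl a ν = fun y => ν (y + a) + (-1) * ν y := by
    funext y
    simp only [Dl]
    ring
  rw [h, D_add, D_translate, D_smul_const]
  ring

theorem D_comp {V W : Type*} [AddCommGroup V] [AddCommGroup W] (π : V →+ W) (g : W → ℝ)
    (l : List V) (x : V) : D (fun y => g (π y)) l x = D g (l.map π) (π x) := by
  induction l generalizing g with
  | nil => rfl
  | cons a l ih =>
    have : Dl a (fun y => g (π y)) = fun y => Dl (π a) g (π y) := by
      funext y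
      simp only [Dl, map_add]
    rw [D_cons, this, ih]
    rfl

theorem D_mem_invariant {V : Type*} [AddCommGroup V] (g : V → ℝ) (w : V)
    (h : ∀ x, g (x + w) = g x) (L : List V) (hw : w ∈ L) (x : V) : D g L x = 0 := by
  obtain ⟨l₁, l₂, rfl⟩ := List.append_of_mem hw
  exact D_of_invariant g w h l₁ l₂ x

theorem D_sum {ι V : Type*} [AddCommGroup V] (s : Finset ι) (f : ι → V → ℝ) (l : List V) (x : V) :
    D (fun y => ∑ b ∈ s, f b y) l x = ∑ b ∈ s, D (f b) l x := by
  classical
  induction s using Finset.induction_on with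
  | empty =>
    simp only [sum_empty]
    exact D_zero _ _
  | insert b s hb ih =>
    simp only [sum_insert hb]
    rw [D_add, ih]

/-- Vanishing of all `n`-fold differences. -/
def PF {V : Type*} [AddCommGroup V] (n : ℕ) (g : V → ℝ) : Prop :=
  ∀ l : List V, l.length = n → ∀ x, D g l x = 0

theorem PF.succ {V : Type*} [AddCommGroup V] {n : ℕ} {g : V → ℝ} (h : PF n g) : PF (n + 1) g := by
  intro l hl x
  cases l with
  | nil => simp at hl
  | cons a l =>
    rw [D_cons, D_Dl, h l (by simpa using hl), h l (by simpa using hl)]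
    simp

/-! ## Reduction by scaling -/

/-- The scaling step. -/
noncomputable def Rstep (j : ℕ) (g : ℝ → ℝ) : ℝ → ℝ :=
  fun y => (g (2 * y) - 2 ^ j * g y) / (4 - 2 ^ j)

theorem four_ne (j : ℕ) (hj : 3 ≤ j) : (4 : ℝ) - 2 ^ j ≠ 0 := by
  have : (2 : ℝ) ^ 3 ≤ 2 ^ j := pow_le_pow_right₀ (by norm_num) hj
  norm_num at this
  intro h
  linarith

theorem PF_Rstep (j : ℕ) (hj : 3 ≤ j) {g : ℝ → ℝ} (h : PF (j + 1) g) : PF j (Rstep j g) := by
  intro l hl x
  have h0 := four_ne j hj
  have e : Rstep j g = fun y => (1 / (4 - 2 ^ j)) * g ((2 : ℕ) • y) +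
      ((- 2 ^ j) / (4 - 2 ^ j)) * g y := by
    funext y
    simp only [Rstep, two_nsmul, two_mul]
    field_simp
    ring
  rw [e, D_add, D_smul_const, D_smul_const]
  have e1 : D (fun y => g ((2 : ℕ) • y)) l x = D g (l.map fun a => ((2 : ℕ) : ℝ) • a) ((2 : ℕ) • x) := by
    have := D_comp (nsmulAddMonoidHom (α := ℝ) 2) g l x
    simp only [nsmulAddMonoidHom_apply] at this
    rw [this]
    congr 1
    refine List.map_congr_left fun a _ => ?_
    simp
  rw [e1, D_scale 2 j g h l hl]
  have hbase : ∀ y z, D g l y = D g l z := by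
    have hinv : ∀ y a, D g l (y + a) = D g l y := by
      intro y a
      have h1 := h (l ++ [a]) (by simp [hl]) y
      rw [D_append] at h1
      simp only [D_cons, D_nil, Dl] at h1
      linarith
    intro y z
    have := hinv y (z - y)
    rw [add_sub_cancel] at this
    exact this.symm
  rw [hbase _ x]
  push_cast
  field_simp
  ring

/-- Iterated reduction. -/
noncomputable def red : ℕ → (ℝ → ℝ) → (ℝ → ℝ)
  | 0, g => g
  | n + 1, g => red n (Rstep (n + 3) g)

theorem PF_red (n : ℕ) {g : ℝ → ℝ} (h : PF (n + 3) g) : PF 3 (red n g) := by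
  induction n generalizing g with
  | zero => exact h
  | succ n ih => exact ih (PF_Rstep (n + 3) (by omega) h)

/-! ## Biadditivity -/

/-- The second difference at `0`. -/
def Bi (r : ℝ → ℝ) (u w : ℝ) : ℝ := r (u + w) - r u - r w + r 0

theorem Bi_add_left {r : ℝ → ℝ} (h : PF 3 r) (u u' w : ℝ) :
    Bi r (u + u') w = Bi r u w + Bi r u' w := by
  have h1 := h [u, u', w] rfl 0
  simp only [D_cons, D_nil, Dl, zero_add] at h1
  have e1 : w + u' + u = u + u' + w := by ring
  have e2 : w + u' = u' + w := by ring
  have e3 : w + u = u + w := by ring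
  have e4 : u' + u = u + u' := by ring
  rw [e1, e2, e3, e4] at h1
  simp only [Bi]
  linarith

theorem Bi_comm (r : ℝ → ℝ) (u w : ℝ) : Bi r u w = Bi r w u := by
  simp only [Bi, add_comm u w]
  ring

/-- The `ℚ`-bilinear form. -/
noncomputable def BiL {r : ℝ → ℝ} (h : PF 3 r) : ℝ →ₗ[ℚ] ℝ →ₗ[ℚ] ℝ :=
  LinearMap.mk₂ ℚ (Bi r) (Bi_add_left h)
    (fun q u w => by
      let f : ℝ →+ ℝ := AddMonoidHom.mk' (fun u => Bi r u w) (fun u u' => Bi_add_left h u u' w)
      exact map_rat_smul f q u)
    (fun u w w' => by
      rw [Bi_comm, Bi_add_left h, Bi_comm r w, Bi_comm r w'])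
    (fun q u w => by
      let f : ℝ →+ ℝ := AddMonoidHom.mk' (fun w => Bi r w u) (fun w w' => Bi_add_left h w w' u)
      rw [Bi_comm r u, Bi_comm r u]
      exact map_rat_smul f q w)

theorem BiL_apply {r : ℝ → ℝ} (h : PF 3 r) (u w : ℝ) : BiL h u w = Bi r u w := rfl

/-! ## Elimination -/

theorem exists_col_sep {x : Fin k → Fin d → ℝ} {a b : Fin k} (h : x a ≠ x b) (r : ℝ) :
    ∃ w : Col d, col w (x a) = r ∧ col w (x b) = 0 := by
  classical
  obtain ⟨p, hp⟩ := Function.ne_iff.mp h
  have hp' : x a p - x b p ≠ 0 := sub_ne_zero.mpr hp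
  let t := r / (x a p - x b p)
  have hcol : ∀ y : Fin d → ℝ, col ((-(t * x b p), Pi.single p t) : Col d) y = t * (y p - x b p) := by
    intro y
    simp only [col, Pi.single_apply, ite_mul, zero_mul, sum_ite_eq', mem_univ, if_true]
    ring
  refine ⟨(-(t * x b p), Pi.single p t), ?_, ?_⟩
  · rw [hcol]
    simp only [t]
    field_simp
  · rw [hcol]
    simp

theorem exists_list {x : Fin k → Fin d → ℝ} (hx : Function.Injective x) (a : Fin k)
    (π : Col d →+ ℝ) (hπ : ∀ c, π c = col c (x a)) (bs : List (Fin k)) :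
    (∀ b ∈ bs, b ≠ a) → ∀ l : List ℝ, bs.length = l.length →
      ∃ L : List (Col d), L.map π = l ∧ ∀ b ∈ bs, ∃ w ∈ L, col w (x b) = 0 := by
  induction bs with
  | nil =>
    intro _ l hl
    have : l = [] := by
      apply List.length_eq_zero_iff.mp
      simpa using hl.symm
    exact ⟨[], by simp [this], by simp⟩
  | cons b bs ih =>
    intro hb l hl
    cases l with
    | nil => simp at hl
    | cons r l =>
      obtain ⟨L, hL, hL2⟩ := ih (fun b' hb' => hb b' (List.mem_cons_of_mem _ hb')) l
        (by simpa using hl)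
      have hne : x a ≠ x b := fun e => hb b (List.mem_cons_self) (hx e).symm
      obtain ⟨w, hw1, hw2⟩ := exists_col_sep hne r
      refine ⟨w :: L, by simp [hL, hπ, hw1], fun b' hb' => ?_⟩
      rcases List.mem_cons.mp hb' with rfl | h
      · exact ⟨w, List.mem_cons_self, hw2⟩
      · obtain ⟨w', hw', hw''⟩ := hL2 b' h
        exact ⟨w', List.mem_cons_of_mem _ hw', hw''⟩

/-- The iterated differences of the functions of an identity vanish. -/
theorem elim {x : Fin k → Fin d → ℝ} (hx : Function.Injective x) (g : Fin k → ℝ → ℝ)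
    (Bq : (Fin d → ℝ) → ℝ)
    (hid : ∀ c : Col d, ∑ b, g b (col c (x b)) + Bq c.2 = 0) (a : Fin k) : PF k (g a) := by
  classical
  intro l hl y
  have hkpos : 0 < k := a.pos
  cases l with
  | nil => simp at hl; omega
  | cons r0 l' =>
    have hl' : ((univ.erase a).toList).length = l'.length := by
      rw [Finset.length_toList, card_erase_of_mem (mem_univ a), card_univ, Fintype.card_fin]
      simp at hl
      omega
    let π : Fin k → Col d →+ ℝ := fun b =>
      AddMonoidHom.mk' (fun c => col c (x b)) (fun c w => col_add c w (x b))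
    obtain ⟨L', hL1, hL2⟩ := exists_list hx a (π a) (fun c => rfl) (univ.erase a).toList
      (fun b hb => (mem_erase.mp (mem_toList.mp hb)).1) l' hl'
    let w0 : Col d := (r0, 0)
    let L : List (Col d) := w0 :: L'
    let c0 : Col d := (y, 0)
    have hF : D (fun c : Col d => ∑ b, g b (col c (x b)) + Bq c.2) L c0 = 0 := by
      have : (fun c : Col d => ∑ b, g b (col c (x b)) + Bq c.2) = fun _ => 0 := by
        funext c
        exact hid c
      rw [this]
      exact D_zero _ _
    rw [D_add, D_sum] at hF
    have hB : D (fun c : Col d => Bq c.2) L c0 = 0 := by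
      refine D_mem_invariant _ w0 (fun c => ?_) L List.mem_cons_self c0
      simp [w0]
    rw [hB, add_zero, sum_eq_single a] at hF
    · have h1 := D_comp (π a) (g a) L c0
      have h2 : (fun c : Col d => g a (col c (x a))) = fun c => g a (π a c) := rfl
      rw [h2, h1] at hF
      have h3 : L.map (π a) = r0 :: l' := by
        simp only [L, List.map_cons, hL1]
        congr 1
        simp [π, w0, col]
      have h4 : π a c0 = y := by
        simp [π, c0, col]
      rw [h3, h4] at hF
      exact hF
    · intro b _ hba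
      have hbm : b ∈ (univ.erase a).toList := mem_toList.mpr (mem_erase.mpr ⟨hba, mem_univ b⟩)
      obtain ⟨w, hw, hw0⟩ := hL2 b hbm
      refine D_mem_invariant _ w (fun c => ?_) L (List.mem_cons_of_mem _ hw) c0
      rw [col_add, hw0, add_zero]
    · intro h
      exact absurd (mem_univ a) h

/-! ## The identity under scaling -/

theorem col_double (c : Col d) (y : Fin d → ℝ) : col (c + c) y = 2 * col c y := by
  rw [col_add]
  ring

theorem id_Rstep {x : Fin k → Fin d → ℝ} {g : Fin k → ℝ → ℝ} {Bq : (Fin d → ℝ) → ℝ}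
    (hB : ∀ v, Bq (v + v) = 4 * Bq v) (j : ℕ) (hj : 3 ≤ j)
    (hid : ∀ c : Col d, ∑ b, g b (col c (x b)) + Bq c.2 = 0) (c : Col d) :
    ∑ b, Rstep j (g b) (col c (x b)) + Bq c.2 = 0 := by
  have h0 := four_ne j hj
  have h1 := hid c
  have h2 := hid (c + c)
  simp only [col_double, Prod.snd_add, hB] at h2
  have e : ∑ b, Rstep j (g b) (col c (x b)) =
      (∑ b, g b (2 * col c (x b)) - 2 ^ j * ∑ b, g b (col c (x b))) / (4 - 2 ^ j) := by
    simp only [Rstep]
    rw [mul_sum, ← sum_sub_distrib, sum_div]
  rw [e]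
  field_simp
  linear_combination h2 - 2 ^ j * h1

theorem id_red {x : Fin k → Fin d → ℝ} {Bq : (Fin d → ℝ) → ℝ}
    (hB : ∀ v, Bq (v + v) = 4 * Bq v) (n : ℕ) (g : Fin k → ℝ → ℝ)
    (hid : ∀ c : Col d, ∑ b, g b (col c (x b)) + Bq c.2 = 0) (c : Col d) :
    ∑ b, red n (g b) (col c (x b)) + Bq c.2 = 0 := by
  induction n generalizing g with
  | zero => exact hid c
  | succ n ih =>
    exact ih (fun b => Rstep (n + 3) (g b)) (fun c => id_Rstep hB (n + 3) (by omega) hid c)

theorem id_second {x : Fin k → Fin d → ℝ} {Bq : (Fin d → ℝ) → ℝ} {r : Fin k → ℝ → ℝ}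
    (hB : ∀ v, Bq (v + v) = 4 * Bq v)
    (hid : ∀ c : Col d, ∑ b, r b (col c (x b)) + Bq c.2 = 0) (c : Col d) :
    ∑ b, Bi (r b) (col c (x b)) (col c (x b)) + 2 * Bq c.2 = 0 := by
  have h1 := hid c
  have h2 := hid (c + c)
  have h3 := hid 0
  have h0 : ∀ y : Fin d → ℝ, col (0 : Col d) y = 0 := fun y => by simp [col]
  have hB0 : Bq 0 = 0 := by
    have := hB 0
    simp only [add_zero] at this
    linarith
  simp only [col_double, Prod.snd_add, hB] at h2
  simp only [h0, Prod.snd_zero, hB0, add_zero] at h3
  have e : ∑ b, Bi (r b) (col c (x b)) (col c (x b)) =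
      ∑ b, r b (2 * col c (x b)) - 2 * ∑ b, r b (col c (x b)) + ∑ b, r b 0 := by
    simp only [Bi, mul_sum, ← sum_sub_distrib, ← sum_add_distrib]
    refine sum_congr rfl fun b _ => ?_
    rw [two_mul]
    ring
  rw [e, h3]
  linarith

/-! ## Duality and the criterion -/

/-- **The tensor condition.** Rational weights `e.1` on finitely many affine columns `e.2` such that
`∑ e.1 • (e.2(x a) ⊗ e.2(x a)) = 0` in `ℝ ⊗_ℚ ℝ` for every point `x a`, and such that the weighted
second moments of the linear parts are `κ I`, `κ ≠ 0`. -/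
def TensorLift (x : Fin k → Fin d → ℝ) : Prop :=
  ∃ (M : Multiset (ℚ × Col d)) (κ : ℝ), κ ≠ 0 ∧
    (∀ a, (M.map fun e => e.1 • (col e.2 (x a) ⊗ₜ[ℚ] col e.2 (x a))).sum = 0) ∧
    ∀ p q, (M.map fun e => (e.1 : ℝ) * (e.2.2 p * e.2.2 q)).sum = if p = q then κ else 0

/-- The vector space of the duality. -/
abbrev WW (k d : ℕ) := (Fin k → (ℝ →₀ ℚ)) × (Fin d → Fin d → ℝ)

/-- The vector of a column. -/
noncomputable def LV (x : Fin k → Fin d → ℝ) (c : Col d) : WW k d :=
  (fun a => Finsupp.single (col c (x a)) 1, fun p q => c.2 p * c.2 q)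

theorem sum_nsmul_map' {α β : Type*} [AddCommMonoid β] (n : ℕ) (A : Multiset α) (f : α → β) :
    ((n • A).map f).sum = n • (A.map f).sum := by
  rw [Multiset.map_nsmul, Multiset.sum_nsmul]

theorem exists_rep {C V : Type*} [AddCommGroup V] [Module ℚ V] (L : C → V) {v : V}
    (hv : v ∈ Submodule.span ℚ (Set.range L)) :
    ∃ (P N : Multiset C) (K : ℕ), 0 < K ∧ (P.map L).sum - (N.map L).sum = K • v := by
  induction hv using Submodule.span_induction with
  | mem v hv =>
    obtain ⟨c, rfl⟩ := hv
    exact ⟨{c}, 0, 1, one_pos, by simp⟩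
  | zero => exact ⟨0, 0, 1, one_pos, by simp⟩
  | add v v' _ _ hv hv' =>
    obtain ⟨P, N, K, hK, h1⟩ := hv
    obtain ⟨P', N', K', hK', h1'⟩ := hv'
    refine ⟨K' • P + K • P', K' • N + K • N', K * K', Nat.mul_pos hK hK', ?_⟩
    simp only [Multiset.map_add, Multiset.sum_add, sum_nsmul_map']
    have e : K' • (P.map L).sum + K • (P'.map L).sum - (K' • (N.map L).sum + K • (N'.map L).sum)
        = K' • ((P.map L).sum - (N.map L).sum) + K • ((P'.map L).sum - (N'.map L).sum) := by
      simp only [smul_sub]; abel
    rw [e, h1, h1', smul_add, smul_smul, smul_smul, mul_comm K' K]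
  | smul q v _ hv =>
    obtain ⟨P, N, K, hK, h1⟩ := hv
    have hb : 0 < q.den := q.den_pos
    have hqd : q * (q.den : ℚ) = (q.num : ℚ) := Rat.mul_den_eq_num q
    have key : ∀ a : ℕ, (a : ℤ) = q.num → (q.den * K) • q • v = (a * K) • v := by
      intro a ha
      have h4 : ((q.den * K : ℕ) : ℚ) * q = ((a * K : ℕ) : ℚ) := by
        push_cast
        rw [← ha] at hqd
        push_cast at hqd
        linear_combination (K : ℚ) * hqd
      calc (q.den * K) • q • v = ((q.den * K : ℕ) : ℚ) • q • v := by
            rw [Nat.cast_smul_eq_nsmul]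
        _ = (((q.den * K : ℕ) : ℚ) * q) • v := by rw [smul_smul]
        _ = ((a * K : ℕ) : ℚ) • v := by rw [h4]
        _ = (a * K) • v := by rw [Nat.cast_smul_eq_nsmul]
    rcases le_or_gt 0 q.num with hnum | hnum
    · obtain ⟨a, ha⟩ := Int.eq_ofNat_of_zero_le hnum
      refine ⟨a • P, a • N, q.den * K, Nat.mul_pos hb hK, ?_⟩
      simp only [sum_nsmul_map']
      rw [← smul_sub, h1, smul_smul, key a ha.symm]
    · -- negative numerator: use `-q`
      have hq' : (-q).num = - q.num := Rat.num_neg_eq_neg_num q
      have hqd' : (-q) * (q.den : ℚ) = ((- q.num : ℤ) : ℚ) := by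
        push_cast
        rw [neg_mul, hqd]
      obtain ⟨a, ha⟩ := Int.eq_ofNat_of_zero_le (by linarith : 0 ≤ - q.num)
      refine ⟨a • N, a • P, q.den * K, Nat.mul_pos hb hK, ?_⟩
      simp only [sum_nsmul_map']
      have e1 : a • (N.map L).sum - a • (P.map L).sum = (-(a : ℤ)) • ((P.map L).sum - (N.map L).sum) := by
        rw [smul_sub, neg_smul, neg_smul, natCast_zsmul, natCast_zsmul]
        abel
      rw [e1, h1]
      have h4 : (((q.den * K : ℕ) : ℚ)) * q = (((-(a : ℤ)) * (K : ℤ) : ℤ) : ℚ) := by
        push_cast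
        have e2 : (q.num : ℚ) = -(a : ℚ) := by
          have : ((- q.num : ℤ) : ℚ) = ((a : ℤ) : ℚ) := by rw [ha]
          push_cast at this
          linarith
        rw [e2] at hqd
        linear_combination (K : ℚ) * hqd
      have e3 : (q.den * K) • q • v = ((-(a : ℤ)) * (K : ℤ)) • v := by
        calc (q.den * K) • q • v = ((q.den * K : ℕ) : ℚ) • q • v := by
              rw [Nat.cast_smul_eq_nsmul]
          _ = (((q.den * K : ℕ) : ℚ) * q) • v := by rw [smul_smul]
          _ = (((-(a : ℤ)) * (K : ℤ) : ℤ) : ℚ) • v := by rw [h4]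
          _ = ((-(a : ℤ)) * (K : ℤ)) • v := by rw [Int.cast_smul_eq_zsmul]
      rw [e3, ← natCast_zsmul v K, smul_smul]

theorem coeff_LV_sum (x : Fin k → Fin d → ℝ) (A : Multiset (Col d)) (a : Fin k) (s : ℝ) :
    ((A.map (fun c => (LV x c).1)).sum a) s = ((A.map fun c => col c (x a)).count s : ℚ) := by
  classical
  induction A using Multiset.induction_on with
  | empty => simp
  | cons c A ih =>
    rw [Multiset.map_cons, Multiset.sum_cons, Pi.add_apply, Finsupp.add_apply, ih,
      Multiset.map_cons, Multiset.count_cons]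
    have e0 : (LV x c).1 a s = (Finsupp.single (col c (x a)) (1 : ℚ)) s := rfl
    rw [e0, Finsupp.single_apply]
    by_cases h : col c (x a) = s
    · subst h
      simp only [if_true, Nat.cast_add, Nat.cast_one]
      ring
    · have h' : s ≠ col c (x a) := fun e => h e.symm
      simp only [h, h', if_false, Nat.cast_add, Nat.cast_zero]
      ring

theorem snd_LV_sum (x : Fin k → Fin d → ℝ) (A : Multiset (Col d)) (p q : Fin d) :
    (A.map (fun c => (LV x c).2)).sum p q = (A.map fun c => c.2 p * c.2 q).sum := by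
  induction A using Multiset.induction_on with
  | empty => simp
  | cons c A ih =>
    rw [Multiset.map_cons, Multiset.sum_cons, Pi.add_apply, Pi.add_apply, ih, Multiset.map_cons,
      Multiset.sum_cons]
    rfl

theorem fst_map_sum (x : Fin k → Fin d → ℝ) (A : Multiset (Col d)) :
    ((A.map (LV x)).sum).1 = (A.map (fun c => (LV x c).1)).sum := by
  induction A using Multiset.induction_on with
  | empty => simp
  | cons c A ih => simp [ih]

theorem snd_map_sum (x : Fin k → Fin d → ℝ) (A : Multiset (Col d)) :
    ((A.map (LV x)).sum).2 = (A.map (fun c => (LV x c).2)).sum := by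
  induction A using Multiset.induction_on with
  | empty => simp
  | cons c A ih => simp [ih]

/-- Membership of the target in the span gives a signed balanced array. -/
theorem signedArray_of_mem_span (x : Fin k → Fin d → ℝ) (κ : ℝ) (hκ : κ ≠ 0)
    (h : ((0, fun p q => if p = q then κ else 0) : WW k d) ∈
      Submodule.span ℚ (Set.range (LV x))) : SignedArray x := by
  classical
  obtain ⟨P, N, K, hK, hPN⟩ := exists_rep (LV x) h
  have h1 : (P.map (fun c => (LV x c).1)).sum = (N.map (fun c => (LV x c).1)).sum := by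
    have := congrArg Prod.fst hPN
    simp only [Prod.fst_sub, fst_map_sum, Prod.smul_fst, smul_zero] at this
    exact sub_eq_zero.mp this
  have h2 : ∀ p q, (P.map fun c : Col d => c.2 p * c.2 q).sum - (N.map fun c : Col d => c.2 p * c.2 q).sum
      = (K : ℝ) * (if p = q then κ else 0) := by
    intro p q
    have := congrFun (congrFun (congrArg Prod.snd hPN) p) q
    simp only [Prod.snd_sub, snd_map_sum, Prod.smul_snd, Pi.sub_apply, snd_LV_sum, Pi.smul_apply,
      nsmul_eq_mul] at this
    exact this
  have hlaw : ∀ i, P.map (fun c => col c (x i)) = N.map (fun c => col c (x i)) := by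
    intro i
    ext s
    have h3 := congrFun h1 i
    have h4 := congrArg (fun f : ℝ →₀ ℚ => f s) h3
    simp only [coeff_LV_sum] at h4
    exact_mod_cast h4
  have hKR : (0 : ℝ) < K := by exact_mod_cast hK
  rcases lt_or_gt_of_ne hκ with hneg | hpos
  · refine ⟨N, P, -((K : ℝ) * κ), by nlinarith, fun i => (hlaw i).symm, fun p q => ?_⟩
    have := h2 p q
    by_cases hpq : p = q
    · simp only [hpq, if_true] at this ⊢
      linarith
    · simp only [hpq, if_false, mul_zero] at this ⊢
      linarith
  · refine ⟨P, N, (K : ℝ) * κ, by positivity, hlaw, fun p q => ?_⟩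
    have := h2 p q
    by_cases hpq : p = q
    · simp only [hpq, if_true] at this ⊢
      linarith
    · simp only [hpq, if_false, mul_zero] at this ⊢
      linarith

/-- **The tensor condition gives a signed balanced array.** -/
theorem signedArray_of_tensorLift {x : Fin k → Fin d → ℝ} (hx : Function.Injective x)
    (h : TensorLift x) : SignedArray x := by
  classical
  obtain ⟨M, κ, hκ, hM1, hM2⟩ := h
  by_contra hno
  set T : WW k d := (0, fun p q => if p = q then κ else 0) with hT
  have hTnot : T ∉ Submodule.span ℚ (Set.range (LV x)) :=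
    fun hmem => hno (signedArray_of_mem_span x κ hκ hmem)
  obtain ⟨Ψ, hΨ1, hΨ2⟩ := Submodule.exists_dual_map_eq_bot_of_notMem hTnot inferInstance
  have hΨ0 : ∀ c, Ψ (LV x c) = 0 := by
    intro c
    have h1 : Ψ (LV x c) ∈ Submodule.map Ψ (Submodule.span ℚ (Set.range (LV x))) :=
      Submodule.mem_map_of_mem (Submodule.subset_span ⟨c, rfl⟩)
    rw [hΨ2] at h1
    exact (Submodule.mem_bot ℚ).1 h1
  -- the functions
  let g : Fin k → ℝ → ℝ := fun a s => ((Ψ (Pi.single a (Finsupp.single s 1), 0) : ℚ) : ℝ)
  let Bq : (Fin d → ℝ) → ℝ := fun v => ((Ψ (0, fun p q => v p * v q) : ℚ) : ℝ)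
  have hid : ∀ c : Col d, ∑ b, g b (col c (x b)) + Bq c.2 = 0 := by
    intro c
    have e : LV x c = ∑ b, ((Pi.single b (Finsupp.single (col c (x b)) 1), 0) : WW k d)
        + (0, fun p q => c.2 p * c.2 q) := by
      refine Prod.ext ?_ ?_
      · funext a
        simp [LV, Prod.fst_sum, Finset.sum_apply, Pi.single_apply]
      · funext p q
        simp [LV, Prod.snd_sum, Finset.sum_apply]
    have h1 := hΨ0 c
    rw [e, map_add, map_sum] at h1
    have h2 := congrArg (fun q : ℚ => (q : ℝ)) h1
    simp only [Rat.cast_add, Rat.cast_sum, Rat.cast_zero] at h2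
    exact h2
  have hB : ∀ v, Bq (v + v) = 4 * Bq v := by
    intro v
    have e : ((0, fun p q => (v + v) p * (v + v) q) : WW k d) =
        (4 : ℚ) • (0, fun p q => v p * v q) := by
      refine Prod.ext (by simp) ?_
      funext p q
      simp only [Pi.add_apply, Prod.smul_snd, Pi.smul_apply, Rat.smul_def]
      push_cast
      ring
    simp only [Bq]
    rw [e, map_smul]
    simp
  -- the differences
  have hPF : ∀ a, PF 3 (red k (g a)) := by
    intro a
    refine PF_red k ?_
    exact ((elim hx g Bq hid a).succ.succ.succ)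
  let r : Fin k → ℝ → ℝ := fun a => red k (g a)
  have hidr := id_red hB k g hid
  have hsec := id_second (x := x) (r := r) hB hidr
  -- apply the tensor hypothesis
  have hten : ∀ a, (M.map fun e => (e.1 : ℝ) * Bi (r a) (col e.2 (x a)) (col e.2 (x a))).sum = 0 := by
    intro a
    let Φ : ℝ ⊗[ℚ] ℝ →ₗ[ℚ] ℝ := TensorProduct.lift (BiL (hPF a))
    have h1 := congrArg Φ (hM1 a)
    rw [map_multiset_sum, Multiset.map_map, map_zero] at h1
    rw [← h1]
    congr 1
    refine Multiset.map_congr rfl fun e _ => ?_
    simp only [Function.comp_apply, map_smul, Φ, TensorProduct.lift.tmul, BiL_apply, Rat.smul_def]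
    rfl
  -- sum the identities
  have hsum : (M.map fun e => (e.1 : ℝ) * Bq e.2.2).sum = 0 := by
    have h1 : ∀ M' : Multiset (ℚ × Col d),
        ∑ a, (M'.map fun e => (e.1 : ℝ) * Bi (r a) (col e.2 (x a)) (col e.2 (x a))).sum
          + 2 * (M'.map fun e => (e.1 : ℝ) * Bq e.2.2).sum = 0 := by
      intro M'
      induction M' using Multiset.induction_on with
      | empty => simp
      | cons e M' ih =>
        simp only [Multiset.map_cons, Multiset.sum_cons, sum_add_distrib]
        have h2 := hsec e.2
        have h3 : ∑ a, (e.1 : ℝ) * Bi (r a) (col e.2 (x a)) (col e.2 (x a)) =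
            (e.1 : ℝ) * ∑ a, Bi (r a) (col e.2 (x a)) (col e.2 (x a)) := by
          rw [mul_sum]
        rw [h3]
        linear_combination ih + (e.1 : ℝ) * h2
    have h4 := h1 M
    simp only [hten, sum_const_zero, zero_add] at h4
    linarith
  -- conclusion
  have hfinal : Ψ T = 0 := by
    have e : T = (M.map fun e => e.1 • ((0, fun p q => e.2.2 p * e.2.2 q) : WW k d)).sum := by
      have hfst : ∀ M' : Multiset (ℚ × Col d),
          ((M'.map fun e => e.1 • ((0, fun p q => e.2.2 p * e.2.2 q) : WW k d)).sum).1 = 0 := by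
        intro M'
        induction M' using Multiset.induction_on with
        | empty => rfl
        | cons e M' ih =>
          rw [Multiset.map_cons, Multiset.sum_cons, Prod.fst_add, ih, add_zero]
          exact smul_zero _
      have hsnd : ∀ (M' : Multiset (ℚ × Col d)) (p q : Fin d),
          ((M'.map fun e => e.1 • ((0, fun p q => e.2.2 p * e.2.2 q) : WW k d)).sum).2 p q =
            (M'.map fun e => (e.1 : ℝ) * (e.2.2 p * e.2.2 q)).sum := by
        intro M' p q
        induction M' using Multiset.induction_on with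
        | empty => simp
        | cons e M' ih =>
          simp only [Multiset.map_cons, Multiset.sum_cons, Prod.snd_add, Pi.add_apply, ih,
            Prod.smul_snd, Pi.smul_apply, Rat.smul_def]
      refine Prod.ext ?_ ?_
      · rw [hfst M]
      · funext p q
        rw [hsnd M p q, hM2 p q]
    rw [e, map_multiset_sum, Multiset.map_map]
    have h5 : (M.map ((fun z => Ψ z) ∘ fun e : ℚ × Col d => e.1 • ((0, fun p q => e.2.2 p * e.2.2 q) : WW k d))).sum
        = (M.map fun e : ℚ × Col d => e.1 * Ψ (0, fun p q => e.2.2 p * e.2.2 q)).sum := by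
      congr 1
      refine Multiset.map_congr rfl fun e _ => ?_
      simp only [Function.comp_apply, map_smul, smul_eq_mul]
    have h6 : (((M.map fun e : ℚ × Col d => e.1 * Ψ (0, fun p q => e.2.2 p * e.2.2 q)).sum : ℚ) : ℝ) =
        (M.map fun e => (e.1 : ℝ) * Bq e.2.2).sum := by
      have : ∀ M' : Multiset (ℚ × Col d),
          (((M'.map fun e : ℚ × Col d => e.1 * Ψ (0, fun p q => e.2.2 p * e.2.2 q)).sum : ℚ) : ℝ) =
            (M'.map fun e => (e.1 : ℝ) * Bq e.2.2).sum := by
        intro M'
        induction M' using Multiset.induction_on with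
        | empty => simp
        | cons e M' ih =>
          simp only [Multiset.map_cons, Multiset.sum_cons, Rat.cast_add, Rat.cast_mul, ih]
          rfl
      exact this M
    have h7 : ((M.map fun e : ℚ × Col d => e.1 * Ψ (0, fun p q => e.2.2 p * e.2.2 q)).sum : ℚ) = 0 := by
      have : (((M.map fun e : ℚ × Col d => e.1 * Ψ (0, fun p q => e.2.2 p * e.2.2 q)).sum : ℚ) : ℝ) = 0 := by
        rw [h6, hsum]
      exact_mod_cast this
    exact h5.trans h7
  exact hΨ1 hfinal

/-- **A signed balanced array gives the tensor condition.** -/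
theorem tensorLift_of_signedArray {x : Fin k → Fin d → ℝ} (h : SignedArray x) : TensorLift x := by
  classical
  obtain ⟨P, N, s, hs, hlaw, hmom⟩ := h
  refine ⟨P.map (fun c => ((1 : ℚ), c)) + N.map (fun c => ((-1 : ℚ), c)), s, hs.ne', fun a => ?_,
    fun p q => ?_⟩
  · simp only [Multiset.map_add, Multiset.sum_add, Multiset.map_map, Function.comp_def, one_smul,
      neg_smul]
    have h1 : ∀ A : Multiset (Col d), (A.map fun c => -(col c (x a) ⊗ₜ[ℚ] col c (x a))).sum =
        -((A.map fun c => col c (x a)).map fun m => m ⊗ₜ[ℚ] m).sum := by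
      intro A
      induction A using Multiset.induction_on with
      | empty => simp
      | cons c A ih => simp only [Multiset.map_cons, Multiset.sum_cons, ih, neg_add_rev]; abel
    have h2 : (P.map fun c => col c (x a) ⊗ₜ[ℚ] col c (x a)).sum =
        ((P.map fun c => col c (x a)).map fun m => m ⊗ₜ[ℚ] m).sum := by
      rw [Multiset.map_map]
      rfl
    rw [h1, h2, hlaw a]
    simp
  · simp only [Multiset.map_add, Multiset.sum_add, Multiset.map_map, Function.comp_def]
    have h1 : ∀ A : Multiset (Col d),
        (A.map fun c => (((-1 : ℚ)) : ℝ) * (c.2 p * c.2 q)).sum = -(A.map fun c => c.2 p * c.2 q).sum := by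
      intro A
      induction A using Multiset.induction_on with
      | empty => simp
      | cons c A ih =>
        simp only [Multiset.map_cons, Multiset.sum_cons, ih]
        push_cast
        ring
    have h2 : ∀ A : Multiset (Col d),
        (A.map fun c => (((1 : ℚ)) : ℝ) * (c.2 p * c.2 q)).sum = (A.map fun c => c.2 p * c.2 q).sum := by
      intro A
      induction A using Multiset.induction_on with
      | empty => simp
      | cons c A ih =>
        simp only [Multiset.map_cons, Multiset.sum_cons, ih]
        push_cast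
        ring
    rw [h1, h2]
    have := hmom p q
    linarith

end Vale.Agent.Lib.P058S.TC
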