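import Vale.Agent.Lib.P058S.TensorCriterion
import Vale.Agent.Lib.P058S.SignedIff

/-!
# The Ramsey property for finite sets as a condition in `ℝ ⊗_ℚ ℝ`
-/

namespace Vale.Agent.Lib.P058S.TC

open Vale.Agent.Lib.P058 Vale.Agent.Lib.P058C Vale.Agent.Lib.P058S

/-- **The tensor criterion.**  An injective finite family `x` spans a Ramsey set iff there are rational
weights on finitely many affine columns with `∑ s • (c(x a) ⊗ c(x a)) = 0` in `ℝ ⊗_ℚ ℝ` for every point
and with weighted second moment of the linear parts equal to a nonzero multiple of the identity. -/
theorem isRamsey_range_iff_tensorLift {k d : ℕ} (x : Fin k → EuclideanSpace ℝ (Fin d))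
    (hx : Function.Injective x) :
    IsRamsey (Set.range x) ↔ TensorLift (fun a p => x a p) := by
  rw [isRamsey_range_iff_signedArray]
  constructor
  · exact tensorLift_of_signedArray
  · refine signedArray_of_tensorLift ?_
    intro a b hab
    apply hx
    ext p
    exact congrFun hab p

end Vale.Agent.Lib.P058S.TC
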