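import Vale.Agent.Lib.P058S.AlgDual
import Vale.Agent.Lib.P058S.AlgFrechet
import Vale.Agent.Lib.P058S.AlgContra
import Vale.Agent.Lib.P058S.SignedIff

/-!
# Exact duality: a finite set is not Ramsey exactly when it carries a wild bilinear certificate
-/

namespace Vale.Agent.Lib.P058S.Wild

open Finset Vale.Agent.Lib.P058

/-- A **wild bilinear certificate** for the points `x a`: biadditive symmetric functions `A a` of two
real variables and additive functions `B p q`, with
`∑ a, A a (c₀ + ⟨v, x a⟩) (c₀' + ⟨v', x a⟩) + ∑ p q, B p q (v p * v' q + v' p * v q) = 0` for all affine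
columns `(c₀, v)`, `(c₀', v')`, and `∑ p, B p p 1 ≠ 0`. -/
def WildCert {k d : ℕ} (x : Fin k → Fin d → ℝ) : Prop :=
  ∃ (A : Fin k → ℝ → ℝ → ℝ) (B : Fin d → Fin d → ℝ →+ ℝ),
    (∀ a h1 h2 t, A a (h1 + h2) t = A a h1 t + A a h2 t) ∧ (∀ a h t, A a h t = A a t h) ∧
    (∀ (c0 c0' : ℝ) (v v' : Fin d → ℝ),
      ∑ a, A a (c0 + ∑ p, v p * x a p) (c0' + ∑ p, v' p * x a p)
        + ∑ p, ∑ q, B p q (v p * v' q + v' p * v q) = 0) ∧
    ∑ p, B p p 1 ≠ 0

/-- Without a signed array there is a wild certificate (the points being distinct). -/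
theorem wildCert_of_not_signed {k d : ℕ} (x : Fin k → Fin d → ℝ) (hinj : Function.Injective x)
    (hno : ¬ SignedArray x) : WildCert x := by
  classical
  rcases AlgDual.dichotomy (RingHom.id ℝ) x with h | ⟨g, B, hg, hB1⟩
  · exact absurd h hno
  let φ : Fin k → (ℝ × (Fin d → ℝ)) →+ ℝ := fun a => AddMonoidHom.mk' (AlgDual.phi x a) (by
    intro c c'
    simp only [AlgDual.phi, Prod.fst_add, Prod.snd_add, Pi.add_apply, add_mul,
      Finset.sum_add_distrib]
    ring)
  have hφ : ∀ a c, φ a c = c.1 + ∑ p, c.2 p * x a p := fun a c => rfl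
  let Q : ℝ × (Fin d → ℝ) → ℝ := fun c => ∑ p, ∑ q, B p q (c.2 p * c.2 q)
  have hQ : ∀ c, Q (c + c) = 4 * Q c := by
    intro c
    simp only [Q, Finset.mul_sum]
    apply Finset.sum_congr rfl
    intro p _
    apply Finset.sum_congr rfl
    intro q _
    have e : (c + c).2 p * (c + c).2 q = (4 : ℕ) • (c.2 p * c.2 q) := by
      simp only [Prod.snd_add, Pi.add_apply, nsmul_eq_mul]
      push_cast
      ring
    rw [e, map_nsmul, nsmul_eq_mul]
    push_cast
    ring
  let sh : ℝ → ℝ × (Fin d → ℝ) := fun h => (h, 0)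
  have hsh : ∀ a h, φ a (sh h) = h := by
    intro a h
    simp [hφ, sh]
  have hQs : ∀ c h, Q (c + sh h) = Q c := by
    intro c h
    simp [Q, sh]
  have hne : ∀ a b : Fin k, b ≠ a → ∃ p, x a p ≠ x b p := by
    intro a b hb
    by_contra hc
    push Not at hc
    exact hb (hinj (funext hc)).symm
  let e : Fin k → Fin k → ℝ → ℝ × (Fin d → ℝ) := fun a b h =>
    if hb : b ≠ a then
      (-(h / (x a (hne a b hb).choose - x b (hne a b hb).choose)) * x b (hne a b hb).choose,
        Pi.single (hne a b hb).choose (h / (x a (hne a b hb).choose - x b (hne a b hb).choose)))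
    else 0
  have he0 : ∀ a b, b ≠ a → ∀ h, φ b (e a b h) = 0 := by
    intro a b hb h
    simp only [e, dif_pos hb, hφ]
    rw [AlgContra.sum_single]
    ring
  have he1 : ∀ a b, b ≠ a → ∀ h, φ a (e a b h) = h := by
    intro a b hb h
    simp only [e, dif_pos hb, hφ]
    rw [AlgContra.sum_single]
    have h0 : x a (hne a b hb).choose - x b (hne a b hb).choose ≠ 0 :=
      sub_ne_zero.mpr (hne a b hb).choose_spec
    field_simp
    ring
  have hg' : ∀ c, ∑ a, g a (φ a c) + Q c = 0 := fun c => hg c
  obtain ⟨κ, A, hκ, hA1, hAs, hAid⟩ := AlgF.main φ Q hQ sh hsh hQs e he0 he1 g hg'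
  refine ⟨A, fun p q => κ • B p q, hA1, hAs, ?_, ?_⟩
  · intro c0 c0' v v'
    have h := hAid (c0, v) (c0', v')
    simp only [hφ] at h
    have e2 : Q ((c0, v) + (c0', v')) - Q (c0, v) - Q (c0', v')
        = ∑ p, ∑ q, B p q (v p * v' q + v' p * v q) := by
      simp only [Q, Prod.mk_add_mk, Pi.add_apply, ← Finset.sum_sub_distrib]
      apply Finset.sum_congr rfl
      intro p _
      apply Finset.sum_congr rfl
      intro q _
      have e3 : (v p + v' p) * (v q + v' q)
          = v p * v q + (v p * v' q + v' p * v q) + v' p * v' q := by ring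
      rw [e3, map_add, map_add]
      ring
    rw [e2, Finset.mul_sum] at h
    simp only [AddMonoidHom.smul_apply, smul_eq_mul]
    simp only [Finset.mul_sum] at h
    exact h
  · simp only [AddMonoidHom.smul_apply, smul_eq_mul]
    rw [← Finset.mul_sum, hB1, mul_one]
    exact hκ

/-- A signed array excludes a wild certificate. -/
theorem not_wildCert_of_signed {k d : ℕ} (x : Fin k → Fin d → ℝ) (hs : SignedArray x) :
    ¬ WildCert x := by
  classical
  rintro ⟨A, B, hA1, hAs, hid, hne⟩
  obtain ⟨P, N, s, hs0, hlaw, hS⟩ := hs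
  -- rescale so that `s = 1`
  obtain ⟨t, ht⟩ : ∃ t : ℝ, t * t * s = 1 := by
    refine ⟨Real.sqrt (1 / s), ?_⟩
    rw [Real.mul_self_sqrt (by positivity)]
    field_simp
  let sc : ℝ × (Fin d → ℝ) → ℝ × (Fin d → ℝ) := fun c => (t * c.1, fun p => t * c.2 p)
  have hcol : ∀ c i, col (sc c) (x i) = t * col c (x i) := by
    intro c i
    simp only [col, sc, mul_add, Finset.mul_sum]
    congr 1
    apply Finset.sum_congr rfl
    intro p _
    ring
  let W : ℝ × (Fin d → ℝ) → ℝ := fun c =>
    ∑ p, ∑ q, B p q (2 * ((sc c).2 p * (sc c).2 q))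
  have hW : ∀ c, W c = - ∑ a, A a (t * col c (x a)) (t * col c (x a)) := by
    intro c
    have h := hid (sc c).1 (sc c).1 (sc c).2 (sc c).2
    have e : ∀ a, (sc c).1 + ∑ p, (sc c).2 p * x a p = t * col c (x a) := fun a => hcol c a
    simp only [e] at h
    have e2 : ∀ p q, (sc c).2 p * (sc c).2 q + (sc c).2 p * (sc c).2 q
        = 2 * ((sc c).2 p * (sc c).2 q) := fun p q => by ring
    simp only [e2] at h
    simp only [W]
    linarith
  have hsumeq : (P.map W).sum = (N.map W).sum := by
    have h1 : ∀ M : Multiset (ℝ × (Fin d → ℝ)), (M.map W).sum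
        = - ∑ a, ((M.map fun c => col c (x a)).map fun y => A a (t * y) (t * y)).sum := by
      intro M
      induction M using Multiset.induction_on with
      | empty => simp
      | cons c M ih =>
        simp only [Multiset.map_cons, Multiset.sum_cons, Finset.sum_add_distrib]
        rw [ih, hW]
        ring
    rw [h1, h1]
    congr 1
    apply Finset.sum_congr rfl
    intro a _
    rw [hlaw a]
  have hWexp : ∀ M : Multiset (ℝ × (Fin d → ℝ)), (M.map W).sum
      = ∑ p, ∑ q, B p q (2 * (t * t * (M.map fun c => c.2 p * c.2 q).sum)) := by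
    intro M
    induction M using Multiset.induction_on with
    | empty => simp
    | cons c M ih =>
      simp only [Multiset.map_cons, Multiset.sum_cons, ih]
      simp only [W]
      rw [← Finset.sum_add_distrib]
      apply Finset.sum_congr rfl
      intro p _
      rw [← Finset.sum_add_distrib]
      apply Finset.sum_congr rfl
      intro q _
      rw [← map_add]
      congr 1
      simp only [sc]
      ring
  rw [hWexp, hWexp] at hsumeq
  have hfin : ∑ p, ∑ q, B p q (2 * (t * t * ((P.map fun c => c.2 p * c.2 q).sum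
      - (N.map fun c => c.2 p * c.2 q).sum))) = 0 := by
    have : ∀ p q, B p q (2 * (t * t * ((P.map fun c => c.2 p * c.2 q).sum
        - (N.map fun c => c.2 p * c.2 q).sum)))
        = B p q (2 * (t * t * (P.map fun c => c.2 p * c.2 q).sum))
          - B p q (2 * (t * t * (N.map fun c => c.2 p * c.2 q).sum)) := by
      intro p q
      rw [← map_sub]
      congr 1
      ring
    simp only [this, Finset.sum_sub_distrib]
    rw [hsumeq]
    ring
  simp only [hS] at hfin
  have h3 : ∀ p, ∑ q, B p q (2 * (t * t * (if p = q then s else 0))) = 2 * B p p 1 := by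
    intro p
    rw [Finset.sum_eq_single p]
    · rw [if_pos rfl, ht]
      have e : (2 : ℝ) * 1 = 1 + 1 := by ring
      rw [e, map_add]
      ring
    · intro q _ hq
      rw [if_neg (Ne.symm hq)]
      simp
    · simp
  simp only [h3] at hfin
  rw [← Finset.mul_sum] at hfin
  apply hne
  linarith

/-- **Duality.** For distinct points, a signed array exists exactly when no wild certificate does. -/
theorem signedArray_iff {k d : ℕ} (x : Fin k → Fin d → ℝ) (hinj : Function.Injective x) :
    SignedArray x ↔ ¬ WildCert x :=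
  ⟨not_wildCert_of_signed x, fun h => by
    by_contra hno
    exact h (wildCert_of_not_signed x hinj hno)⟩

/-- **Exact characterisation of Ramsey sets.**  A finite set of distinct points of `ℝ^d` is Ramsey if
and only if it carries no wild bilinear certificate. -/
theorem isRamsey_iff_not_wildCert {k d : ℕ} (X : Fin k → EuclideanSpace ℝ (Fin d))
    (hinj : Function.Injective X) :
    IsRamsey (Set.range X) ↔ ¬ WildCert (fun a p => X a p) := by
  have hinj' : Function.Injective (fun a p => X a p) := by
    intro a b h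
    apply hinj
    ext p
    exact congrFun h p
  rw [Vale.Agent.Lib.P058S.isRamsey_range_iff_signedArray, signedArray_iff _ hinj']

end Vale.Agent.Lib.P058S.Wild
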